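import Vale.Agent.P101.Work

/-! Part Z3: one-sided intertwining. -/

namespace Vale.Agent.P101

open Filter Topology Finset

variable {A B D E F Q T Z : Type} [CStarAlgebra A] [CStarAlgebra B] [CStarAlgebra D]
  [CStarAlgebra E] [CStarAlgebra F] [CStarAlgebra Q] [CStarAlgebra T] [CStarAlgebra Z]
  {ι κ : Type} [Fintype ι] [Fintype κ] [DecidableEq κ]

namespace Z3

/-- conjugation by a unitary -/
noncomputable abbrev cj (w : unitary T) : T ≃⋆ₐ[ℂ] T := Unitary.conjStarAlgAut ℂ T w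

lemma norm_cj (w : unitary T) (t : T) : ‖cj w t‖ = ‖t‖ :=
  NonUnitalStarAlgHom.norm_map (cj w) (cj w).injective t

lemma step (ι : A →⋆ₐ[ℂ] T)
    (h : ∀ (X : Finset A) (Y : Finset T) (ε : ℝ), 0 < ε → ∃ z ∈ unitary T,
      (∀ a ∈ X, ‖z * ι a - ι a * z‖ < ε) ∧ ∀ t ∈ Y, ∃ a, ‖z * t * star z - ι a‖ < ε)
    (a : ℕ → A) (t : ℕ → T) (n : ℕ) (s : unitary T × Finset A) :
    ∃ s' : unitary T × Finset A, s.2 ⊆ s'.2 ∧ a n ∈ s'.2 ∧
      (∀ x ∈ s.2, dist (cj s.1 (ι x)) (cj s'.1 (ι x)) ≤ (1 / 2) ^ n) ∧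
      ∀ j ≤ n, ∃ x ∈ s'.2, dist (cj s'.1 (ι x)) (t j) ≤ (1 / 2) ^ n := by
  classical
  obtain ⟨z, hz, h1, h2⟩ := h s.2 ((range (n + 1)).image fun j => cj (star s.1) (t j))
    ((1 / 2) ^ n) (by positivity)
  have h3 : ∀ j, ∃ x, j ≤ n → ‖z * cj (star s.1) (t j) * star z - ι x‖ < (1 / 2) ^ n := fun j => by
    by_cases hj : j ≤ n
    · obtain ⟨x, hx⟩ := h2 _ (mem_image_of_mem _ (mem_range.2 (Nat.lt_succ_of_le hj)))
      exact ⟨x, fun _ => hx⟩
    · exact ⟨0, fun h => absurd h hj⟩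
  choose x hx using h3
  have hm : ∀ u v : unitary T, ∀ y, cj (u * v) y = cj u (cj v y) := fun u v y => by
    simp [mul_assoc]
  refine ⟨(s.1 * star ⟨z, hz⟩, insert (a n) (s.2 ∪ (range (n + 1)).image x)),
    fun y hy => by simp [hy], by simp, fun y hy => ?_, fun j hj =>
      ⟨x j, mem_insert_of_mem (mem_union_right _
        (mem_image_of_mem _ (mem_range.2 (Nat.lt_succ_of_le hj)))), ?_⟩⟩
  · rw [dist_eq_norm, hm, ← map_sub, norm_cj, ← CStarRing.norm_mem_unitary_mul _ hz]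
    refine le_of_eq_of_le (congrArg _ ?_) (h1 y hy).le
    simp [mul_sub, ← mul_assoc, Unitary.mul_star_self_of_mem hz]
  · rw [dist_comm, dist_eq_norm, ← norm_cj (star (s.1 * star ⟨z, hz⟩)), map_sub, ← hm,
      Unitary.star_mul_self, star_mul, star_star, hm]
    refine le_of_eq_of_le (congrArg _ ?_) (hx j hj).le
    simp

lemma seq (ι : A →⋆ₐ[ℂ] T) (hι : Function.Injective ι)
    (h : ∀ (X : Finset A) (Y : Finset T) (ε : ℝ), 0 < ε → ∃ z ∈ unitary T,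
      (∀ a ∈ X, ‖z * ι a - ι a * z‖ < ε) ∧ ∀ t ∈ Y, ∃ a, ‖z * t * star z - ι a‖ < ε)
    (a : ℕ → A) (t : ℕ → T) : ∃ (ψ : ℕ → A →⋆ₐ[ℂ] T) (X : ℕ → Finset A),
      (∀ n x y, dist (ψ n x) (ψ n y) = dist x y) ∧ (∀ n, a n ∈ X (n + 1)) ∧
      (∀ m, ∀ x ∈ X m, ∀ k, dist (ψ (k + m) x) (ψ (k + 1 + m) x) ≤ (1 / 2) ^ m * (1 / 2) ^ k) ∧
      ∀ n, ∀ j ≤ n, ∃ x ∈ X (n + 1), dist (ψ (n + 1) x) (t j) ≤ (1 / 2) ^ n := by
  choose f hf using step ι h a t
  obtain ⟨s, hs⟩ : ∃ s : ℕ → unitary T × Finset A, ∀ n, s (n + 1) = f n (s n) :=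
    ⟨fun n => Nat.rec (1, ∅) f n, fun _ => rfl⟩
  have mono : Monotone fun n => (s n).2 :=
    monotone_nat_of_le_succ fun n => by rw [hs]; exact (hf n (s n)).1
  have hψ : ∀ (w : unitary T) x, ((cj w : T →⋆ₐ[ℂ] T)).comp ι x = cj w (ι x) := fun _ _ => rfl
  refine ⟨fun n => ((cj (s n).1 : T →⋆ₐ[ℂ] T)).comp ι, fun n => (s n).2, fun n x y => ?_,
    fun n => ?_, fun m x hx k => ?_, fun n j hj => ?_⟩
  · rw [dist_eq_norm, ← map_sub, hψ, norm_cj, NonUnitalStarAlgHom.norm_map ι hι, dist_eq_norm]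
  · simp only [hs]
    exact (hf n (s n)).2.1
  · rw [← pow_add, add_comm m, add_right_comm, hψ, hψ, hs]
    exact (hf (k + m) (s (k + m))).2.2.1 x (mono (Nat.le_add_left m k) hx)
  · simp only [hψ, hs]
    exact (hf n (s n)).2.2.2 j hj

lemma lim (ψ : ℕ → A →⋆ₐ[ℂ] T) (cau : ∀ x, CauchySeq fun n => ψ n x) :
    ∃ Φ : A →⋆ₐ[ℂ] T, ∀ x, Tendsto (fun n => ψ n x) atTop (𝓝 (Φ x)) := by
  choose φ hφ using fun x => cauchySeq_tendsto_of_complete (cau x)
  exact ⟨{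
      toFun := φ
      map_one' := tendsto_nhds_unique (hφ 1) (by simp)
      map_mul' := fun x y => tendsto_nhds_unique (hφ _) (by simpa using (hφ x).mul (hφ y))
      map_zero' := tendsto_nhds_unique (hφ 0) (by simp)
      map_add' := fun x y => tendsto_nhds_unique (hφ _) (by simpa using (hφ x).add (hφ y))
      commutes' := fun c => tendsto_nhds_unique (hφ _) (by
        simp only [AlgHomClass.commutes]; exact tendsto_const_nhds)
      map_star' := fun x => tendsto_nhds_unique (hφ _)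
        (by simpa only [map_star] using (hφ x).star) }, hφ⟩

end Z3

open Z3 in
theorem intertwine [TopologicalSpace.SeparableSpace A] [TopologicalSpace.SeparableSpace T]
    (ι : A →⋆ₐ[ℂ] T) (hι : Function.Injective ι)
    (h : ∀ (X : Finset A) (Y : Finset T) (ε : ℝ), 0 < ε → ∃ z ∈ unitary T,
      (∀ a ∈ X, ‖z * ι a - ι a * z‖ < ε) ∧ ∀ t ∈ Y, ∃ a, ‖z * t * star z - ι a‖ < ε) :
    Nonempty (A ≃⋆ₐ[ℂ] T) := by
  obtain ⟨a, ha⟩ := TopologicalSpace.exists_dense_seq A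
  obtain ⟨t, ht⟩ := TopologicalSpace.exists_dense_seq T
  obtain ⟨ψ, X, hd, hX, geo, ap⟩ := seq ι hι h a t
  have cau : ∀ x, CauchySeq fun n => ψ n x := fun x => by
    refine Metric.cauchySeq_iff.2 fun ε hε => ?_
    obtain ⟨k, hk⟩ := ha.exists_dist_lt x (show 0 < ε / 3 by positivity)
    have c1 : CauchySeq fun n => ψ n (a k) :=
      (cauchySeq_shift (u := fun n => ψ n (a k)) (k + 1)).1
        (cauchySeq_of_le_geometric (1 / 2) _ (by norm_num) (geo (k + 1) _ (hX k)))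
    obtain ⟨N, hN⟩ := Metric.cauchySeq_iff.1 c1 (ε / 3) (by positivity)
    refine ⟨N, fun m hm n hn' => ?_⟩
    have e1 := dist_triangle4 (ψ m x) (ψ m (a k)) (ψ n (a k)) (ψ n x)
    rw [hd, hd, dist_comm (a k)] at e1
    linarith [hN m hm n hn']
  obtain ⟨Φ, hφ⟩ := lim ψ cau
  have iso : Isometry Φ := Isometry.of_dist_eq fun x y =>
    tendsto_nhds_unique ((hφ x).dist (hφ y)) (by simp [hd])
  refine ⟨StarAlgEquiv.ofBijective Φ ⟨iso.injective, Set.range_eq_univ.1 ?_⟩⟩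
  refine Set.eq_univ_of_univ_subset ?_
  rw [← ht.closure_range]
  refine closure_minimal ?_ iso.isClosedEmbedding.isClosed_range
  rintro _ ⟨j, rfl⟩
  rw [← iso.isClosedEmbedding.isClosed_range.closure_eq, Metric.mem_closure_range_iff]
  intro ε hε
  obtain ⟨n, hn1, hn2⟩ := (((tendsto_pow_atTop_nhds_zero_of_lt_one (r := (1 / 2 : ℝ)) (by norm_num)
    (by norm_num)).eventually (gt_mem_nhds (show 0 < ε / 2 by positivity))).and
      (eventually_ge_atTop j)).exists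
  obtain ⟨x, hx, e3⟩ := ap n j hn2
  have e1 : dist (ψ (0 + (n + 1)) x) (Φ x) ≤ _ :=
    dist_le_of_le_geometric_of_tendsto₀ (f := fun k => ψ (k + (n + 1)) x) (1 / 2) _ (by norm_num)
      (geo (n + 1) x hx) ((hφ x).comp (tendsto_add_atTop_nat (n + 1)))
  refine ⟨x, ?_⟩
  have e2 := dist_triangle_left (t j) (Φ x) (ψ (n + 1) x)
  rw [zero_add, pow_succ, mul_div_assoc] at e1
  norm_num at e1 e3 hn1 ⊢
  linarith

end Vale.Agent.P101
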