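import Vale.Agent.P101.Work

/-! Part Z4 of P101: from generators to all elements; separability. -/

namespace Vale.Agent.P101

open Filter Topology Finset

variable {A T Z : Type} [CStarAlgebra A] [CStarAlgebra T] [CStarAlgebra Z]

namespace Z4

/-- The filter of good unitaries. -/
def fil (ι : A →⋆ₐ[ℂ] T) (j : Z →⋆ₐ[ℂ] T) : Filter T where
  sets := {S | ∃ (X : Finset A) (Y : Finset Z) (δ : ℝ), 0 < δ ∧ ∀ z ∈ unitary T,
    (∀ a ∈ X, ‖z * ι a - ι a * z‖ < δ) → (∀ d ∈ Y, ∃ a, ‖z * j d * star z - ι a‖ < δ) → z ∈ S}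
  univ_sets := ⟨∅, ∅, 1, one_pos, fun _ _ _ _ => trivial⟩
  sets_of_superset := fun ⟨X, Y, δ, h0, h⟩ hs => ⟨X, Y, δ, h0, fun z hz a b => hs (h z hz a b)⟩
  inter_sets := by
    classical
    rintro S S' ⟨X, Y, δ, h0, h⟩ ⟨X', Y', δ', h0', h'⟩
    refine ⟨X ∪ X', Y ∪ Y', min δ δ', lt_min h0 h0', fun z hz h1 h2 => ⟨h z hz ?_ ?_, h' z hz ?_ ?_⟩⟩
    · exact fun a ha => (h1 a (mem_union_left _ ha)).trans_le (min_le_left _ _)
    · exact fun d hd => (h2 d (mem_union_left _ hd)).imp fun a ha => ha.trans_le (min_le_left _ _)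
    · exact fun a ha => (h1 a (mem_union_right _ ha)).trans_le (min_le_right _ _)
    · exact fun d hd => (h2 d (mem_union_right _ hd)).imp fun a ha => ha.trans_le (min_le_right _ _)

lemma norm_conj {z : T} (hz : z ∈ unitary T) (t : T) : ‖z * t * star z‖ = ‖t‖ := by
  rw [CStarRing.norm_mul_mem_unitary _ (Unitary.star_mem hz), CStarRing.norm_mem_unitary_mul _ hz]

lemma unit (ι : A →⋆ₐ[ℂ] T) (j : Z →⋆ₐ[ℂ] T) : ∀ᶠ z in fil ι j, z ∈ unitary T :=
  ⟨∅, ∅, 1, one_pos, fun _ hz _ _ => hz⟩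

lemma all (ι : A →⋆ₐ[ℂ] T) (j : Z →⋆ₐ[ℂ] T)
    (hd : Dense (StarAlgebra.adjoin ℂ (Set.range ι ∪ Set.range j) : Set T)) (t : T) (ε : ℝ)
    (hε : 0 < ε) : ∀ᶠ z in fil ι j, ∃ a, ‖z * t * star z - ι a‖ < ε := by
  have hι : ∀ (a : A) (ε : ℝ), 0 < ε → ∀ᶠ z in fil ι j, ∃ a', ‖z * ι a * star z - ι a'‖ < ε := by
    intro a ε hε
    refine ⟨{a}, ∅, ε, hε, fun z hz h1 _ => ⟨a, ?_⟩⟩
    have e : z * ι a * star z - ι a = (z * ι a - ι a * z) * star z := by
      rw [sub_mul, mul_assoc (ι a), Unitary.mul_star_self_of_mem hz, mul_one]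
    rw [e, CStarRing.norm_mul_mem_unitary _ (Unitary.star_mem hz)]
    exact h1 a (mem_singleton_self a)
  have key : ∀ t ∈ StarAlgebra.adjoin ℂ (Set.range ι ∪ Set.range j), ∀ ε : ℝ, 0 < ε →
      ∀ᶠ z in fil ι j, ∃ a, ‖z * t * star z - ι a‖ < ε := by
    intro t ht
    induction ht using StarAlgebra.adjoin_induction with
    | mem x hx =>
      rcases hx with ⟨a, rfl⟩ | ⟨d, rfl⟩
      · exact hι a
      · exact fun ε hε => ⟨∅, {d}, ε, hε, fun z _ _ h2 => h2 d (mem_singleton_self d)⟩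
    | algebraMap r => rw [← AlgHomClass.commutes ι r]; exact hι _
    | add x y _ _ hx hy =>
      intro ε hε
      filter_upwards [hx _ (half_pos hε), hy _ (half_pos hε)] with z ⟨a, ha⟩ ⟨b, hb⟩
      refine ⟨a + b, ?_⟩
      have e : z * (x + y) * star z - ι (a + b) =
          (z * x * star z - ι a) + (z * y * star z - ι b) := by
        rw [map_add, mul_add, add_mul]; abel
      rw [e]
      linarith [norm_add_le (z * x * star z - ι a) (z * y * star z - ι b)]
    | mul x y _ _ hx hy =>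
      intro ε hε
      have hM : 0 < ‖x‖ + ‖y‖ + 1 := by positivity
      set δ := min 1 (ε / (‖x‖ + ‖y‖ + 1)) with hδ
      have d0 : 0 < δ := lt_min one_pos (div_pos hε hM)
      have d1 : δ ≤ 1 := min_le_left _ _
      have d2 : δ * (‖x‖ + ‖y‖ + 1) ≤ ε := (le_div_iff₀ hM).1 (min_le_right _ _)
      filter_upwards [hx _ d0, hy _ d0, unit ι j] with z ⟨a, ha⟩ ⟨b, hb⟩ hz
      refine ⟨a * b, ?_⟩
      have e0 : z * (x * y) * star z = (z * x * star z) * (z * y * star z) := by
        calc _ = z * x * (star z * z) * y * star z := by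
              rw [Unitary.star_mul_self_of_mem hz]; simp only [mul_assoc, one_mul]
          _ = _ := by simp only [mul_assoc]
      have nx := norm_conj hz x
      have ny := norm_conj hz y
      rw [e0, map_mul]
      generalize z * x * star z = u at *
      generalize z * y * star z = v at *
      have e : u * v - ι a * ι b = u * (v - ι b) + (u - ι a) * v - (u - ι a) * (v - ι b) := by
        noncomm_ring
      have n1 := norm_mul_le u (v - ι b)
      have n2 := norm_mul_le (u - ι a) v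
      have n3 := norm_mul_le (u - ι a) (v - ι b)
      have n4 := (norm_sub_le (u * (v - ι b) + (u - ι a) * v) ((u - ι a) * (v - ι b))).trans
        (add_le_add_left (norm_add_le _ _) _)
      rw [e]
      rw [nx] at n1
      rw [ny] at n2
      have m1 := mul_le_mul_of_nonneg_left hb.le (norm_nonneg x)
      have m2 := mul_le_mul_of_nonneg_right ha.le (norm_nonneg y)
      have m3 := mul_le_mul_of_nonneg_left (hb.le.trans d1) (norm_nonneg (u - ι a))
      linarith
    | star x _ hx =>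
      intro ε hε
      filter_upwards [hx _ hε] with z ⟨a, ha⟩
      refine ⟨star a, ?_⟩
      rw [← norm_star]
      simpa [map_star, mul_assoc] using ha
  obtain ⟨t', ht', h1⟩ := hd.exists_dist_lt t (half_pos hε)
  filter_upwards [key t' ht' _ (half_pos hε), unit ι j] with z ⟨a, ha⟩ hz
  refine ⟨a, ?_⟩
  have e : z * t * star z - ι a = z * (t - t') * star z + (z * t' * star z - ι a) := by
    rw [mul_sub, sub_mul]; abel
  have n := norm_add_le (z * (t - t') * star z) (z * t' * star z - ι a)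
  rw [norm_conj hz, ← dist_eq_norm] at n
  rw [e]
  linarith

end Z4

theorem upgrade (ι : A →⋆ₐ[ℂ] T) (j : Z →⋆ₐ[ℂ] T)
    (hd : Dense (StarAlgebra.adjoin ℂ (Set.range ι ∪ Set.range j) : Set T))
    (h : ∀ (X : Finset A) (Y : Finset Z) (ε : ℝ), 0 < ε → ∃ z ∈ unitary T,
      (∀ a ∈ X, ‖z * ι a - ι a * z‖ < ε) ∧ ∀ d ∈ Y, ∃ a, ‖z * j d * star z - ι a‖ < ε)
    (X : Finset A) (Y : Finset T) (ε : ℝ) (hε : 0 < ε) : ∃ z ∈ unitary T,
      (∀ a ∈ X, ‖z * ι a - ι a * z‖ < ε) ∧ ∀ t ∈ Y, ∃ a, ‖z * t * star z - ι a‖ < ε := by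
  have h1 : ∀ᶠ z in Z4.fil ι j, ∀ a ∈ X, ‖z * ι a - ι a * z‖ < ε :=
    ⟨X, ∅, ε, hε, fun _ _ h1 _ => h1⟩
  have h2 := (Y.eventually_all).2 fun t _ => Z4.all ι j hd t ε hε
  obtain ⟨X', Y', δ, h0, h3⟩ := h1.and h2
  obtain ⟨z, hz, a1, a2⟩ := h X' Y' δ h0
  exact ⟨z, hz, h3 z hz a1 a2⟩

theorem sep [TopologicalSpace.SeparableSpace A] [TopologicalSpace.SeparableSpace Z]
    (ι : A →⋆ₐ[ℂ] T) (j : Z →⋆ₐ[ℂ] T)
    (hd : Dense (StarAlgebra.adjoin ℂ (Set.range ι ∪ Set.range j) : Set T)) :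
    TopologicalSpace.SeparableSpace T := by
  have c1 : Continuous ι := AddMonoidHomClass.continuous_of_bound ι 1 fun x => by
    rw [one_mul]; exact NonUnitalStarAlgHom.norm_apply_le ι x
  have c2 : Continuous j := AddMonoidHomClass.continuous_of_bound j 1 fun x => by
    rw [one_mul]; exact NonUnitalStarAlgHom.norm_apply_le j x
  obtain ⟨c, hc, hs⟩ := (TopologicalSpace.isSeparable_range c1).union
    (TopologicalSpace.isSeparable_range c2)
  have h1 : (c ∪ star c).Countable := hc.union (hc.preimage star_injective)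
  have h2 : (Submonoid.closure (c ∪ star c) : Set T).Countable := by
    have := h1.to_subtype
    refine (Set.countable_range fun l : List (c ∪ star c : Set T) =>
      (l.map Subtype.val).prod).mono fun x hx => ?_
    obtain ⟨l, hl, rfl⟩ := Submonoid.exists_list_of_mem_closure hx
    exact ⟨l.attachWith _ hl, by simp⟩
  have h3 : TopologicalSpace.IsSeparable (StarAlgebra.adjoin ℂ c : Set T) := by
    have := h2.isSeparable.span (R := ℂ)
    rwa [← StarAlgebra.adjoin_eq_span] at this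
  have h4 : StarAlgebra.adjoin ℂ (Set.range ι ∪ Set.range j) ≤
      (StarAlgebra.adjoin ℂ c).topologicalClosure :=
    StarAlgebra.adjoin_le (hs.trans (closure_mono (StarAlgebra.subset_adjoin ℂ c)))
  exact (hd.mono h4).isSeparable_iff.1 h3.closure

end Vale.Agent.P101
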