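import Vale.Agent.P101.Work

/-! Part H: from commuting order zero maps to a homomorphism on the dimension drop algebra. -/

namespace Vale.Agent.P101

open Filter Topology Finset
open scoped Kronecker

variable {A B D E F Q T Z : Type} [CStarAlgebra A] [CStarAlgebra B] [CStarAlgebra D]
  [CStarAlgebra E] [CStarAlgebra F] [CStarAlgebra Q] [CStarAlgebra T] [CStarAlgebra Z]
  {ι κ : Type} [Fintype ι] [Fintype κ] [DecidableEq κ]

theorem OZ.div {M : κ → κ → B} {h : B} (hM : OZ M h) {p : ℕ} {μ : Type} [Fintype μ]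
    (e : Fin p × μ ≃ κ) : OZ (fun a b : Fin p => ∑ c, M (e (a, c)) (e (b, c))) h := by
  classical
  refine ⟨fun a b => ?_, fun a b a' b' => ?_, ?_⟩
  · simp [star_sum, hM.st]
  · simp only [sum_mul_sum, hM.mul, e.injective.eq_iff, Prod.mk.injEq]
    split_ifs with h
    · simp [h, mul_sum]
    · simp [h]
  · rw [← hM.sum, ← e.sum_comp, Fintype.sum_prod_type]

namespace H

lemma exists_phi {z : B} (hz : IsSelfAdjoint z) : ∃ Φ : C(ℝ, ℂ) →⋆ₐ[ℂ] B,
    Φ ⟨Complex.ofReal, Complex.continuous_ofReal⟩ = z ∧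
      ∀ x, Commute z x → ∀ g, Commute (Φ g) x := by
  have hn : IsStarNormal z := hz.isStarNormal
  refine ⟨(cfcHom hn).comp (ContinuousMap.compStarAlgHom' ℂ ℂ
    (⟨fun w => w.1.re, by fun_prop⟩ : C(spectrum ℂ z, ℝ))), ?_, fun x hx g => ?_⟩
  · refine Eq.trans ?_ (cfcHom_id (R := ℂ) hn)
    rw [StarAlgHom.comp_apply]
    congr 1
    ext w
    exact (hz.mem_spectrum_eq_re w.2).symm
  · exact hz.commute_cfcHom hn hx _

lemma OZ.prod {κ' : Type} [Fintype κ'] [DecidableEq κ'] {M : κ → κ → B} {N : κ' → κ' → B}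
    {h k : B} (hM : OZ M h) (hN : OZ N k) (hc : ∀ a b c d, Commute (M a b) (N c d)) :
    OZ (fun i j : κ × κ' => M i.1 j.1 * N i.2 j.2) (h * k) := by
  have h1 : ∀ a b, Commute (M a b) k := fun a b => by
    rw [← hN.sum]; exact Commute.sum_right _ _ _ fun i _ => hc _ _ _ _
  refine ⟨fun i j => by rw [star_mul, hM.st, hN.st, (hc _ _ _ _).eq], fun i j l m => ?_, ?_⟩
  · rw [mul_assoc, ← mul_assoc (N _ _), ← (hc _ _ _ _).eq, mul_assoc, ← mul_assoc (M i.1 j.1),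
      hM.mul, hN.mul]
    by_cases e1 : j.1 = l.1 <;> by_cases e2 : j.2 = l.2 <;> simp [Prod.ext_iff, e1, e2]
    simp only [mul_assoc, (h1 _ _).left_comm]
  · rw [← hM.sum, ← hN.sum, sum_mul_sum, Fintype.sum_prod_type]

variable (Φ : C(ℝ, ℂ) →⋆ₐ[ℂ] B)

/-- matrices of functions applied to an order zero map -/
noncomputable def lam (M : κ → κ → B) : Matrix κ κ C(ℝ, ℂ) →ₗ[ℂ] B where
  toFun G := ∑ i, ∑ j, Φ (G i j) * M i j
  map_add' G G' := by simp [add_mul, sum_add_distrib]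
  map_smul' c G := by simp [smul_sum]

variable {Φ} {M : κ → κ → B} {w : B}

lemma lam_apply (G : Matrix κ κ C(ℝ, ℂ)) : lam Φ M G = ∑ i, ∑ j, Φ (G i j) * M i j := rfl

lemma lam_one (hM : OZ M w) : lam Φ M 1 = w := by
  simp [lam_apply, Matrix.one_apply, apply_ite Φ, hM.sum]

lemma lam_comm (hc : ∀ g i j, Commute (Φ g) (M i j)) (g : C(ℝ, ℂ)) (G : Matrix κ κ C(ℝ, ℂ)) :
    Commute (Φ g) (lam Φ M G) :=
  Commute.sum_right _ _ _ fun i _ => Commute.sum_right _ _ _ fun j _ =>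
    ((Commute.all g (G i j)).map Φ).mul_right (hc g i j)

lemma lam_star (hM : OZ M w) (hc : ∀ g i j, Commute (Φ g) (M i j)) (G : Matrix κ κ C(ℝ, ℂ)) :
    lam Φ M (star G) = star (lam Φ M G) := by
  simp only [lam_apply, star_sum, star_mul, hM.st, Matrix.star_apply, ← map_star]
  rw [sum_comm]
  exact sum_congr rfl fun i _ => sum_congr rfl fun j _ => (hc _ _ _).eq

lemma lam_mul (hM : OZ M w) (hc : ∀ g i j, Commute (Φ g) (M i j))
    (G G' : Matrix κ κ C(ℝ, ℂ)) : lam Φ M G * lam Φ M G' = w * lam Φ M (G * G') := by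
  have h1 : ∀ g, Commute (Φ g) w := fun g => by
    rw [← hM.sum]; exact Commute.sum_right _ _ _ fun i _ => hc _ _ _
  have h2 : ∀ i j k l, Φ (G i j) * M i j * (Φ (G' k l) * M k l) =
      if j = k then w * (Φ (G i j * G' k l) * M i l) else 0 := fun i j k l => by
    rw [mul_assoc, ← mul_assoc (M i j), ← (hc _ _ _).eq, mul_assoc, hM.mul, ← mul_assoc,
      ← map_mul]
    split_ifs
    · rw [(h1 _).left_comm]
    · simp
  calc lam Φ M G * lam Φ M G'
      = ∑ i, ∑ j, ∑ k, ∑ l, Φ (G i j) * M i j * (Φ (G' k l) * M k l) := by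
        rw [lam_apply, lam_apply, sum_mul]
        refine sum_congr rfl fun i _ => ?_
        rw [sum_mul]
        refine sum_congr rfl fun j _ => ?_
        rw [mul_sum]
        exact sum_congr rfl fun k _ => mul_sum _ _ _
    _ = ∑ i, ∑ j, ∑ l, w * (Φ (G i j * G' j l) * M i l) := by
        simp only [h2, sum_ite_irrel, sum_const_zero, sum_ite_eq, mem_univ, if_true]
    _ = _ := by
        simp only [lam_apply, Matrix.mul_apply, map_sum, sum_mul, mul_sum]
        exact sum_congr rfl fun i _ => sum_comm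

omit [DecidableEq κ] in
lemma lam_smul (g : C(ℝ, ℂ)) (G : Matrix κ κ C(ℝ, ℂ)) : lam Φ M (g • G) = Φ g * lam Φ M G := by
  simp [lam_apply, mul_sum, mul_assoc]

section
variable {κ' : Type} [Fintype κ'] [DecidableEq κ'] {N : κ' → κ' → B} {k : B}

omit [DecidableEq κ] in
lemma lam_kl (hN : OZ N k) (G : Matrix κ κ C(ℝ, ℂ)) :
    lam Φ (fun i j : κ × κ' => M i.1 j.1 * N i.2 j.2) (G ⊗ₖ (1 : Matrix κ' κ' C(ℝ, ℂ))) =
      lam Φ M G * k := by
  simp only [lam_apply, Fintype.sum_prod_type, Matrix.kroneckerMap_apply, Matrix.one_apply,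
    mul_ite, mul_one, mul_zero, apply_ite Φ, map_zero, ite_mul, zero_mul, sum_ite_eq, mem_univ,
    if_true, ← hN.sum, sum_mul, mul_sum, mul_assoc]
  exact sum_comm

omit [DecidableEq κ'] in
lemma lam_kr (hM : OZ M w) (hc : ∀ g i j, Commute (Φ g) (M i j)) (G : Matrix κ' κ' C(ℝ, ℂ)) :
    lam Φ (fun i j : κ × κ' => M i.1 j.1 * N i.2 j.2) ((1 : Matrix κ κ C(ℝ, ℂ)) ⊗ₖ G) =
      w * lam Φ N G := by
  simp only [lam_apply, Fintype.sum_prod_type, Matrix.kroneckerMap_apply, Matrix.one_apply,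
    one_mul, apply_ite Φ, map_zero, ite_mul, zero_mul, sum_ite_irrel, sum_const_zero, sum_ite_eq,
    mem_univ, if_true, ← hM.sum, sum_mul, mul_sum, (hc _ _ _).left_comm]
  rw [sum_comm]
  refine sum_congr rfl fun i _ => ?_
  rw [sum_comm]

end

lemma asm {V : Type} [Ring V] [StarRing V] [Algebra ℂ V] (a b e : V →ₗ[ℂ] B)
    (x0 x x1 u v : C(ℝ, ℂ)) (ca : ∀ g f, Commute (Φ g) (a f)) (cb : ∀ g f, Commute (Φ g) (b f))
    (ce : ∀ g f, Commute (Φ g) (e f)) (sa : ∀ f, a (star f) = star (a f))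
    (sb : ∀ f, b (star f) = star (b f)) (se : ∀ f, e (star f) = star (e f))
    (ma : ∀ f g, a f * a g = Φ u * a (f * g)) (mb : ∀ f g, b f * b g = Φ v * b (f * g))
    (me : ∀ f g, e f * e g = Φ (u * v) * e (f * g)) (oa : a 1 = Φ u) (ob : b 1 = Φ v)
    (oe : e 1 = Φ (u * v)) (r0 : ∀ f, Φ x0 * e f = Φ x0 * (Φ v * a f))
    (r1 : ∀ f, Φ x1 * e f = Φ x1 * (Φ u * b f)) (s0 : star x0 = x0) (s : star x = x)
    (s1 : star x1 = x1) (h1 : x0 + x + x1 = 1) (h2 : x0 * x1 = 0) (h3 : x * v = x)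
    (h4 : x * u = x) (h5 : x0 * u = x0) (h6 : x1 * v = x1) : Nonempty (V →⋆ₐ[ℂ] B) := by
  let ψ : V →ₗ[ℂ] B := (LinearMap.mulLeft ℂ (Φ x0)).comp a + (LinearMap.mulLeft ℂ (Φ x1)).comp b +
    (LinearMap.mulLeft ℂ (Φ x)).comp e
  have hψ : ∀ f, ψ f = Φ x0 * a f + Φ x1 * b f + Φ x * e f := fun f => rfl
  have hm : ∀ g g' y, Φ g * (Φ g' * y) = Φ (g * g') * y := fun g g' y => by
    rw [map_mul, mul_assoc]
  have k0 : ∀ f, Φ x0 * ψ f = Φ x0 * a f := fun f => by
    have : Φ x0 * (Φ x * e f) = Φ (x * (x0 * v)) * a f := by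
      rw [hm, mul_comm x0, ← hm, r0, hm x0, hm]
    rw [hψ, mul_add, mul_add, this, hm, hm, h2, map_zero, zero_mul, add_zero, ← add_mul,
      ← map_add]
    congr 2
    linear_combination x0 * h1 - h2 + x0 * h3
  have k1 : ∀ f, Φ x1 * ψ f = Φ x1 * b f := fun f => by
    have : Φ x1 * (Φ x * e f) = Φ (x * (x1 * u)) * b f := by
      rw [hm, mul_comm x1, ← hm, r1, hm x1, hm]
    rw [hψ, mul_add, mul_add, this, hm, hm, mul_comm x1 x0, h2, map_zero, zero_mul, zero_add,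
      ← add_mul, ← map_add]
    congr 2
    linear_combination x1 * h1 - h2 + x1 * h4
  have k : ∀ f, Φ x * ψ f = Φ x * e f := fun f => by
    have e0 : Φ x * (Φ x0 * a f) = Φ x * (Φ x0 * e f) := by
      rw [r0, hm x0, hm, hm]
      congr 2
      linear_combination -x0 * h3
    have e1 : Φ x * (Φ x1 * b f) = Φ x * (Φ x1 * e f) := by
      rw [r1, hm x1, hm, hm]
      congr 2
      linear_combination -x1 * h4
    rw [hψ, mul_add, mul_add, e0, e1, hm, hm, hm, ← add_mul, ← add_mul, ← map_add, ← map_add]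
    congr 2
    linear_combination x * h1
  have key : ∀ (y w : C(ℝ, ℂ)) (d : V →ₗ[ℂ] B), (∀ g f, Commute (Φ g) (d f)) →
      (∀ f, Φ y * ψ f = Φ y * d f) → y * w = y → (∀ f g, d f * d g = Φ w * d (f * g)) →
      d 1 = Φ w → (∀ f g, Φ y * ψ (f * g) = Φ y * (ψ f * ψ g)) ∧ Φ y * ψ 1 = Φ y * 1 := by
    intro y w d cd kd hw md od
    refine ⟨fun f g => Eq.symm ?_, ?_⟩
    · rw [← mul_assoc, kd, (cd _ _).eq, mul_assoc, kd, ← mul_assoc, ← (cd _ _).eq, mul_assoc, md,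
        hm, hw, kd]
    · rw [kd, od, ← map_mul, hw, mul_one]
  have ex : ∀ s t : B, Φ x0 * s = Φ x0 * t → Φ x * s = Φ x * t → Φ x1 * s = Φ x1 * t → s = t :=
    fun s t e0 e e1 => by
    have : ∀ s : B, Φ x0 * s + Φ x * s + Φ x1 * s = s := fun s => by
      rw [← add_mul, ← add_mul, ← map_add, ← map_add, h1, map_one, one_mul]
    exact (this s).symm.trans (by rw [e0, e, e1, this])
  have K0 := key x0 u a ca k0 h5 ma oa
  have K := key x (u * v) e ce k (by rw [← mul_assoc, h4, h3]) me oe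
  have K1 := key x1 v b cb k1 h6 mb ob
  refine ⟨{ AlgHom.ofLinearMap ψ (ex _ _ K0.2 K.2 K1.2)
    fun f g => ex _ _ (K0.1 f g) (K.1 f g) (K1.1 f g) with map_star' := fun f => ?_ }⟩
  change ψ (star f) = star (ψ f)
  rw [hψ, hψ, sa, sb, se, star_add, star_add, star_mul, star_mul, star_mul, ← map_star Φ,
    ← map_star Φ, ← map_star Φ, s0, s, s1, ← sa, ← sb, ← se, (ca _ _).eq, (cb _ _).eq, (ce _ _).eq]

lemma exists_fun : ∃ (x0 x1 n0 n1 : C(ℝ, ℂ)) (r : C(ℝ, unitInterval)),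
    star x0 = x0 ∧ star x1 = x1 ∧ star n0 = n0 ∧ star n1 = n1 ∧
    (∀ t : ℝ, 2 / 5 ≤ t → x0 t = 0) ∧ (∀ t : ℝ, t ≤ 1 / 3 → x0 t = 1) ∧
    (∀ t : ℝ, t ≤ 3 / 5 → x1 t = 0) ∧ (∀ t : ℝ, 2 / 3 ≤ t → x1 t = 1) ∧
    (∀ t : ℝ, t ≤ 2 / 3 → n0 t * (1 - t) = 1) ∧ (∀ t : ℝ, 1 / 3 ≤ t → n1 t * t = 1) ∧
    (∀ t : ℝ, t ≤ 2 / 5 → r t = 0) ∧ (∀ t : ℝ, 3 / 5 ≤ t → r t = 1) := by
  have hn : ∀ {f : ℝ → ℝ}, Continuous f → Continuous fun t => (max (f t) (1 / 3))⁻¹ :=
    fun hf => (hf.max continuous_const).inv₀ fun t =>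
      (lt_of_lt_of_le (by norm_num) (le_max_right _ _)).ne'
  refine ⟨⟨fun t => ((min 1 (max 0 (15 * (2 / 5 - t))) : ℝ) : ℂ), by fun_prop⟩,
    ⟨fun t => ((min 1 (max 0 (15 * (t - 3 / 5))) : ℝ) : ℂ), by fun_prop⟩,
    ⟨fun t => (((max (1 - t) (1 / 3))⁻¹ : ℝ) : ℂ),
      Complex.continuous_ofReal.comp (hn (by fun_prop))⟩,
    ⟨fun t => (((max t (1 / 3))⁻¹ : ℝ) : ℂ), Complex.continuous_ofReal.comp (hn continuous_id)⟩,
    ⟨fun t => Set.projIcc 0 1 zero_le_one (5 * (t - 2 / 5)),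
      continuous_projIcc.comp (by fun_prop)⟩, ?_, ?_, ?_, ?_, fun t h => ?_, fun t h => ?_,
      fun t h => ?_, fun t h => ?_, fun t h => ?_, fun t h => ?_, fun t h => ?_, fun t h => ?_⟩
  · ext t; exact Complex.conj_ofReal _
  · ext t; exact Complex.conj_ofReal _
  · ext t; exact Complex.conj_ofReal _
  · ext t; exact Complex.conj_ofReal _
  · rw [ContinuousMap.coe_mk, max_eq_left (by linarith), min_eq_right zero_le_one,
      Complex.ofReal_zero]
  · rw [ContinuousMap.coe_mk, min_eq_left (le_max_of_le_right (by linarith)), Complex.ofReal_one]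
  · rw [ContinuousMap.coe_mk, max_eq_left (by linarith), min_eq_right zero_le_one,
      Complex.ofReal_zero]
  · rw [ContinuousMap.coe_mk, min_eq_left (le_max_of_le_right (by linarith)), Complex.ofReal_one]
  · rw [ContinuousMap.coe_mk, max_eq_left (by linarith)]
    exact_mod_cast inv_mul_cancel₀ (by linarith : 0 < 1 - t).ne'
  · rw [ContinuousMap.coe_mk, max_eq_left (by linarith)]
    exact_mod_cast inv_mul_cancel₀ (by linarith : 0 < t).ne'
  · exact Set.projIcc_of_le_left zero_le_one (by linarith)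
  · exact Set.projIcc_of_right_le zero_le_one (by linarith)

variable {p q : ℕ}

/-- the function read along `r` -/
noncomputable def gE (r : C(ℝ, unitInterval)) :
    DimDrop p q →ₗ[ℂ] Matrix (Fin p × Fin q) (Fin p × Fin q) C(ℝ, ℂ) where
  toFun f := Matrix.of fun i j => ⟨fun t => f.1 (r t) i j,
    (f.1.continuous.comp r.continuous).matrix_elem i j⟩
  map_add' _ _ := rfl
  map_smul' _ _ := rfl

/-- the left end -/
noncomputable def gA (c : Fin q) : DimDrop p q →ₗ[ℂ] Matrix (Fin p) (Fin p) C(ℝ, ℂ) where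
  toFun f := Matrix.of fun a b => ContinuousMap.const ℝ (f.1 0 (a, c) (b, c))
  map_add' _ _ := rfl
  map_smul' _ _ := rfl

/-- the right end -/
noncomputable def gB (a : Fin p) : DimDrop p q →ₗ[ℂ] Matrix (Fin q) (Fin q) C(ℝ, ℂ) where
  toFun f := Matrix.of fun c d => ContinuousMap.const ℝ (f.1 1 (a, c) (a, d))
  map_add' _ _ := rfl
  map_smul' _ _ := rfl

lemma gE_apply (r : C(ℝ, unitInterval)) (f : DimDrop p q) (i j : Fin p × Fin q) (t : ℝ) :
    gE r f i j t = f.1 (r t) i j := rfl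

lemma gA_apply (c : Fin q) (f : DimDrop p q) (a b : Fin p) (t : ℝ) :
    gA c f a b t = f.1 0 (a, c) (b, c) := rfl

lemma gB_apply (a : Fin p) (f : DimDrop p q) (c d : Fin q) (t : ℝ) :
    gB a f c d t = f.1 1 (a, c) (a, d) := rfl

lemma gE_mul (r : C(ℝ, unitInterval)) (f g : DimDrop p q) : gE r f * gE r g = gE r (f * g) := by
  ext i j t
  simp [gE_apply, Matrix.mul_apply]

lemma gA_mul (c : Fin q) (f g : DimDrop p q) : gA c f * gA c g = gA c (f * g) := by
  obtain ⟨x, hx⟩ := f.2.1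
  obtain ⟨y, hy⟩ := g.2.1
  ext i j t
  have : (f * g).1 0 = (x * y) ⊗ₖ (1 : Matrix (Fin q) (Fin q) ℂ) := by
    rw [MulMemClass.coe_mul, ContinuousMap.mul_apply, hx, hy, ← Matrix.mul_kronecker_mul, mul_one]
  rw [gA_apply, this]
  simp [gA_apply, Matrix.mul_apply, hx, hy]

lemma gB_mul (a : Fin p) (f g : DimDrop p q) : gB a f * gB a g = gB a (f * g) := by
  obtain ⟨x, hx⟩ := f.2.2
  obtain ⟨y, hy⟩ := g.2.2
  ext i j t
  have : (f * g).1 1 = (1 : Matrix (Fin p) (Fin p) ℂ) ⊗ₖ (x * y) := by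
    rw [MulMemClass.coe_mul, ContinuousMap.mul_apply, hx, hy, ← Matrix.mul_kronecker_mul, mul_one]
  rw [gB_apply, this]
  simp [gB_apply, Matrix.mul_apply, hx, hy]

lemma gE_one (r : C(ℝ, unitInterval)) : gE r (1 : DimDrop p q) = 1 := by
  ext i j t
  simp [gE_apply, Matrix.one_apply, apply_ite (fun g : C(ℝ, ℂ) => g t)]

lemma gA_one (c : Fin q) : gA c (1 : DimDrop p q) = 1 := by
  ext i j t
  simp [gA_apply, Matrix.one_apply, apply_ite (fun g : C(ℝ, ℂ) => g t)]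

lemma gB_one (a : Fin p) : gB a (1 : DimDrop p q) = 1 := by
  ext i j t
  simp [gB_apply, Matrix.one_apply, apply_ite (fun g : C(ℝ, ℂ) => g t)]

end H

open H in
theorem hom {p q : ℕ} (hp : 0 < p) (hq : 0 < q) {α : Fin p → Fin p → B} {β : Fin q → Fin q → B}
    {z : B} (hα : OZ α (1 - z)) (hβ : OZ β z) (hz : Ctr z)
    (hc : ∀ a b c d, Commute (α a b) (β c d)) : Nonempty (DimDrop p q →⋆ₐ[ℂ] B) := by
  obtain ⟨Φ, hT, hΦ⟩ := exists_phi hz.1
  obtain ⟨x0, x1, n0, n1, r, s0, s1, sn0, sn1, a0, a1, b0, b1, u1, v1, r0, r1⟩ := exists_fun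
  set T : C(ℝ, ℂ) := ⟨Complex.ofReal, Complex.continuous_ofReal⟩ with hTd
  have hTt : ∀ t : ℝ, T t = t := fun _ => rfl
  have cα : ∀ g a b, Commute (Φ g) (α a b) := fun g a b => hΦ _ (by
    simpa using (Commute.one_left (α a b)).sub_left (hα.comm a b)) g
  have cβ : ∀ g c d, Commute (Φ g) (β c d) := fun g c d => hΦ _ (hβ.comm c d) g
  have cΦ : ∀ g g', Commute (Φ g) (Φ g') := fun g g' => (Commute.all g g').map Φ
  have hA : OZ (fun a b => Φ n0 * α a b) (Φ (n0 * (1 - T))) := by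
    rw [map_mul, map_sub, map_one, hT]
    exact hα.cut (by rw [IsSelfAdjoint, ← map_star, sn0]) (cα _)
  have hB : OZ (fun c d => Φ n1 * β c d) (Φ (n1 * T)) := by
    rw [map_mul, hT]
    exact hβ.cut (by rw [IsSelfAdjoint, ← map_star, sn1]) (cβ _)
  have cA : ∀ g a b, Commute (Φ g) (Φ n0 * α a b) := fun g a b => (cΦ _ _).mul_right (cα _ _ _)
  have cB : ∀ g c d, Commute (Φ g) (Φ n1 * β c d) := fun g a b => (cΦ _ _).mul_right (cβ _ _ _)
  have hE := OZ.prod hA hB fun a b c d =>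
    (cB n0 c d).mul_left ((cα n1 a b).symm.mul_right (hc a b c d))
  rw [← map_mul] at hE
  have cE : ∀ g (i j : Fin p × Fin q), Commute (Φ g) (Φ n0 * α i.1 j.1 * (Φ n1 * β i.2 j.2)) :=
    fun g i j => (cA _ _ _).mul_right (cB _ _ _)
  refine asm (Φ := Φ) ((lam Φ fun a b => Φ n0 * α a b).comp (gA ⟨0, hq⟩))
    ((lam Φ fun c d => Φ n1 * β c d).comp (gB ⟨0, hp⟩))
    ((lam Φ fun i j : Fin p × Fin q => Φ n0 * α i.1 j.1 * (Φ n1 * β i.2 j.2)).comp (gE r))
    x0 (1 - x0 - x1) x1 (n0 * (1 - T)) (n1 * T) (fun g f => lam_comm cA _ _)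
    (fun g f => lam_comm cB _ _) (fun g f => lam_comm cE _ _) (fun f => lam_star hA cA (gA _ f))
    (fun f => lam_star hB cB (gB _ f)) (fun f => lam_star hE cE (gE r f))
    (fun f g => ?_) (fun f g => ?_) (fun f g => ?_) ?_ ?_ ?_ (fun f => ?_) (fun f => ?_) s0
    (by rw [star_sub, star_sub, star_one, s0, s1]) s1 (by ring) ?_ ?_ ?_ ?_ ?_
  · simp only [LinearMap.comp_apply, lam_mul hA cA, gA_mul]
  · simp only [LinearMap.comp_apply, lam_mul hB cB, gB_mul]
  · simp only [LinearMap.comp_apply, lam_mul hE cE, gE_mul]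
  · rw [LinearMap.comp_apply, gA_one, lam_one hA]
  · rw [LinearMap.comp_apply, gB_one, lam_one hB]
  · rw [LinearMap.comp_apply, gE_one, lam_one hE]
  · obtain ⟨x, hx⟩ := f.2.1
    rw [LinearMap.comp_apply, LinearMap.comp_apply, (lam_comm cA _ _).eq (a := Φ (n1 * T)),
      ← lam_kl hB, ← lam_smul, ← lam_smul]
    congr 1
    ext i j t
    rcases le_total t (2 / 5) with h | h
    · simp [gE_apply, gA_apply, r0 t h, hx, Matrix.one_apply, apply_ite (fun g : C(ℝ, ℂ) => g t)]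
    · simp [a0 t h]
  · obtain ⟨x, hx⟩ := f.2.2
    rw [LinearMap.comp_apply, LinearMap.comp_apply, ← lam_kr hA cA, ← lam_smul, ← lam_smul]
    congr 1
    ext i j t
    rcases le_total t (3 / 5) with h | h
    · simp [b0 t h]
    · simp [gE_apply, gB_apply, r1 t h, hx, Matrix.one_apply, apply_ite (fun g : C(ℝ, ℂ) => g t)]
  · ext t
    rcases le_total t (2 / 5) with h | h
    · simp [b0 t (by linarith)]
    · simp [a0 t h]
  · ext t
    rcases le_total t (1 / 3) with h | h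
    · simp [a1 t h, b0 t (by linarith)]
    · simp [hTt, v1 t h]
  · ext t
    rcases le_total t (2 / 3) with h | h
    · simp [hTt, u1 t h]
    · simp [b1 t h, a0 t (by linarith)]
  · ext t
    rcases le_total t (2 / 5) with h | h
    · simp [hTt, u1 t (by linarith)]
    · simp [a0 t h]
  · ext t
    rcases le_total t (3 / 5) with h | h
    · simp [b0 t h]
    · simp [hTt, v1 t (by linarith)]

end Vale.Agent.P101
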