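import Vale.Agent.P101.Work

/-! Interpolation between two commuting order zero maps. -/

namespace Vale.Agent.P101

open Filter Topology Finset

variable {A B D E F Q T Z : Type} [CStarAlgebra A] [CStarAlgebra B] [CStarAlgebra D]
  [CStarAlgebra E] [CStarAlgebra F] [CStarAlgebra Q] [CStarAlgebra T] [CStarAlgebra Z]
  {ι κ : Type} [Fintype ι] [Fintype κ] [DecidableEq κ]

lemma intp_alg {C S X Y Z X' Y' Z' Φ : B} (hCS : Commute C S)
    (cX : Commute C X) (cY : Commute C Y) (cX' : Commute C X') (cΦ : Commute C Φ)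
    (sX : Commute S X) (sY : Commute S Y) (sX' : Commute S X') (sΦ : Commute S Φ)
    (cZ : Commute C Z') (sZ : Commute S Z') (xy : Commute X Y') (xy' : Commute X' Y)
    (hXY : C * (X * Y) = C * Z) (hXY' : S * (X' * Y') = S * Z')
    (hΦ : C * S * (Φ * Φ) = C * S) (hX : C * S * (X' * Φ) = C * S * (Φ * X))
    (hY : C * S * (Φ * Y') = C * S * (Y * Φ)) (hZ : C * S * (Z' * Φ) = C * S * (Φ * Z)) :
    (C * C * X + S * S * X' + Complex.I • (C * S * (X * Φ - Φ * X))) *
      (C * C * Y + S * S * Y' + Complex.I • (C * S * (Y * Φ - Φ * Y))) =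
    (C * C + S * S) * (C * C * Z + S * S * Z' + Complex.I • (C * S * (Z * Φ - Φ * Z))) := by
  set w := C * S with hw
  have wX : Commute w X := cX.mul_left sX
  have wY : Commute w Y := cY.mul_left sY
  have wX' : Commute w X' := cX'.mul_left sX'
  have wΦ : Commute w Φ := cΦ.mul_left sΦ
  have l : ∀ {a p q : B}, Commute w a → w * p = w * q → w * (a * p) = w * (a * q) :=
    fun {a p q} h1 h2 => by rw [h1.left_comm, h2, h1.left_comm]
  have r : ∀ {p q : B} (a : B), w * p = w * q → w * (p * a) = w * (q * a) :=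
    fun {p q} a h2 => by rw [← mul_assoc, h2, mul_assoc]
  have z0 : w * (X * Y) = w * Z := by rw [hw, hCS.eq, mul_assoc, hXY, mul_assoc]
  have f0 : ∀ a, w * (Φ * (Φ * a)) = w * a := fun a => by rw [← mul_assoc Φ, ← mul_assoc, hΦ]
  have e8 : w * (X * (Y * Φ)) = w * (Z * Φ) := by rw [← mul_assoc X]; exact r Φ z0
  have e9 : w * (Φ * (X * Y)) = w * (Φ * Z) := l wΦ z0
  have e1 : w * (X * (Φ * (Y * Φ))) = w * (X * Y') := l wX ((l wΦ hY).symm.trans (f0 _))
  have e2 : w * (X * (Φ * (Φ * Y))) = w * Z := (l wX (f0 _)).trans z0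
  have e3 : w * (Φ * (X * (Y * Φ))) = w * Z' := by
    rw [l wΦ e8, ← mul_assoc Φ, ← r Φ hZ, mul_assoc Z', 
      l (q := 1) (cZ.mul_left sZ) (by rw [hΦ, mul_one]), mul_one]
  have e4 : w * (Φ * (X * (Φ * Y))) = w * (X' * Y) := by
    rw [← mul_assoc Φ, ← r _ hX, mul_assoc X']; exact l wX' (f0 _)
  have e5 : w * (X' * (Φ * Y)) = w * (Φ * Z) := by
    rw [← mul_assoc X', r _ hX, mul_assoc Φ, e9]
  have e6 : w * (X * (Φ * Y')) = w * (Z * Φ) := (l wX hY).trans e8
  have e7 : w * (X' * (Y * Φ)) = w * (Φ * (X * Y')) := by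
    rw [xy'.left_comm, l wY hX, xy.eq, ← mul_assoc Φ, r _ hY, mul_assoc Y]
  rw [hw] at e1 e2 e3 e4 e5 e6 e7 e8 e9
  simp only [mul_assoc] at e1 e2 e3 e4 e5 e6 e7 e8 e9
  simp only [hw, mul_add, add_mul, mul_sub, sub_mul, smul_mul_assoc, mul_smul_comm, smul_add, smul_sub, smul_smul,
    Complex.I_mul_I, mul_assoc, cX.symm.left_comm, cX'.symm.left_comm, cΦ.symm.left_comm,
    sX.symm.left_comm, sX'.symm.left_comm, sΦ.symm.left_comm, hCS.symm.left_comm, neg_one_smul]
  have g1 : C * (C * (C * (C * (X * Y)))) = C * (C * (C * (C * Z))) := by rw [hXY]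
  have g2 : S * (S * (S * (S * (X' * Y')))) = S * (S * (S * (S * Z'))) := by rw [hXY']
  have a : ∀ {p q : B}, C * (S * p) = C * (S * q) →
      C * (C * (S * (S * p))) = C * (C * (S * (S * q))) := fun {p q} h => by
    have : ∀ t, C * (C * (S * (S * t))) = C * (S * (C * (S * t))) := fun t => by
      rw [hCS.left_comm (S * t)]
    rw [this, this, h]
  have b : ∀ {p q : B}, C * (S * p) = C * (S * q) →
      C * (S * (S * (S * p))) = C * (S * (S * (S * q))) := fun {p q} h => by
    have : ∀ t, C * (S * (S * (S * t))) = S * (S * (C * (S * t))) := fun t => by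
      rw [hCS.left_comm (S * (S * t)), hCS.left_comm (S * t)]
    rw [this, this, h]
  rw [g1, g2, a e1, a e2, a e3, a e4, b e5, b e6, b e7, e8, e9]
  abel

lemma fl_comm {M N : κ → κ → B} {x : B} (h : ∀ a b, Commute x (M a b) ∧ Commute x (N a b)) :
    Commute x (fl M N) :=
  Commute.sum_right _ _ _ fun i _ => Commute.sum_right _ _ _ fun j _ =>
    (h i j).1.mul_right (h j i).2

lemma OZ.comm_h {M : κ → κ → B} {h x : B} (hM : OZ M h) (hx : ∀ a b, Commute x (M a b)) :
    Commute x h := by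
  rw [← hM.sum]; exact Commute.sum_right _ _ _ fun i _ => hx i i

section
variable {M N : κ → κ → B} {h h' : B} (hM : OZ M h) (hN : OZ N h')
  (hc : ∀ a b c d, Commute (M a b) (N c d))

include hM in
lemma m_fl (a b : κ) : M a b * fl M N = h * ∑ j, M a j * N j b := by
  simp only [fl, mul_sum, ← mul_assoc, hM.mul, ite_mul, zero_mul]
  rw [sum_comm]
  simp

include hM hc in
lemma fl_m (a b : κ) : fl M N * M a b = h * ∑ i, M i b * N a i := by
  simp only [fl, mul_sum, sum_mul]
  refine sum_congr rfl fun i _ => ?_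
  have : ∀ j, M i j * N j i * M a b = if j = a then h * (M i b * N j i) else 0 := fun j => by
    rw [mul_assoc, ← (hc a b j i).eq, ← mul_assoc, hM.mul]
    split_ifs <;> simp [mul_assoc]
  simp [this]

include hN hc in
lemma n_fl (a b : κ) : N a b * fl M N = h' * ∑ i, M i b * N a i := by
  simp only [fl, mul_sum]
  refine sum_congr rfl fun i _ => ?_
  have : ∀ j, N a b * (M i j * N j i) = if b = j then h' * (M i j * N a i) else 0 := fun j => by
    rw [← (hc i j a b).left_comm, hN.mul]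
    split_ifs
    · rw [(hN.comm_h (hc i j)).left_comm]
    · simp
  simp [this]

include hN hc in
lemma fl_n (a b : κ) : fl M N * N a b = h' * ∑ j, M a j * N j b := by
  simp only [fl, mul_sum, sum_mul]
  rw [sum_comm]
  refine sum_congr rfl fun j _ => ?_
  have : ∀ i, M i j * N j i * N a b = if i = a then h' * (M i j * N j b) else 0 := fun i => by
    rw [mul_assoc, hN.mul]
    split_ifs
    · rw [(hN.comm_h (hc i j)).left_comm]
    · simp
  simp [this]

include hM hN hc in
lemma fl_fl : fl M N * fl M N = h * h' * (h * h') := by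
  have e : ∀ i j, M i j * N j i * fl M N = h * h' * (M i i * N j j) := fun i j => by
    rw [mul_assoc, n_fl hN hc, (hN.comm_h (hc i j)).left_comm]
    simp only [mul_sum, ← mul_assoc (M i j), hM.mul, ite_mul, zero_mul,
      sum_ite_eq, mem_univ, if_true]
    have : Commute h h' := hN.comm_h fun a b => (hM.comm_h fun c d => (hc c d a b).symm).symm
    rw [this.eq]; simp only [mul_assoc]
  conv_lhs => enter [1]; rw [fl]
  simp only [sum_mul, e, ← mul_sum, hN.sum]
  rw [← sum_mul, hM.sum]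

include hM hN hc in
lemma fl_star : star (fl M N) = fl M N := by
  simp only [fl, star_sum, star_mul, hM.st, hN.st]
  rw [sum_comm]
  exact sum_congr rfl fun i _ => sum_congr rfl fun j _ => (hc _ _ _ _).eq.symm

end

theorem interp {M N : κ → κ → B} {h h' C S : B} (hM : OZ M h) (hN : OZ N h')
    (hc : ∀ a b c d, Commute (M a b) (N c d)) (hC : IsSelfAdjoint C) (hS : IsSelfAdjoint S)
    (hCS : Commute C S) (h1 : ∀ a b, Commute C (M a b) ∧ Commute C (N a b))
    (h2 : ∀ a b, Commute S (M a b) ∧ Commute S (N a b)) (h3 : C * h = C) (h4 : S * h' = S) :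
    OZ (intp C S M N) (C * C + S * S) := by
  have cΦ := fl_comm h1
  have sΦ := fl_comm h2
  have w1 : ∀ x, C * S * (h * x) = C * S * x := fun x => by
    rw [hCS.eq, mul_assoc, ← mul_assoc C, h3, mul_assoc]
  have w2 : ∀ x, C * S * (h' * x) = C * S * x := fun x => by
    rw [mul_assoc, ← mul_assoc S, h4, mul_assoc]
  have hΦ : C * S * (fl M N * fl M N) = C * S := by
    rw [fl_fl hM hN hc, mul_assoc h, w1, w2, w1, mul_assoc, h4]
  have hX : ∀ a b, C * S * (N a b * fl M N) = C * S * (fl M N * M a b) := fun a b => by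
    rw [n_fl hN hc, fl_m hM hc, w1, w2]
  have hY : ∀ a b, C * S * (fl M N * N a b) = C * S * (M a b * fl M N) := fun a b => by
    rw [fl_n hN hc, m_fl hM, w1, w2]
  refine ⟨fun a b => ?_, fun a b c d => ?_, ?_⟩
  · have k1 : Commute (C * C) (M b a) := (h1 b a).1.mul_left (h1 b a).1
    have k2 : Commute (S * S) (N b a) := (h2 b a).2.mul_left (h2 b a).2
    have k3 : Commute (C * S) (fl M N * M b a - M b a * fl M N) :=
      ((cΦ.mul_right (h1 b a).1).sub_right ((h1 b a).1.mul_right cΦ)).mul_left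
        ((sΦ.mul_right (h2 b a).1).sub_right ((h2 b a).1.mul_right sΦ))
    simp only [intp, star_add, star_mul, star_smul, star_sub, hC.star_eq, hS.star_eq, hM.st, hN.st,
      fl_star hM hN hc]
    rw [← k1.eq, ← k2.eq, ← hCS.eq, ← k3.eq, Complex.star_def, Complex.conj_I, neg_smul,
      ← smul_neg, ← mul_neg, neg_sub]
  · by_cases hbc : b = c
    · subst hbc
      rw [if_pos rfl]
      exact intp_alg hCS (h1 _ _).1 (h1 _ _).1 (h1 _ _).2 cΦ (h2 _ _).1 (h2 _ _).1 (h2 _ _).2 sΦ
        (h1 _ _).2 (h2 _ _).2 (hc _ _ _ _) (hc _ _ _ _).symm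
        (by rw [hM.mul, if_pos rfl, ← mul_assoc, h3]) (by rw [hN.mul, if_pos rfl, ← mul_assoc, h4])
        hΦ (hX _ _) (hY _ _) (hX _ _)
    · rw [if_neg hbc]
      have := intp_alg (Z := 0) (Z' := 0) hCS (h1 a b).1 (h1 c d).1 (h1 a b).2 cΦ (h2 _ _).1
        (h2 _ _).1 (h2 _ _).2 sΦ (Commute.zero_right _) (Commute.zero_right _) (hc a b c d)
        (hc _ _ _ _).symm (by rw [hM.mul, if_neg hbc]) (by rw [hN.mul, if_neg hbc])
        hΦ (hX _ _) (hY _ _) (by simp)
      simpa [intp] using this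
  · have k : Commute h (fl M N) := fl_comm fun a b =>
      ⟨hM.comm a b, (hM.comm_h fun c d => (hc c d a b).symm).symm⟩
    simp only [intp, sum_add_distrib, ← mul_sum, ← smul_sum, sum_sub_distrib, ← sum_mul, hM.sum,
      hN.sum]
    rw [k.eq, sub_self, mul_zero, smul_zero, add_zero, mul_assoc, mul_assoc, h3, h4]

end Vale.Agent.P101
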