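import Mathlib

/-! Scalar functions for part RW of P101. -/

namespace Vale.Agent.P101.RW

noncomputable def cl (x : ℝ) : ℝ := max 0 (min 1 x)
noncomputable def ell (t : ℝ) : ℝ := cl (5 - 6 * |t|)
noncomputable def elp (t : ℝ) : ℝ := cl (5 - 6 * t)
noncomputable def ph (t : ℝ) : ℝ := cl (-3 * t - 1)
noncomputable def fS (t : ℝ) : ℝ := ell t * ph t
noncomputable def fC (t : ℝ) : ℝ := ell t * √(1 - ph t ^ 2)
noncomputable def pp (t : ℝ) : ℝ := max t 0
noncomputable def n1 (t : ℝ) : ℝ := (max (1 - pp t) (1 / 6))⁻¹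
noncomputable def n2 (t : ℝ) : ℝ := (max ((1 - pp (-t)) * pp (-t)) (1 / 9))⁻¹
noncomputable def u0 (t : ℝ) : ℝ := √(1 - elp t ^ 2)
noncomputable def rr (t : ℝ) : ℝ := u0 t * (√(max t (2 / 3)))⁻¹

@[fun_prop] lemma c_cl : Continuous cl := by unfold cl; fun_prop
@[fun_prop] lemma c_ell : Continuous ell := by unfold ell; fun_prop
@[fun_prop] lemma c_elp : Continuous elp := by unfold elp; fun_prop
@[fun_prop] lemma c_ph : Continuous ph := by unfold ph; fun_prop
@[fun_prop] lemma c_fS : Continuous fS := by unfold fS; fun_prop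
@[fun_prop] lemma c_fC : Continuous fC := by unfold fC; fun_prop
@[fun_prop] lemma c_pp : Continuous pp := by unfold pp; fun_prop
@[fun_prop] lemma c_n1 : Continuous n1 :=
  Continuous.inv₀ (by fun_prop) fun t => (lt_max_of_lt_right (by norm_num)).ne'
@[fun_prop] lemma c_n2 : Continuous n2 :=
  Continuous.inv₀ (by fun_prop) fun t => (lt_max_of_lt_right (by norm_num)).ne'
@[fun_prop] lemma c_u0 : Continuous u0 := by unfold u0; fun_prop
@[fun_prop] lemma c_rr : Continuous rr :=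
  c_u0.mul (Continuous.inv₀ (by fun_prop) fun t =>
    (Real.sqrt_pos.2 (lt_max_of_lt_right (by norm_num))).ne')

lemma cl0 {x : ℝ} (h : x ≤ 0) : cl x = 0 := max_eq_left ((min_le_right _ _).trans h)
lemma cl1 {x : ℝ} (h : 1 ≤ x) : cl x = 1 := by rw [cl, min_eq_left h, max_eq_right zero_le_one]
lemma cl_sq (x : ℝ) : 0 ≤ 1 - cl x ^ 2 := by
  have h0 : 0 ≤ cl x := le_max_left _ _
  have h1 : cl x ≤ 1 := max_le zero_le_one (min_le_left _ _)
  nlinarith

lemma u0_zero {t : ℝ} (h : t ≤ 2 / 3) : u0 t = 0 := by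
  rw [u0, elp, cl1 (by linarith)]; simp

lemma rr_zero {t : ℝ} (h : t ≤ 2 / 3) : rr t = 0 := by rw [rr, u0_zero h, zero_mul]

lemma ell_zero {t : ℝ} (h : 5 / 6 ≤ |t|) : ell t = 0 := cl0 (by linarith)

lemma u0_sq (t : ℝ) : u0 t * u0 t = 1 - elp t ^ 2 := Real.mul_self_sqrt (cl_sq _)

lemma i0 (t : ℝ) : 1 - ell t ^ 2 ∈ Set.Icc (0 : ℝ) 1 := ⟨cl_sq _, by nlinarith [sq_nonneg (ell t)]⟩

lemma i1 (t : ℝ) : fC t * fC t + fS t * fS t = 1 - (1 - ell t ^ 2) := by
  have : √(1 - ph t ^ 2) * √(1 - ph t ^ 2) = 1 - ph t ^ 2 := Real.mul_self_sqrt (cl_sq _)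
  unfold fC fS
  linear_combination (ell t ^ 2) * this

lemma i2 (t : ℝ) : fC t * (n1 t * (1 - pp t)) = fC t := by
  rcases le_or_gt (5 / 6) |t| with h | h
  · rw [fC, ell_zero h]; simp
  · have : 1 / 6 < 1 - pp t := by
      have : pp t < 5 / 6 := max_lt (abs_lt.1 h).2 (by norm_num)
      linarith
    rw [n1, max_eq_left this.le, inv_mul_cancel₀ (by linarith), mul_one]

lemma n2_eq {t : ℝ} (h : t < 5 / 6) (h' : 1 / 3 < t) : n2 (-t) = ((1 - t) * t)⁻¹ := by
  rw [n2, neg_neg, pp, max_eq_left (by linarith : 0 ≤ t), max_eq_left (by nlinarith)]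

lemma i3 (t : ℝ) : fS t * (n2 t * ((1 - pp (-t)) * pp (-t))) = fS t := by
  rcases le_or_gt (5 / 6) |t| with h | h
  · rw [fS, ell_zero h]; simp
  rcases le_or_gt (-t) (1 / 3) with h' | h'
  · rw [fS, ph, cl0 (by linarith)]; simp
  have h1 := (abs_lt.1 h).1
  have := n2_eq (t := -t) (by linarith) h'
  rw [neg_neg] at this
  rw [this, pp, max_eq_left (by linarith : 0 ≤ -t), inv_mul_cancel₀ (by nlinarith), mul_one]

lemma i4 (t : ℝ) : rr t * pp t * rr t = u0 t * u0 t := by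
  rcases le_or_gt t (2 / 3) with h | h
  · rw [rr_zero h, u0_zero h]; simp
  · have h0 : 0 < √t := Real.sqrt_pos.2 (by linarith)
    have h1 : √t * √t = t := Real.mul_self_sqrt (by linarith)
    rw [rr, max_eq_left h.le, pp, max_eq_left (by linarith : 0 ≤ t)]
    field_simp
    linear_combination (-(u0 t) ^ 2) * h1

lemma i5 (t : ℝ) : u0 (-t) * rr t = 0 := by
  rcases le_or_gt t (2 / 3) with h | h
  · rw [rr_zero h, mul_zero]
  · rw [u0_zero (by linarith), zero_mul]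

lemma i6 (t : ℝ) : u0 t * u0 t + rr (-t) * rr (-t) * pp (-t) = 1 - ell t ^ 2 := by
  rw [mul_right_comm, i4, u0_sq, u0_sq]
  rcases le_total 0 t with h | h
  · rw [ell, abs_of_nonneg h, elp, elp, cl1 (x := 5 - 6 * -t) (by linarith)]; ring
  · rw [ell, abs_of_nonpos h, elp, elp, cl1 (x := 5 - 6 * t) (by linarith)]; ring

lemma i7 (t : ℝ) : u0 t * fS t = 0 := by
  rcases le_or_gt t (2 / 3) with h | h
  · rw [u0_zero h, zero_mul]
  · rw [fS, ph, cl0 (by linarith)]; simp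

lemma i8 (t : ℝ) : u0 t * (fC t * fC t) * n1 t = u0 t * (ell t ^ 2 * n1 t) := by
  rcases le_or_gt t (2 / 3) with h | h
  · rw [u0_zero h]; simp
  · rw [fC, ph, cl0 (by linarith)]; simp; ring_nf

lemma i9 (t : ℝ) : rr (-t) * fC t = 0 := by
  rcases le_or_gt (-t) (2 / 3) with h | h
  · rw [rr_zero h, zero_mul]
  · rw [fC, ph, cl1 (by linarith)]; simp

lemma i10 (t : ℝ) :
    rr t * (fS (-t) * fS (-t)) * n2 (-t) * pp t = rr t * (ell t ^ 2 * n1 t) := by
  rcases le_or_gt t (2 / 3) with h | h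
  · rw [rr_zero h]; simp
  have e : ell (-t) = ell t := by rw [ell, ell, abs_neg]
  rcases le_or_gt (5 / 6) |t| with h' | h'
  · rw [fS, e, ell_zero h']; simp
  have h1 := (abs_lt.1 h').2
  have e2 : pp t = t := max_eq_left (by linarith)
  rw [fS, e, ph, cl1 (by linarith), n2_eq h1 (by linarith), n1, e2, max_eq_left (by linarith)]
  have : t ≠ 0 := by linarith
  have : 1 - t ≠ 0 := by linarith
  field_simp

end Vale.Agent.P101.RW
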