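import Vale.Agent.P101.Itw
import Vale.Agent.P101.RWFun
import Vale.Agent.P101.PartINT

/-! Part RW of P101: the Rørdam–Winter step. -/

namespace Vale.Agent.P101

open Finset

variable {B : Type} [CStarAlgebra B] {κ : Type} [Fintype κ] [DecidableEq κ]

namespace RW

/-- conjugation by a row -/
noncomputable def cj (w : κ → B) (x : B) : B := ∑ j, w j * x * star (w j)

lemma cj_w {w : κ → B} {g : B} (hw : ∀ j k, star (w j) * w k = if j = k then g else 0) (x : B)
    (k : κ) : cj w x * w k = w k * x * g := by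
  rw [cj, sum_mul]
  simp only [mul_assoc, hw, mul_ite, mul_zero, sum_ite_eq', mem_univ, if_true]

lemma cj_mul {w : κ → B} {g : B} (hw : ∀ j k, star (w j) * w k = if j = k then g else 0)
    (x y : B) : cj w x * cj w y = cj w (x * g * y) := by
  conv_lhs => rw [cj.eq_1 w y, mul_sum]
  refine sum_congr rfl fun k _ => ?_
  rw [← mul_assoc, ← mul_assoc, cj_w hw]
  simp only [mul_assoc]

lemma cj_oz {w : κ → B} {g h : B} {M : κ → κ → B} (hM : OZ M h)
    (hw : ∀ j k, star (w j) * w k = if j = k then g else 0) (hg : ∀ a b, Commute g (M a b)) :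
    OZ (fun a b => cj w (M a b)) (cj w h) := by
  have hh : Commute g h := by rw [← hM.sum]; exact Commute.sum_right _ _ _ fun i _ => hg i i
  refine ⟨fun a b => ?_, fun a b c d => ?_, ?_⟩
  · simp only [cj, star_sum, star_mul, star_star, hM.st, mul_assoc]
  · rw [cj_mul hw, ← (hg a b).eq, mul_assoc, hM.mul]
    split_ifs
    · rw [cj_mul hw, ← hh.eq, mul_assoc]
    · simp [cj]
  · simp only [cj]
    rw [sum_comm]
    simp only [← sum_mul, ← mul_sum, hM.sum]

lemma fm (X : B) (f g : ℝ → ℝ) (hf : Continuous f)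
    (hg : Continuous g) : cfc f X * cfc g X = cfc (fun t => f t * g t) X :=
  (cfc_mul f g X hf.continuousOn hg.continuousOn).symm

lemma fa (X : B) (f g : ℝ → ℝ) (hf : Continuous f)
    (hg : Continuous g) : cfc f X + cfc g X = cfc (fun t => f t + g t) X :=
  (cfc_add X f g hf.continuousOn hg.continuousOn).symm

lemma f1 {X : B} (hX : IsSelfAdjoint X) (f : ℝ → ℝ) (hf : Continuous f) :
    1 - cfc f X = cfc (fun t => 1 - f t) X := by
  rw [cfc_sub (fun _ => 1) f X continuousOn_const hf.continuousOn, cfc_const_one ℝ X]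

lemma fsa (X : B) (f : ℝ → ℝ) : star (cfc f X) = cfc f X :=
  (cfc_predicate (p := IsSelfAdjoint) f X).star_eq

theorem core {M : κ → κ → B} {X : B} (hX : IsSelfAdjoint X)
    (hM : OZ M (cfc (fun t => 1 - pp t) X)) (hXM : ∀ a b, Commute X (M a b)) {w : κ → B}
    (hw : ∀ j k, star (w j) * w k = if j = k then cfc pp X else 0)
    (hP : ∑ j, w j * star (w j) = cfc (fun t => pp (-t)) X) (hXw : ∀ j, X * w j = w j * (-X))
    (hMw : ∀ c d j, M c d * w j = if d = j then w c else 0) :
    ∃ (α : κ → κ → B) (β : Option κ → Option κ → B) (z : B), OZ α (1 - z) ∧ OZ β z ∧ Ctr z ∧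
      ∀ a b c d, Commute (α a b) (β c d) := by
  have fw : ∀ (f : ℝ → ℝ) (_ : Continuous f) j, cfc f X * w j = w j * cfc (fun t => f (-t)) X :=
    fun f hf j => by rw [itw hX hX.neg (hXw j) hf, cfc_comp_neg f X]
  have wf : ∀ (f : ℝ → ℝ) (_ : Continuous f) j, w j * cfc f X = cfc (fun t => f (-t)) X * w j :=
    fun f hf j => by rw [fw _ (by fun_prop)]; simp only [neg_neg]
  have fM : ∀ (f : ℝ → ℝ) a b, Commute (cfc f X) (M a b) := fun f a b => (hXM a b).cfc_real f
  have hγ := cj_oz hM hw (fM pp)
  have hXγ : ∀ a b, Commute X (cj w (M a b)) := fun a b => by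
    refine Commute.sum_right _ _ _ fun j _ => ?_
    have e : star (w j) * X = -X * star (w j) := by
      simpa only [star_mul, hX.star_eq, star_neg] using congrArg star (hXw j)
    have e2 := (hXM a b).eq
    rw [Commute, SemiconjBy, ← mul_assoc, ← mul_assoc, hXw, mul_assoc _ _ X, e]
    simp only [mul_assoc, neg_mul, mul_neg]
    rw [← mul_assoc X, e2, mul_assoc]
  have fγ : ∀ (f : ℝ → ℝ) a b, Commute (cfc f X) (cj w (M a b)) :=
    fun f a b => (hXγ a b).cfc_real f
  have hMγ : ∀ a b c d, Commute (M a b) (cj w (M c d)) := fun a b c d => by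
    have e : ∀ j, star (w j) * M a b = if a = j then star (w b) else 0 := fun j => by
      have := congrArg star (hMw b a j)
      rw [star_mul, hM.st] at this
      rw [this]; split_ifs <;> simp
    rw [Commute, SemiconjBy, cj, mul_sum, sum_mul]
    simp only [← mul_assoc, hMw]
    simp only [mul_assoc, e, ite_mul, zero_mul, mul_ite, mul_zero, sum_ite_eq, mem_univ, if_true]
  have hu : cj w (cfc (fun t => 1 - pp t) X) = cfc (fun t => (1 - pp (-t)) * pp (-t)) X := by
    rw [← fm X _ _ (by fun_prop) (by fun_prop), ← hP, mul_sum]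
    exact sum_congr rfl fun j _ => by rw [wf _ (by fun_prop), mul_assoc]
  rw [hu] at hγ
  have hM' := hM.cut (cfc_predicate n1 X) (fM n1)
  have hN' := hγ.cut (cfc_predicate n2 X) (fγ n2)
  have cc := cfc_commute_cfc (R := ℝ) (A := B) (p := IsSelfAdjoint)
  have fM' : ∀ (f : ℝ → ℝ) a b, Commute (cfc f X) (cfc n1 X * M a b) :=
    fun f a b => (cc _ _ _).mul_right (fM f a b)
  have fN' : ∀ (f : ℝ → ℝ) a b, Commute (cfc f X) (cfc n2 X * cj w (M a b)) :=
    fun f a b => (cc _ _ _).mul_right (fγ f a b)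
  have hα := interp (C := cfc fC X) (S := cfc fS X) hM' hN'
    (fun a b c d => (fN' n1 c d).mul_left ((fM n2 a b).symm.mul_right (hMγ a b c d)))
    (cfc_predicate fC X) (cfc_predicate fS X) (cc _ _ _) (fun a b => ⟨fM' _ a b, fN' _ a b⟩)
    (fun a b => ⟨fM' _ a b, fN' _ a b⟩) (by rw [fm X _ _ (by fun_prop) (by fun_prop), fm X _ _ (by fun_prop) (by fun_prop)]; simp only [i2])
    (by rw [fm X _ _ (by fun_prop) (by fun_prop), fm X _ _ (by fun_prop) (by fun_prop)]; simp only [i3])
  rw [fm X _ _ (by fun_prop) (by fun_prop), fm X _ _ (by fun_prop) (by fun_prop), fa X _ _ (by fun_prop) (by fun_prop)] at hα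
  simp only [i1] at hα
  rw [← f1 hX _ (by fun_prop)] at hα
  let v : Option κ → B := fun a => a.elim (cfc u0 X) fun j => w j * cfc rr X
  have h0 : ∀ j, cfc u0 X * (w j * cfc rr X) = 0 := fun j => by
    rw [← mul_assoc, fw _ c_u0, mul_assoc, fm X _ _ (by fun_prop) (by fun_prop)]; simp [i5]
  have hv : ∀ a b, star (v a) * v b = if a = b then cfc (fun t => u0 t * u0 t) X else 0 := by
    rintro (_ | j) (_ | k)
    · simp only [v, Option.elim, fsa, if_true, fm X u0 u0 c_u0 c_u0]
    · simp only [v, Option.elim, fsa, h0]; simp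
    · have := congrArg star (h0 j)
      rw [star_mul, fsa, star_zero] at this
      simp only [v, Option.elim, this]; simp
    · simp only [v, Option.elim, star_mul, fsa, Option.some.injEq]
      rw [mul_assoc, ← mul_assoc (star (w j)), hw]
      split_ifs
      · rw [← mul_assoc, fm X _ _ (by fun_prop) (by fun_prop), fm X _ _ (by fun_prop) (by fun_prop)]; simp only [i4]
      · simp
  have hβ := oz_of_v hv
  have hz : ∑ a, v a * star (v a) = cfc (fun t => 1 - ell t ^ 2) X := by
    have e : ∀ j, w j * cfc rr X * star (w j * cfc rr X) =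
        cfc (fun t => rr (-t) * rr (-t)) X * (w j * star (w j)) := fun j => by
      rw [star_mul, fsa, mul_assoc, ← mul_assoc (cfc rr X), fm X _ _ (by fun_prop) (by fun_prop), ← mul_assoc,
        wf _ (by fun_prop), mul_assoc]
    rw [Fintype.sum_option]
    simp only [v, Option.elim, fsa, e]
    rw [← mul_sum, hP, fm X _ _ (by fun_prop) (by fun_prop), fm X _ _ (by fun_prop) (by fun_prop), fa X _ _ (by fun_prop) (by fun_prop)]
    simp only [i6]
  rw [hz] at hβ
  refine ⟨_, _, _, hα, hβ, Ctr.cfc i0, ?_⟩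
  set α := intp (cfc fC X) (cfc fS X) (fun i j => cfc n1 X * M i j)
    (fun i j => cfc n2 X * cj w (M i j)) with hαd
  have fα : ∀ (f : ℝ → ℝ) a b, Commute (cfc f X) (α a b) := fun f a b => by
    have hΦ : Commute (cfc f X) (fl (fun i j => cfc n1 X * M i j)
        (fun i j => cfc n2 X * cj w (M i j))) :=
      Commute.sum_right _ _ _ fun i _ => Commute.sum_right _ _ _ fun j _ =>
        (fM' f i j).mul_right (fN' f j i)
    exact ((((cc _ _ _).mul_right (cc _ _ _)).mul_right (fM' f a b)).add_right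
      (((cc _ _ _).mul_right (cc _ _ _)).mul_right (fN' f a b))).add_right
      ((((cc _ _ _).mul_right (cc _ _ _)).mul_right
        (((fM' f a b).mul_right hΦ).sub_right (hΦ.mul_right (fM' f a b)))).smul_right _)
  have key : ∀ x y a, α x y * v a = v a * (cfc (fun t => ell t ^ 2 * n1 t) X * M x y) := by
    rintro x y (_ | j)
    · have e1 : cfc u0 X * cfc fS X = 0 := by rw [fm X _ _ (by fun_prop) (by fun_prop)]; simp [i7]
      have e2 : cfc u0 X * (cfc fC X * cfc fS X) = 0 := by
        rw [(cc fC fS X).eq, ← mul_assoc, e1, zero_mul]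
      simp only [v, Option.elim]
      rw [← (fα u0 x y).eq, hαd, intp, mul_add, mul_add, mul_smul_comm, ← mul_assoc _ (_ * cfc fS X),
        ← mul_assoc _ (_ * cfc fS X), e2, ← mul_assoc _ (cfc fS X), e1]
      simp only [zero_mul, smul_zero, add_zero, ← mul_assoc]
      rw [mul_assoc (cfc u0 X), fm X _ _ (by fun_prop) (by fun_prop), fm X _ _ (by fun_prop) (by fun_prop), fm X _ _ (by fun_prop) (by fun_prop), fm X _ _ (by fun_prop) (by fun_prop)]
      simp only [i8]
    · have e1 : cfc (fun t => rr (-t)) X * cfc fC X = 0 := by rw [fm X _ _ (by fun_prop) (by fun_prop)]; simp [i9]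
      simp only [v, Option.elim]
      rw [wf _ c_rr, ← mul_assoc, ← (fα _ x y).eq, hαd, intp, mul_add, mul_add, mul_smul_comm]
      simp only [← mul_assoc, e1, zero_mul, smul_zero, add_zero, zero_add]
      rw [mul_assoc _ _ (w j), cj_w hw, mul_assoc (w j), ← (fM pp x y).eq,
        mul_assoc _ (cfc fS X), fm X _ _ (by fun_prop) (by fun_prop), fm X _ _ (by fun_prop) (by fun_prop), fm X _ _ (by fun_prop) (by fun_prop), ← mul_assoc, fw _ (by fun_prop),
        ← wf _ c_rr, mul_assoc (w j), ← mul_assoc _ (cfc pp X), fm X _ _ (by fun_prop) (by fun_prop), mul_assoc (w j) (cfc rr X),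
        fm X _ _ (by fun_prop) (by fun_prop), mul_assoc (w j)]
      simp only [neg_neg, ← i10, mul_assoc]
  intro x y a b
  have k2 := congrArg star (key y x b)
  rw [star_mul, hα.st, star_mul, star_mul, hM.st, fsa, ← (fM _ x y).eq] at k2
  rw [Commute, SemiconjBy, ← mul_assoc, key, mul_assoc _ _ (α x y), k2, mul_assoc]

end RW

theorem rw_step {M : κ → κ → B} {h v : B} {o : κ} (hM : OZ M h) (hh : Ctr h)
    (h1 : star v * v = 1 - h) (h2 : M o o * v = v) :
    ∃ (α : κ → κ → B) (β : Option κ → Option κ → B) (z : B), OZ α (1 - z) ∧ OZ β z ∧ Ctr z ∧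
      ∀ a b c d, Commute (α a b) (β c d) := by
  letI := CStarAlgebra.spectralOrder B
  haveI := CStarAlgebra.spectralOrderedRing B
  have hv : h * v = v := by
    have := hM.mul o o o o
    rw [if_pos rfl] at this
    calc h * v = h * M o o * v := by rw [mul_assoc, h2]
      _ = v := by rw [← this, mul_assoc, h2, h2]
  let w : κ → B := fun j => M j o * v
  have hMw : ∀ c d j, M c d * w j = if d = j then w c else 0 := fun c d j => by
    simp only [w]
    rw [← mul_assoc, hM.mul]
    split_ifs
    · rw [(hM.comm c o).eq, mul_assoc, hv]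
    · simp
  have hw : ∀ j k, star (w j) * w k = if j = k then 1 - h else 0 := fun j k => by
    have : star (w j) = star v * M o j := by simp only [w, star_mul, hM.st]
    rw [this, mul_assoc, hMw]
    split_ifs
    · simp only [w, h2, h1]
    · simp
  have hgw : ∀ j, (1 - h) * w j = 0 := fun j => by
    simp only [w]
    rw [sub_mul, one_mul, ← mul_assoc, (hM.comm j o).eq, mul_assoc, hv, sub_self]
  have hgP : (1 - h) * ∑ j, w j * star (w j) = 0 := by
    simp only [mul_sum, ← mul_assoc, hgw, zero_mul, sum_const_zero]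
  have g0 : 0 ≤ 1 - h := h1 ▸ star_mul_self_nonneg v
  have P0 : 0 ≤ ∑ j, w j * star (w j) := sum_nonneg fun j _ => mul_star_self_nonneg _
  obtain ⟨e1, e2⟩ := CFC.posPart_negPart_unique rfl hgP g0 P0
  set P := ∑ j, w j * star (w j) with hP
  have hX : IsSelfAdjoint (1 - h - P) := g0.isSelfAdjoint.sub P0.isSelfAdjoint
  rw [CFC.posPart_def, cfcₙ_eq_cfc] at e1
  rw [CFC.negPart_def, cfcₙ_eq_cfc] at e2
  have e1' : cfc RW.pp (1 - h - P) = 1 - h := e1
  have e2' : cfc (fun t => RW.pp (-t)) (1 - h - P) = P := e2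
  have hPw : ∀ j, P * w j = w j * (1 - h) := fun j => by
    have := RW.cj_w hw 1 j
    simpa only [RW.cj, mul_one] using this
  have hwP : ∀ j, w j * P = 0 := fun j => by
    rw [← CStarRing.star_mul_self_eq_zero_iff, star_mul, mul_assoc, ← mul_assoc (star (w j)), hw,
      if_pos rfl, hgP, mul_zero]
  refine RW.core hX (by rw [← RW.f1 hX _ (by fun_prop), e1', sub_sub_cancel]; exact hM) (fun a b => ?_)
    (by rw [e1']; exact hw) (by rw [e2']) (fun j => ?_) hMw
  · refine ((Commute.one_left _).sub_left (hM.comm a b)).sub_left ?_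
    have e : ∀ j, star (w j) * M a b = if a = j then star (w b) else 0 := fun j => by
      have := congrArg star (hMw b a j)
      rw [star_mul, hM.st] at this
      rw [this]; split_ifs <;> simp
    rw [Commute, SemiconjBy, hP, mul_sum, sum_mul]
    simp only [← mul_assoc, hMw]
    simp only [mul_assoc, e, ite_mul, zero_mul, mul_ite, mul_zero, sum_ite_eq, mem_univ, if_true]
  · rw [sub_mul, hgw, hPw, mul_neg, mul_sub (w j) (1 - h), hwP]; simp

end Vale.Agent.P101
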