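import Vale.Agent.P101.Gram

/-! A self-adjoint element whose commutators generate the unit ideal. -/

namespace Vale.Agent.P101

open Finset

section
variable {B : Type*} [CStarAlgebra B] [PartialOrder B] [StarOrderedRing B]

lemma star_sum_mul_le {ι : Type*} [Fintype ι] (z : ι → B) :
    star (∑ l, z l) * ∑ l, z l ≤ (Fintype.card ι : ℝ) • ∑ l, star (z l) * z l := by
  have h : 0 ≤ ∑ l, ∑ m, star (z l - z m) * (z l - z m) :=
    sum_nonneg fun l _ => sum_nonneg fun m _ => star_mul_self_nonneg _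
  have e : ∑ l, ∑ m, star (z l - z m) * (z l - z m) = (2 : ℝ) •
      ((Fintype.card ι : ℝ) • ∑ l, star (z l) * z l - star (∑ l, z l) * ∑ l, z l) := by
    simp only [star_sub, sub_mul, mul_sub, sum_sub_distrib, sum_const, card_univ, ← mul_sum,
      ← sum_mul, ← smul_sum, ← star_sum, Nat.cast_smul_eq_nsmul, two_smul]
    abel
  rw [e] at h
  have h2 := smul_nonneg (show (0 : ℝ) ≤ 1 / 2 by norm_num) h
  rw [smul_smul] at h2
  norm_num at h2
  simpa using h2

/-- If `1` is a left combination of the `v l`, then anything above the sum of the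
`star (v l) * v l` is invertible. -/
lemma isUnit_of_comb {ι : Type*} [Fintype ι] (b v : ι → B) (h : ∑ l, b l * v l = 1) {E : B}
    (hE : ∑ l, star (v l) * v l ≤ E) : IsUnit E := by
  set C : ℝ := ∑ l, ‖star (b l) * b l‖ with hC
  have hC0 : 0 ≤ C := sum_nonneg fun _ _ => norm_nonneg _
  have h0 : 0 ≤ ∑ l, star (v l) * v l := sum_nonneg fun _ _ => star_mul_self_nonneg _
  have h1 : (1 : B) ≤ ((Fintype.card ι : ℝ) * C + 1) • E := by
    have a1 := star_sum_mul_le fun l => b l * v l
    rw [h, star_one, one_mul] at a1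
    have a2 : ∑ l, star (b l * v l) * (b l * v l) ≤ C • ∑ l, star (v l) * v l := by
      rw [smul_sum]
      refine sum_le_sum fun l _ => ?_
      rw [star_mul, mul_assoc, ← mul_assoc (star (b l)), ← mul_assoc]
      refine (CStarAlgebra.star_left_conjugate_le_norm_smul
        (IsSelfAdjoint.star_mul_self (b l))).trans ?_
      exact smul_le_smul_of_nonneg_right
        (single_le_sum (f := fun l => ‖star (b l) * b l‖) (fun _ _ => norm_nonneg _) (mem_univ l))
        (star_mul_self_nonneg _)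
    calc (1 : B) ≤ _ := a1
      _ ≤ (Fintype.card ι : ℝ) • C • E := smul_le_smul_of_nonneg_left
          (a2.trans (smul_le_smul_of_nonneg_left hE hC0)) (Nat.cast_nonneg _)
      _ ≤ _ := by
          rw [smul_smul, add_smul, one_smul]
          exact le_add_of_nonneg_right (h0.trans hE)
  have h2 : IsUnit (((Fintype.card ι : ℝ) * C + 1) • E) :=
    CStarAlgebra.isUnit_of_le 1 h1 isStrictlyPositive_one
  have h3 : (0 : ℝ) < (Fintype.card ι : ℝ) * C + 1 := by positivity
  have h4 := h2.smul (Units.mk0 _ h3.ne')⁻¹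
  rwa [Units.smul_def, smul_smul, Units.val_inv_eq_inv_val, Units.val_mk0,
    inv_mul_cancel₀ h3.ne', one_smul] at h4

end

lemma dbl {R : Type*} [Ring R] {κ : Type*} [Fintype κ] (a : κ → R) {i j : κ} (hij : i ≠ j)
    (x z : R) (hx : ∀ l, l ≠ i → Commute (a l) x) (hz : ∀ l, l ≠ j → Commute (a l) z)
    (hxz : Commute x z) (ha : Commute (a i) (a j)) :
    (((∑ l, a l) ^ 2 * x - x * (∑ l, a l) ^ 2) * z - z * ((∑ l, a l) ^ 2 * x - x * (∑ l, a l) ^ 2)) =
      2 * ((a i * x - x * a i) * (a j * z - z * a j)) := by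
  classical
  have h1 : ∀ (m : κ) (y : R), (∀ l, l ≠ m → Commute (a l) y) →
      (∑ l, a l) * y - y * ∑ l, a l = a m * y - y * a m := fun m y hy => by
    rw [sum_mul, mul_sum, ← sum_sub_distrib]
    exact sum_eq_single m (fun l _ hl => sub_eq_zero.2 (hy l hl).eq) fun h => (h (mem_univ _)).elim
  have e1 := h1 i x hx
  have e2 := h1 j z hz
  have c1 : Commute (a i * x - x * a i) z :=
    ((hz i hij).mul_left hxz).sub_left (hxz.mul_left (hz i hij))
  have c2 : Commute (a i * x - x * a i) (a j) :=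
    (ha.mul_left (hx j hij.symm).symm).sub_left ((hx j hij.symm).symm.mul_left ha)
  have c3 : Commute (a i * x - x * a i) (a j * z - z * a j) :=
    (c2.mul_right c1).sub_right (c1.mul_right c2)
  generalize (∑ l, a l) = S at e1 e2 ⊢
  generalize a i * x - x * a i = p at e1 c1 c3 ⊢
  generalize a j * z - z * a j = q at e2 c3 ⊢
  have f1 : S ^ 2 * x - x * S ^ 2 = S * p + p * S := by rw [← e1]; noncomm_ring
  have f2 : (S * p + p * S) * z - z * (S * p + p * S) =
      (S * z - z * S) * p + p * (S * z - z * S) + S * (p * z - z * p) + (p * z - z * p) * S := by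
    noncomm_ring
  rw [f1, f2, e2, c1.eq, ← c3.eq, sub_self, mul_zero, zero_mul, add_zero, add_zero, two_mul]

/-- In `N + 1` commuting algebras, each with `N` self-adjoint elements whose commutators generate
the unit ideal, the commutators of one self-adjoint element generate the unit ideal. -/
theorem noncentral {B : Type*} [CStarAlgebra B] {N : ℕ} (D : Fin (N + 1) → StarSubalgebra ℂ B)
    (hD : ∀ i j, i ≠ j → ∀ x ∈ D i, ∀ z ∈ D j, Commute x z) (a : Fin (N + 1) → Fin N → B)
    (ha : ∀ i s, a i s ∈ D i) (hs : ∀ i s, IsSelfAdjoint (a i s)) {ι : Type*} [Fintype ι]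
    (b c x : Fin (N + 1) → ι → B) (σ : Fin (N + 1) → ι → Fin N) (hc : ∀ i l, c i l ∈ D i)
    (hx : ∀ i l, x i l ∈ D i)
    (h1 : ∀ i, ∑ l, b i l * (a i (σ i l) * x i l - x i l * a i (σ i l)) * c i l = 1)
    (J : TwoSidedIdeal B) (hJ : ∀ i, ∀ z ∈ D i,
      (∑ s, (∑ i, a i s) ^ 2) * z - z * ∑ s, (∑ i, a i s) ^ 2 ∈ J) : (1 : B) ∈ J := by
  classical
  letI := CStarAlgebra.spectralOrder B
  haveI := CStarAlgebra.spectralOrderedRing B
  have k1 : ∀ i j, i ≠ j → ∀ p ∈ D i, ∀ q ∈ D j,
      ∑ s, (a i s * p - p * a i s) * (a j s * q - q * a j s) ∈ J := by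
    intro i j hij p hp q hq
    have e := J.sub_mem (J.mul_mem_right _ q (hJ i p hp)) (J.mul_mem_left q _ (hJ i p hp))
    have e2 : ((∑ s, (∑ i, a i s) ^ 2) * p - p * ∑ s, (∑ i, a i s) ^ 2) * q -
        q * ((∑ s, (∑ i, a i s) ^ 2) * p - p * ∑ s, (∑ i, a i s) ^ 2) =
        2 * ∑ s, (a i s * p - p * a i s) * (a j s * q - q * a j s) := by
      rw [sum_mul, mul_sum, ← sum_sub_distrib, sum_mul, mul_sum, ← sum_sub_distrib, mul_sum]
      exact sum_congr rfl fun s _ => dbl (fun l => a l s) hij p q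
        (fun l hl => hD l i hl _ (ha l s) _ hp) (fun l hl => hD l j hl _ (ha l s) _ hq)
        (hD i j hij _ hp _ hq) (hD i j hij _ (ha i s) _ (ha j s))
    rw [e2] at e
    have e3 := J.mul_mem_left (algebraMap ℂ B (1 / 2)) _ e
    rwa [← mul_assoc, show (2 : B) = algebraMap ℂ B 2 from (map_ofNat _ 2).symm, ← map_mul,
      one_div_mul_cancel two_ne_zero, map_one, one_mul] at e3
  let u : Fin (N + 1) → ι → Fin N → B := fun i l s => (a i s * x i l - x i l * a i s) * c i l
  have hu : ∀ i l s, u i l s ∈ D i := fun i l s =>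
    mul_mem (sub_mem (mul_mem (ha i s) (hx i l)) (mul_mem (hx i l) (ha i s))) (hc i l)
  have k2 : ∀ i, IsUnit (∑ l, ∑ s, star (u i l s) * u i l s) := fun i =>
    isUnit_of_comb (b i) (fun l => u i l (σ i l)) (by simpa only [u, ← mul_assoc] using h1 i)
      (sum_le_sum fun l _ => single_le_sum (f := fun s => star (u i l s) * u i l s)
        (fun _ _ => star_mul_self_nonneg _) (mem_univ _))
  have k3 : IsUnit (List.ofFn fun i => ∑ l, ∑ s, star (u i l s) * u i l s).prod :=
    List.prod_isUnit fun m hm => by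
      obtain ⟨i, rfl⟩ := List.mem_ofFn.1 hm
      exact k2 i
  have k4 : (List.ofFn fun i => ∑ l, ∑ s, star (u i l s) * u i l s).prod ∈ J := by
    rw [Gram.prod_sum]
    refine sum_mem fun f _ => ?_
    let π := J.ringCon.mk'
    have hπ : ∀ z, π z = 0 ↔ z ∈ J := fun z => by
      rw [TwoSidedIdeal.mem_iff, ← RingCon.eq]; rfl
    rw [← hπ, map_list_prod, List.map_ofFn]
    have := gram (fun i s => π (star (u i (f i) s))) (fun i s => π (u i (f i) s))
      (fun i j h s t => (hD i j h _ (star_mem (hu _ _ _)) _ (star_mem (hu _ _ _))).map π)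
      (fun i j h s t => (hD i j h _ (hu _ _ _) _ (hu _ _ _)).map π)
      (fun i j h s t => (hD i j h _ (hu _ _ _) _ (star_mem (hu _ _ _))).map π)
      (fun i j h => by
        simp only [← map_mul, ← map_sum]
        rw [hπ]
        have e := J.neg_mem (J.mul_mem_right _ (c j (f j)) (J.mul_mem_left (star (c i (f i))) _
          (k1 i j h _ (star_mem (hx i (f i))) _ (hx j (f j)))))
        rw [mul_sum, sum_mul, ← sum_neg_distrib] at e
        refine Eq.subst (motive := fun z => z ∈ J) (sum_congr rfl fun s _ => ?_) e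
        simp only [u, star_mul, star_sub, (hs i s).star_eq]
        noncomm_ring)
    simpa only [Function.comp_def, map_sum, map_mul] using this
  obtain ⟨v, hv⟩ := k3.exists_left_inv
  exact hv ▸ J.mul_mem_left v _ k4

end Vale.Agent.P101
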