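import Vale.Agent.P101.PartQ2
import Vale.Agent.P101.NonCentral

/-! Part S1b of P101: a self-adjoint element whose commutators are jointly full. -/

namespace Vale.Agent.P101

open Filter Topology Finset

variable {A B D E F Q T Z : Type} [CStarAlgebra A] [CStarAlgebra B] [CStarAlgebra D]
  [CStarAlgebra E] [CStarAlgebra F] [CStarAlgebra Q] [CStarAlgebra T] [CStarAlgebra Z]
  {ι κ : Type} [Fintype ι] [Fintype κ] [DecidableEq κ]

theorem nonscalar (hF : Cp F) (h : IsEmpty (F →⋆ₐ[ℂ] ℂ)) : ∃ (y : F) (n : ℕ) (b d c : Fin n → F),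
    IsSelfAdjoint y ∧ ∑ r, b r * (y * d r - d r * y) * c r = 1 := by
  obtain ⟨n, b, a, a', c, hs, h1⟩ := nochar h
  obtain ⟨D, _, e, he, hT, hθ⟩ := hF (Set.range b ∪ Set.range a ∪ Set.range a' ∪ Set.range c)
    (Set.Finite.countable (by simp [Set.finite_range]))
  obtain ⟨θ, hθ⟩ := hθ (Fin (n + 1))
  choose b0 hb using fun r => hT (Or.inl (Or.inl (Or.inl ⟨r, rfl⟩)) : b r ∈ _)
  choose a0 ha using fun r => hT (Or.inl (Or.inl (Or.inr ⟨r, rfl⟩)) : a r ∈ _)
  choose x0 hx using fun r => hT (Or.inl (Or.inr ⟨r, rfl⟩) : a' r ∈ _)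
  choose c0 hc using fun r => hT (Or.inr ⟨r, rfl⟩ : c r ∈ _)
  have h2 : ∑ r, b0 r * (a0 r * x0 r - x0 r * a0 r) * c0 r = 1 :=
    he (by simpa only [map_sum, map_mul, map_sub, map_one, hb, ha, hx, hc] using h1)
  have h3 : ∀ r, IsSelfAdjoint (a0 r) := fun r =>
    he (by rw [map_star, ha, (hs r).1.star_eq])
  set y : F := ∑ s, (∑ i, θ i (a0 s)) ^ 2 with hy
  have h4 : (1 : F) ∈ TwoSidedIdeal.span {z | ∃ d, z = y * d - d * y} :=
    noncentral (fun i => (θ i).range)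
      (by rintro i j hij _ ⟨x, rfl⟩ _ ⟨z, rfl⟩; exact hθ i j hij x z)
      (fun i s => θ i (a0 s)) (fun i s => ⟨_, rfl⟩) (fun i s => (h3 s).map (θ i))
      (fun i l => θ i (b0 l)) (fun i l => θ i (c0 l)) (fun i l => θ i (x0 l)) (fun _ l => l)
      (fun i s => ⟨_, rfl⟩) (fun i s => ⟨_, rfl⟩)
      (fun i => by simpa only [map_sum, map_mul, map_sub, map_one] using congrArg (θ i) h2) _
      fun _ z _ => TwoSidedIdeal.subset_span ⟨z, rfl⟩
  have h5 : ∀ z ∈ TwoSidedIdeal.span {z | ∃ d, z = y * d - d * y}, ∃ (n : ℕ) (b d c : Fin n → F),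
      ∑ r, b r * (y * d r - d r * y) * c r = z := by
    intro z hz
    induction hz using TwoSidedIdeal.span_induction with
    | mem x hx =>
      obtain ⟨d, rfl⟩ := hx
      exact ⟨1, fun _ => 1, fun _ => d, fun _ => 1, by simp⟩
    | zero => exact ⟨0, 0, 0, 0, by simp⟩
    | add x z _ _ hx hz =>
      obtain ⟨n, b, d, c, rfl⟩ := hx
      obtain ⟨n', b', d', c', rfl⟩ := hz
      exact ⟨n + n', Fin.append b b', Fin.append d d', Fin.append c c', by
        simp [Fin.sum_univ_add]⟩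
    | neg x _ hx =>
      obtain ⟨n, b, d, c, rfl⟩ := hx
      exact ⟨n, -b, d, c, by simp⟩
    | left_absorb w x _ hx =>
      obtain ⟨n, b, d, c, rfl⟩ := hx
      exact ⟨n, fun r => w * b r, d, c, by simp only [mul_sum, mul_assoc]⟩
    | right_absorb w x _ hx =>
      obtain ⟨n, b, d, c, rfl⟩ := hx
      exact ⟨n, b, d, fun r => c r * w, by simp only [sum_mul, mul_assoc]⟩
  obtain ⟨m, b, d, c, h6⟩ := h5 1 h4
  refine ⟨y, m, b, d, c, ?_, h6⟩
  exact isSelfAdjoint_sum _ fun s _ => (isSelfAdjoint_sum _ fun i _ => (h3 s).map (θ i)).pow 2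

end Vale.Agent.P101
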