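import Vale.Agent.P101.Work

/-! Part T of P101: elementary tensors and systems of commuting homomorphisms. -/

namespace Vale.Agent.P101

open Filter Topology Finset

variable {A B D E F Q T Z : Type} [CStarAlgebra A] [CStarAlgebra B] [CStarAlgebra D]
  [CStarAlgebra E] [CStarAlgebra F] [CStarAlgebra Q] [CStarAlgebra T] [CStarAlgebra Z]
  {ι κ : Type} [Fintype ι] [Fintype κ] [DecidableEq κ]

/-- Elementary tensors as a monoid homomorphism. -/
noncomputable def tenHom {θ : ι → D →⋆ₐ[ℂ] B} (h : Cm θ) : (ι → D) →* B :=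
  MonoidHom.noncommPiCoprod (fun i => (θ i : D →* B)) fun i j hij x y => h i j hij x y

theorem ten_mul {θ : ι → D →⋆ₐ[ℂ] B} (h : Cm θ) (d d' : ι → D) :
    Ten h (d * d') = Ten h d * Ten h d' := (tenHom h).map_mul d d'

theorem ten_one {θ : ι → D →⋆ₐ[ℂ] B} (h : Cm θ) : Ten h 1 = 1 := (tenHom h).map_one

theorem ten_star {θ : ι → D →⋆ₐ[ℂ] B} (h : Cm θ) (d : ι → D) :
    star (Ten h d) = Ten h (star d) := by
  classical
  have : ∀ (s : Finset ι) (f g : ι → B) (hf : (s : Set ι).Pairwise (Function.onFun Commute f))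
      (hg : (s : Set ι).Pairwise (Function.onFun Commute g)), (∀ i, star (f i) = g i) →
      star (s.noncommProd f hf) = s.noncommProd g hg := by
    intro s f g
    induction s using Finset.induction_on with
    | empty => intro _ _ _; simp
    | insert a s ha ih =>
      intro hf hg e
      rw [noncommProd_insert_of_notMem _ _ _ _ ha, noncommProd_insert_of_notMem' _ _ _ _ ha,
        star_mul, ih _ _ e, e]
  exact this univ _ _ _ _ fun i => (map_star _ _).symm

theorem ten_single [DecidableEq ι] {θ : ι → D →⋆ₐ[ℂ] B} (h : Cm θ) (i : ι) (x : D) :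
    Ten h (Pi.mulSingle i x) = θ i x :=
  MonoidHom.noncommPiCoprod_mulSingle (ϕ := fun i => (θ i : D →* B))
    (hcomm := fun i j hij x y => h i j hij x y) i x

theorem ten_update [DecidableEq ι] {θ : ι → D →⋆ₐ[ℂ] B} (h : Cm θ) (d : ι → D) (i : ι) (x : D) :
    Ten h (Function.update d i x) = θ i x * Ten h (Function.update d i 1) := by
  rw [← ten_single h, ← ten_mul]
  congr 1
  funext j
  by_cases hj : j = i
  · subst hj; simp
  · simp [hj]

theorem ten_zero {θ : ι → D →⋆ₐ[ℂ] B} (h : Cm θ) {d : ι → D} {i : ι} (hi : d i = 0) :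
    Ten h d = 0 := by
  classical
  rw [← Function.update_eq_self i d, ten_update, hi, map_zero, zero_mul]

/-- Elementary tensors as a multilinear map. -/
noncomputable def tenML {θ : ι → D →⋆ₐ[ℂ] B} (h : Cm θ) :
    MultilinearMap ℂ (fun _ : ι => D) B where
  toFun := Ten h
  map_update_add' d i x y := by
    rw [ten_update h d i (x + y), ten_update h d i x, ten_update h d i y, map_add, add_mul]
  map_update_smul' d i c x := by
    rw [ten_update h d i (c • x), ten_update h d i x, map_smul, smul_mul_assoc]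

theorem ten_sum' [DecidableEq ι] {θ : ι → D →⋆ₐ[ℂ] B} (h : Cm θ) {J : ι → Type}
    [∀ i, Fintype (J i)] (d : ∀ i, J i → D) :
    Ten h (fun i => ∑ r, d i r) = ∑ f : ∀ i, J i, Ten h fun i => d i (f i) :=
  (tenML h).map_sum d

theorem ten_sum [DecidableEq ι] {θ : ι → D →⋆ₐ[ℂ] B} (h : Cm θ) {J : Type} [Fintype J]
    (d : ι → J → D) : Ten h (fun i => ∑ r, d i r) = ∑ f : ι → J, Ten h fun i => d i (f i) :=
  ten_sum' h d

theorem ten_sum1 [DecidableEq ι] {θ : ι → D →⋆ₐ[ℂ] B} (h : Cm θ) {J : Type} [Fintype J]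
    (d : ι → D) (i : ι) (x : J → D) :
    Ten h (Function.update d i (∑ r, x r)) = ∑ r, Ten h (Function.update d i (x r)) := by
  rw [ten_update, map_sum, sum_mul]
  exact sum_congr rfl fun r _ => (ten_update h d i (x r)).symm

theorem ten_map {θ : ι → D →⋆ₐ[ℂ] B} (h : Cm θ) (π : B →⋆ₐ[ℂ] Q) (h' : Cm fun i => π.comp (θ i))
    (d : ι → D) : π (Ten h d) = Ten h' d :=
  Finset.map_noncommProd univ (fun i => θ i (d i)) _ π

theorem ten_comm {θ : ι → D →⋆ₐ[ℂ] B} (h : Cm θ) {d : ι → D} {x : B}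
    (hx : ∀ i, Commute x (θ i (d i))) : Commute x (Ten h d) :=
  Finset.noncommProd_commute univ _ _ x fun i _ => hx i

theorem ten_full {θ : ι → D →⋆ₐ[ℂ] B} (h : Cm θ) {d : ι → D} (hd : ∀ i, Full (d i)) :
    Full (Ten h d) := by
  classical
  choose n b c e using hd
  refine full_of (ι := ∀ i, Fin (n i)) (fun f => Ten h fun i => b i (f i))
    (fun f => Ten h fun i => c i (f i)) ?_
  have := ten_sum' h fun i r => b i r * d i * c i r
  simp only [e] at this
  rw [← ten_one h]
  refine Eq.trans (sum_congr rfl fun f _ => ?_) this.symm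
  rw [← ten_mul, ← ten_mul]
  rfl

omit [Fintype ι] in
theorem Cm.comp {θ : ι → D →⋆ₐ[ℂ] B} (h : Cm θ) (π : B →⋆ₐ[ℂ] Q) : Cm fun i => π.comp (θ i) :=
  fun i j hij x y => (h i j hij x y).map π

omit [Fintype ι] in
lemma T.image_adjoin (θ : ι → D →⋆ₐ[ℂ] B) (π : B →⋆ₐ[ℂ] Q) :
    π '' (StarAlgebra.adjoin ℂ (⋃ i, Set.range (θ i)) : Set B) =
      (StarAlgebra.adjoin ℂ (⋃ i, Set.range (π.comp (θ i))) : Set Q) := by
  rw [← StarSubalgebra.coe_map, StarAlgHom.map_adjoin, Set.image_iUnion]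
  simp only [StarAlgHom.coe_comp, Set.range_comp]

omit [Fintype ι] in
theorem Gen.comp {θ : ι → D →⋆ₐ[ℂ] B} (h : Gen θ) {π : B →⋆ₐ[ℂ] Q} (hπ : Function.Surjective π) :
    Gen fun i => π.comp (θ i) := by
  have := hπ.denseRange.dense_image (AddMonoidHomClass.continuous_of_bound π 1 fun x => by
    rw [one_mul]; exact NonUnitalStarAlgHom.norm_apply_le π x) h
  rwa [T.image_adjoin] at this

omit [Fintype ι] in
/-- B2 = closure of the star subalgebra generated by the ranges. -/
theorem sys {θ : ι → D →⋆ₐ[ℂ] B} (h : Cm θ) : ∃ (B2 : Type) (_ : CStarAlgebra B2)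
    (e : B2 →⋆ₐ[ℂ] B) (η : ι → D →⋆ₐ[ℂ] B2), Cm η ∧ Gen η ∧ ∀ i x, e (η i x) = θ i x := by
  set S := (StarAlgebra.adjoin ℂ (⋃ i, Set.range (θ i))).topologicalClosure with hS
  have hc : IsClosed (S : Set B) := StarSubalgebra.isClosed_topologicalClosure _
  have hm : ∀ i x, θ i x ∈ S := fun i x => StarSubalgebra.le_topologicalClosure _
    (StarAlgebra.subset_adjoin ℂ _ (Set.mem_iUnion.2 ⟨i, x, rfl⟩))
  refine ⟨S, inferInstance, S.subtype, fun i => (θ i).codRestrict S (hm i),
    fun i j hij x y => Subtype.ext (h i j hij x y), ?_, fun _ _ => rfl⟩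
  refine (Topology.IsInducing.subtypeVal.dense_iff).2 fun x => ?_
  have := T.image_adjoin (fun i => (θ i).codRestrict S (hm i)) S.subtype
  exact (congrArg (fun U => (x : B) ∈ closure U) this).mpr x.2

/-- An injective star homomorphism preserves the spectrum. -/
theorem Ctr.comap {h : B} {φ : B →⋆ₐ[ℂ] F} (hφ : Function.Injective φ) (H : Ctr (φ h)) :
    Ctr h := by
  have h1 : IsSelfAdjoint h := hφ (by rw [map_star, H.1.star_eq])
  exact ⟨h1, by rw [← h1.map_spectrum_real φ hφ]; exact H.2⟩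

end Vale.Agent.P101
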