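import Vale.Agent.P101.Work

/-! Pulling a countable family back to an algebra with commuting copies. -/

namespace Vale.Agent.P101

open Finset

theorem Cp.pull {F : Type} [CStarAlgebra F] (hF : Cp F) {J : Type} [Countable J] (t : J → F) :
    ∃ (D : Type) (_ : CStarAlgebra D) (e : D →⋆ₐ[ℂ] F) (t0 : J → D), Function.Injective e ∧
      (∀ j, e (t0 j) = t j) ∧ (∀ j, Full (t j) → Full (t0 j)) ∧
      ∀ (ι : Type) [Fintype ι], ∃ θ : ι → D →⋆ₐ[ℂ] F, Cm θ := by
  have h : ∀ j, ∃ (n : ℕ) (b c : Fin n → F), Full (t j) → ∑ r, b r * t j * c r = 1 := fun j => by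
    by_cases h : Full (t j)
    · obtain ⟨n, b, c, h⟩ := h
      exact ⟨n, b, c, fun _ => h⟩
    · exact ⟨0, 0, 0, fun h' => (h h').elim⟩
  choose n b c h using h
  obtain ⟨D, _, e, he, hT, hθ⟩ := hF (Set.range t ∪ ⋃ j, (Set.range (b j) ∪ Set.range (c j)))
    ((Set.countable_range t).union (Set.countable_iUnion fun j =>
      (Set.countable_range _).union (Set.countable_range _)))
  choose t0 ht using fun j => hT (Or.inl ⟨j, rfl⟩ : t j ∈ _)
  choose b0 hb using fun j r => hT (Or.inr (Set.mem_iUnion.2 ⟨j, Or.inl ⟨r, rfl⟩⟩) : b j r ∈ _)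
  choose c0 hc using fun j r => hT (Or.inr (Set.mem_iUnion.2 ⟨j, Or.inr ⟨r, rfl⟩⟩) : c j r ∈ _)
  exact ⟨D, _, e, t0, he, ht, fun j hj => ⟨n j, b0 j, c0 j,
    he (by simpa only [map_sum, map_mul, map_one, ht, hb, hc] using h j hj)⟩, hθ⟩

end Vale.Agent.P101
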