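import Vale.Agent.P101.PartQ2
import Vale.Agent.P101.PartT
import Vale.Agent.P101.Pull

/-! Part S2 of P101: many orthogonal full elements. -/

namespace Vale.Agent.P101

open Filter Topology Finset

variable {A B D E F Q T Z : Type} [CStarAlgebra A] [CStarAlgebra B] [CStarAlgebra D]
  [CStarAlgebra E] [CStarAlgebra F] [CStarAlgebra Q] [CStarAlgebra T] [CStarAlgebra Z]
  {ι κ : Type} [Fintype ι] [Fintype κ] [DecidableEq κ]

namespace S2

lemma map_cfc (φ : D →⋆ₐ[ℂ] Q) {f : ℝ → ℝ} (hf : Continuous f) {y : D} (hy : IsSelfAdjoint y) :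
    φ (cfc f y) = cfc f (φ y) :=
  StarAlgHomClass.map_cfc φ f y hf.continuousOn (AddMonoidHomClass.continuous_of_bound φ 1 fun x => by
    rw [one_mul]; exact NonUnitalStarAlgHom.norm_apply_le φ x) hy (hy.map φ)

omit [Fintype ι] in
lemma prime [IsSimpleRing Q] {η : ι → D →⋆ₐ[ℂ] Q} (h : Cm η) (hg : Gen η) (i : ι) {u : Q} {d : D}
    (hu : ∀ e, Commute u (η i e)) (h0 : u * η i d = 0) (h1 : u ≠ 0) : η i d = 0 := by
  let S : Set Q := {w | ∀ z, (∀ e, Commute z (η i e)) → u * z * w = 0}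
  have s1 : η i d ∈ S := fun z hz => by rw [mul_assoc, (hz d).eq, ← mul_assoc, h0, zero_mul]
  have s2 : ∀ j e, ∀ w ∈ S, η j e * w ∈ S := fun j e w hw z hz => by
    by_cases hj : j = i
    · subst hj
      rw [← mul_assoc, ((hu e).mul_left (hz e)).eq, mul_assoc, hw z hz, mul_zero]
    · rw [← mul_assoc, mul_assoc u]
      exact hw _ fun e' => (hz e').mul_left (h j i hj _ _)
  have s3 : ∀ x ∈ StarAlgebra.adjoin ℂ (⋃ i, Set.range (η i)), ∀ w ∈ S, x * w ∈ S := by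
    intro x hx
    rw [← StarSubalgebra.mem_toSubalgebra, StarAlgebra.adjoin_toSubalgebra] at hx
    induction hx using Algebra.adjoin_induction with
    | mem x hx =>
      rcases hx with hx | hx
      · obtain ⟨j, e, rfl⟩ := Set.mem_iUnion.1 hx
        exact s2 j e
      · obtain ⟨j, e, he⟩ := Set.mem_iUnion.1 (Set.mem_star.1 hx)
        rw [← star_star x, ← he, ← map_star]
        exact s2 j _
    | algebraMap r =>
      intro w hw z hz
      rw [← Algebra.smul_def, mul_smul_comm, hw z hz, smul_zero]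
    | add x y _ _ hx hy =>
      intro w hw z hz
      rw [add_mul, mul_add, hx w hw z hz, hy w hw z hz, add_zero]
    | mul x y _ _ hx hy =>
      intro w hw
      rw [mul_assoc]
      exact hx _ (hy w hw)
  have s4 : ∀ x, u * x * η i d = 0 := fun x => by
    refine Dense.induction hg (P := fun x => u * x * η i d = 0) (fun x hx => ?_)
      (isClosed_eq (by fun_prop) continuous_const) x
    have := s3 x hx _ s1 1 fun e => Commute.one_left _
    rwa [mul_one, ← mul_assoc] at this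
  let I : TwoSidedIdeal Q := TwoSidedIdeal.mk' {x | ∀ q, x * q * η i d = 0} (by simp)
    (fun {a b} ha hb q => by rw [add_mul, add_mul, ha q, hb q, add_zero])
    (fun {a} ha q => by rw [neg_mul, neg_mul, ha q, neg_zero])
    (fun {a b} hb q => by rw [mul_assoc, mul_assoc, ← mul_assoc b, hb q, mul_zero])
    (fun {a b} ha q => by rw [mul_assoc a, ha])
  have := IsSimpleRing.one_mem_of_ne_zero_mem I h1 ((TwoSidedIdeal.mem_mk' ..).2 s4)
  simpa using (TwoSidedIdeal.mem_mk' ..).1 this 1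

lemma bump {u : Q} (hu : IsSelfAdjoint u) {l ε : ℝ} (hl : l ∈ spectrum ℝ u) (hε : 0 < ε) :
    ∃ (f : ℝ → ℝ) (k : Q), Continuous f ∧ cfc f u ≠ 0 ∧ ‖k‖ ≤ ε ∧
      (u - algebraMap ℝ Q l) * cfc f u = k * cfc f u := by
  refine ⟨fun t => max 0 (ε - |t - l|), cfc (fun t => max (-ε) (min ε (t - l))) u, by fun_prop,
    fun h0 => ?_, norm_cfc_le hε.le fun t _ => ?_, ?_⟩
  · have := norm_apply_le_norm_cfc (fun t => max 0 (ε - |t - l|)) u hl
    rw [h0] at this
    simp [hε.le, hε.ne'] at this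
  · exact abs_le.2 ⟨le_max_left _ _, max_le (by linarith) (min_le_left _ _)⟩
  · have e : u - algebraMap ℝ Q l = cfc (fun t : ℝ => t - l) u := by
      rw [cfc_sub _ _ u, cfc_id' ℝ u, cfc_const l u]
    rw [e, ← cfc_mul _ _ u, ← cfc_mul _ _ u]
    congr 1
    funext t
    rcases le_total ε |t - l| with h | h
    · rw [max_eq_left (sub_nonpos.2 h), mul_zero, mul_zero]
    · rw [min_eq_right (abs_le.1 h).2, max_eq_right (abs_le.1 h).1]

lemma joint {u w : Q} (hu : IsSelfAdjoint u) (hw : IsSelfAdjoint w) (hc : Commute u w)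
    (h : ∀ f g : ℝ → ℝ, Continuous f → Continuous g → cfc f u ≠ 0 → cfc f u * cfc g w = 0 →
      cfc g w = 0) {l m : ℝ} (hl : l ∈ spectrum ℝ u) (hm : m ∈ spectrum ℝ w) :
    l + m ∈ spectrum ℝ (u + w) := by
  by_contra h0
  obtain ⟨r, hr⟩ := (spectrum.notMem_iff.1 h0).exists_left_inv
  have hε : 0 < 1 / (2 * ‖r‖ + 1) := by positivity
  obtain ⟨f, k, f1, f2, f3, f4⟩ := bump hu hl hε
  obtain ⟨g, k', g1, g2, g3, g4⟩ := bump hw hm hε
  have c1 : Commute (cfc f u) (cfc g w) := (hc.cfc_real f).symm.cfc_real g |>.symm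
  have x0 : 0 < ‖cfc f u * cfc g w‖ := norm_pos_iff.2 fun e => g2 (h f g f1 g1 f2 e)
  have e1 : cfc f u * cfc g w = -(r * ((k + k') * (cfc f u * cfc g w))) := by
    rw [add_mul, ← mul_assoc k, ← f4, c1.eq, ← mul_assoc k', ← g4, mul_assoc, mul_assoc, ← c1.eq,
      ← add_mul, ← mul_neg, ← neg_mul, ← mul_assoc]
    rw [show -(u - algebraMap ℝ Q l + (w - algebraMap ℝ Q m)) = algebraMap ℝ Q (l + m) - (u + w) by
      rw [map_add]; abel, hr, one_mul]
  have e2 : ‖cfc f u * cfc g w‖ ≤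
      ‖r‖ * ((1 / (2 * ‖r‖ + 1) + 1 / (2 * ‖r‖ + 1)) * ‖cfc f u * cfc g w‖) := by
    conv_lhs => rw [e1, norm_neg]
    exact norm_mul_le_of_le le_rfl
      (norm_mul_le_of_le ((norm_add_le _ _).trans (add_le_add f3 g3)) le_rfl)
  have e3 : ‖r‖ * (1 / (2 * ‖r‖ + 1) + 1 / (2 * ‖r‖ + 1)) < 1 := by
    rw [← add_div, ← mul_div_assoc, div_lt_one (by positivity)]; linarith
  nlinarith

lemma two [Nontrivial Q] {y : D} {n : ℕ} {b d c : Fin n → D} (hy : IsSelfAdjoint y)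
    (h : ∑ r, b r * (y * d r - d r * y) * c r = 1) (φ : D →⋆ₐ[ℂ] Q) :
    ∃ α β, α ∈ spectrum ℝ (φ y) ∧ β ∈ spectrum ℝ (φ y) ∧
      1 / (∑ r, ‖b r‖ * (2 * ‖d r‖) * ‖c r‖ + 1) ≤ β - α ∧ β - α ≤ 2 * ‖y‖ := by
  set C := ∑ r, ‖b r‖ * (2 * ‖d r‖) * ‖c r‖ with hC
  have hC0 : 0 ≤ C := sum_nonneg fun _ _ => by positivity
  have hφ := fun x => NonUnitalStarAlgHom.norm_apply_le φ x
  have hy' := hy.map φ
  obtain ⟨α, hα⟩ := CFC.spectrum_nonempty ℝ (φ y) hy'
  obtain ⟨β, hβ, h1⟩ : ∃ β ∈ spectrum ℝ (φ y), 1 / (C + 1) ≤ |β - α| := by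
    by_contra h0
    push Not at h0
    have e : φ y - algebraMap ℝ Q α = cfc (fun t : ℝ => t - α) (φ y) := by
      rw [cfc_sub _ _ (φ y), cfc_id' ℝ (φ y), cfc_const α (φ y)]
    have h1 : ‖φ y - algebraMap ℝ Q α‖ ≤ 1 / (C + 1) :=
      e ▸ norm_cfc_le (by positivity) fun t ht => (h0 t ht).le
    generalize hz : φ y - algebraMap ℝ Q α = z at h1
    have h2 : ∑ r, φ (b r) * (z * φ (d r) - φ (d r) * z) * φ (c r) = 1 := by
      rw [← map_one φ, ← h, map_sum, ← hz]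
      refine sum_congr rfl fun r _ => ?_
      rw [sub_mul, mul_sub (φ (d r)), Algebra.commutes α (φ (d r))]
      simp
    have h3 : (1 : ℝ) ≤ C * (1 / (C + 1)) := by
      rw [hC, sum_mul, ← hC]
      refine ((congrArg norm h2).trans norm_one).ge.trans
        ((norm_sum_le _ _).trans (sum_le_sum fun r _ => ?_))
      refine (norm_mul_le_of_le (norm_mul_le_of_le (hφ _) ((norm_sub_le _ _).trans (add_le_add
        (norm_mul_le_of_le h1 (hφ _)) (norm_mul_le_of_le (hφ _) h1)))) (hφ _)).trans_eq ?_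
      ring
    rw [mul_one_div, le_div_iff₀ (by positivity)] at h3
    linarith
  have b1 := abs_le.1 ((spectrum.norm_le_norm_of_mem hα).trans (hφ y))
  have b2 := abs_le.1 ((spectrum.norm_le_norm_of_mem hβ).trans (hφ y))
  rcases le_total α β with h2 | h2
  · rw [abs_of_nonneg (sub_nonneg.2 h2)] at h1
    exact ⟨α, β, hα, hβ, h1, by linarith [b1.1, b2.2]⟩
  · rw [abs_of_nonpos (sub_nonpos.2 h2), neg_sub] at h1
    exact ⟨β, α, hβ, hα, h1, by linarith [b1.2, b2.1]⟩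

omit [Fintype ι] in
lemma chain [IsSimpleRing Q] {η : ι → D →⋆ₐ[ℂ] Q} (h : Cm η) (hg : Gen η) {y : D}
    (hy : IsSelfAdjoint y) {α β : ι → ℝ} {L : ℝ} (hL : 0 ≤ L) (hα : ∀ i, α i ∈ spectrum ℝ (η i y))
    (hβ : ∀ i, β i ∈ spectrum ℝ (η i y)) (h1 : ∀ i, β i - α i ≤ L) (s : Finset ι) :
    ∑ i ∈ s, β i ∈ spectrum ℝ (∑ i ∈ s, η i y) ∧ ∀ c, ∑ i ∈ s, α i ≤ c → c ≤ ∑ i ∈ s, β i →
      ∃ r ∈ spectrum ℝ (∑ i ∈ s, η i y), |r - c| ≤ L := by
  classical
  induction s using Finset.induction_on with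
  | empty =>
    simp only [sum_empty, spectrum.zero_eq, Set.mem_singleton_iff, true_and]
    exact fun c a b => ⟨0, rfl, by rw [le_antisymm b a]; simpa using hL⟩
  | insert i s hi ih =>
    have c1 : ∀ e, Commute (∑ j ∈ s, η j y) (η i e) := fun e =>
      Commute.sum_left _ _ _ fun j hj => h j i (fun e' => hi (e' ▸ hj)) _ _
    have key : ∀ l ∈ spectrum ℝ (∑ j ∈ s, η j y), ∀ m ∈ spectrum ℝ (η i y),
        l + m ∈ spectrum ℝ (∑ j ∈ insert i s, η j y) := fun l hl m hm => by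
      rw [sum_insert hi, add_comm (η i y)]
      refine joint (isSelfAdjoint_sum _ fun j _ => hy.map _) (hy.map _) (c1 y)
        (fun f g _ hg' h2 h3 => ?_) hl hm
      rw [← map_cfc (η i) hg' hy] at h3 ⊢
      exact prime h hg i (fun e => (c1 e).cfc_real f) h3 h2
    simp only [sum_insert hi (f := α), sum_insert hi (f := β)]
    have k1 := key _ ih.1 _ (hβ i)
    refine ⟨add_comm (β i) _ ▸ k1, fun c a b => ?_⟩
    rcases le_total (c - α i) (∑ j ∈ s, β j) with h2 | h2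
    · obtain ⟨r, r1, r2⟩ := ih.2 (c - α i) (by linarith) h2
      exact ⟨_, key _ r1 _ (hα i), by rwa [show r + α i - c = r - (c - α i) by ring]⟩
    · exact ⟨_, k1, abs_le.2 ⟨by linarith, by linarith [h1 i]⟩⟩

/-- A periodic bump. -/
noncomputable def per (L : ℝ) (m j : ℕ) (t : ℝ) : ℝ :=
  max 0 (L - Metric.infDist t (Set.range fun z : ℤ => 2 * L * ((m * z + j : ℤ) : ℝ)))

lemma per_cont (L : ℝ) (m j : ℕ) : Continuous (per L m j) :=
  continuous_const.max (continuous_const.sub (Metric.continuous_infDist_pt _))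

lemma per_ne {L t : ℝ} {m j : ℕ} :
    per L m j t ≠ 0 ↔ ∃ z : ℤ, |t - 2 * L * ((m * z + j : ℤ) : ℝ)| < L := by
  rw [per, ne_eq, max_eq_left_iff, not_le, sub_pos, Metric.infDist_lt_iff (Set.range_nonempty _)]
  simp only [Set.exists_range_iff, Real.dist_eq]

lemma per_mul {L : ℝ} (hL : 0 < L) {m : ℕ} {i j : Fin m} (h : i ≠ j) (t : ℝ) :
    per L m i t * per L m j t = 0 := by
  by_contra h0
  obtain ⟨z, hz⟩ := per_ne.1 (left_ne_zero_of_mul h0)
  obtain ⟨z', hz'⟩ := per_ne.1 (right_ne_zero_of_mul h0)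
  rw [abs_lt] at hz hz'
  have a1 : ((m * z + (i : ℕ) : ℤ) : ℝ) < ((m * z' + (j : ℕ) : ℤ) : ℝ) + 1 := by nlinarith
  have a2 : ((m * z' + (j : ℕ) : ℤ) : ℝ) < ((m * z + (i : ℕ) : ℤ) : ℝ) + 1 := by nlinarith
  have a3 : (m * z + (i : ℕ) : ℤ) = m * z' + (j : ℕ) :=
    le_antisymm (Int.lt_add_one_iff.1 (by exact_mod_cast a1))
      (Int.lt_add_one_iff.1 (by exact_mod_cast a2))
  have a4 := congrArg (· % (m : ℤ)) a3
  simp only [Int.mul_add_emod_self_left] at a4
  rw [Int.emod_eq_of_lt (by omega) (by omega), Int.emod_eq_of_lt (by omega) (by omega)] at a4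
  exact h (Fin.ext (by omega))

lemma exists_c {L : ℝ} (hL : 0 < L) {m : ℕ} (j : Fin m) (s : ℝ) :
    ∃ z : ℤ, s ≤ 2 * L * ((m * z + (j : ℕ) : ℤ) : ℝ) ∧
      2 * L * ((m * z + (j : ℕ) : ℤ) : ℝ) ≤ s + 2 * L * m := by
  have hm : (0 : ℝ) < m := by exact_mod_cast j.pos
  refine ⟨⌈(s / (2 * L) - (j : ℕ)) / m⌉, ?_⟩
  have a1 := Int.le_ceil ((s / (2 * L) - (j : ℕ)) / m)
  have a2 := (Int.ceil_lt_add_one ((s / (2 * L) - (j : ℕ)) / m)).le
  rw [div_le_iff₀ hm, sub_le_iff_le_add, div_le_iff₀ (by positivity)] at a1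
  rw [← sub_le_iff_le_add, le_div_iff₀ hm, le_sub_iff_add_le, le_div_iff₀ (by positivity)] at a2
  push_cast
  constructor <;> linarith

end S2

theorem split (hF : Cp F) {y : F} {n : ℕ} {b d c : Fin n → F} (hy : IsSelfAdjoint y)
    (h : ∑ r, b r * (y * d r - d r * y) * c r = 1) (m : ℕ) : ∃ p : Fin m → F,
      (∀ i, IsSelfAdjoint (p i) ∧ Full (p i)) ∧ ∀ i j, i ≠ j → p i * p j = 0 := by
  obtain ⟨D, _, e, t, he, ht, -, hθ⟩ :=
    hF.pull fun j : Option (Fin n × Fin 3) => j.elim y fun j => ![b j.1, d j.1, c j.1] j.2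
  have t0 : e (t none) = y := ht none
  have t1 : ∀ r, e (t (some (r, 0))) = b r := fun r => ht (some (r, 0))
  have t2 : ∀ r, e (t (some (r, 1))) = d r := fun r => ht (some (r, 1))
  have t3 : ∀ r, e (t (some (r, 2))) = c r := fun r => ht (some (r, 2))
  have a1 : IsSelfAdjoint (t none) := he (by rw [map_star, t0, hy.star_eq])
  have a2 : ∑ r, t (some (r, 0)) * (t none * t (some (r, 1)) - t (some (r, 1)) * t none) *
      t (some (r, 2)) = 1 :=
    he (by simpa only [map_sum, map_mul, map_sub, map_one, t0, t1, t2, t3] using h)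
  set C := ∑ r, ‖t (some (r, 0))‖ * (2 * ‖t (some (r, 1))‖) * ‖t (some (r, 2))‖ + 1 with hC
  have hC0 : 0 < C := add_pos_of_nonneg_of_pos (sum_nonneg fun _ _ => by positivity) one_pos
  set L := 2 * ‖t none‖ + 1 with hL
  have hL0 : 0 < L := by positivity
  obtain ⟨N, hN⟩ := exists_nat_ge (2 * L * m * C)
  obtain ⟨θ, hθ⟩ := hθ (Fin N)
  obtain ⟨B, _, e', η, h1, h2, -⟩ := sys hθ
  have hY : IsSelfAdjoint (∑ i, η i (t none)) := isSelfAdjoint_sum _ fun i _ => a1.map _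
  refine ⟨fun j => e' (cfc (S2.per L m j) (∑ i, η i (t none))), fun j =>
    ⟨IsSelfAdjoint.map (cfc_predicate _ _) e', Full.map ?_ e'⟩, fun i j hij => ?_⟩
  · obtain ⟨k, b', s, c', w1, w2⟩ := witness {cfc (S2.per L m j) (∑ i, η i (t none))}
      fun Q _ _ π hπ => ⟨_, rfl, by
        choose α β g1 g2 g3 g4 using fun i => S2.two a1 a2 (π.comp (η i))
        obtain ⟨z, z1, z2⟩ := S2.exists_c hL0 j (∑ i, α i)
        have g5 : ∑ _i : Fin N, 1 / C ≤ ∑ i, (β i - α i) := sum_le_sum fun i _ => g3 i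
        rw [sum_sub_distrib, sum_const, card_univ, Fintype.card_fin, nsmul_eq_mul, mul_one_div]
          at g5
        obtain ⟨r, r1, r2⟩ := (S2.chain (h1.comp π) (h2.comp hπ) a1 (by positivity) g1 g2 g4
          univ).2 _ z1 (by linarith [(le_div_iff₀ hC0).2 hN])
        rw [S2.map_cfc π (S2.per_cont _ _ _) hY, map_sum]
        intro h0
        have := norm_apply_le_norm_cfc (S2.per L m j) _ r1 (S2.per_cont _ _ _).continuousOn
          (isSelfAdjoint_sum _ fun i _ => a1.map _)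
        refine S2.per_ne.2 ⟨z, r2.trans_lt (lt_add_one _)⟩ (norm_le_zero_iff.1 (this.trans_eq ?_))
        exact norm_eq_zero.2 h0⟩
    exact ⟨k, b', c', by simpa only [fun r => Set.mem_singleton_iff.1 (w1 r)] using w2⟩
  · rw [← map_mul, ← cfc_mul _ _ _ (S2.per_cont _ _ _).continuousOn (S2.per_cont _ _ _).continuousOn]
    simp only [S2.per_mul hL0 hij, cfc_const_zero, map_zero]

end Vale.Agent.P101
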