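import Vale.Agent.P101.PartQ2
import Vale.Agent.P101.PartT
import Vale.Agent.P101.Pull

/-! Part S3a of P101: many orthogonal copies of a full element. -/

namespace Vale.Agent.P101

open Filter Topology Finset

variable {A B D E F Q T Z : Type} [CStarAlgebra A] [CStarAlgebra B] [CStarAlgebra D]
  [CStarAlgebra E] [CStarAlgebra F] [CStarAlgebra Q] [CStarAlgebra T] [CStarAlgebra Z]
  {ι κ : Type} [Fintype ι] [Fintype κ] [DecidableEq κ]

namespace S3a

lemma sq_zero (hF : Cp F) (hp : ∀ m, ∃ p : Fin m → F,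
      (∀ i, IsSelfAdjoint (p i) ∧ Full (p i)) ∧ ∀ i j, i ≠ j → p i * p j = 0) :
    ∃ X : F, Full X ∧ X * X = 0 := by
  classical
  obtain ⟨p, hp1, hp2⟩ := hp 2
  obtain ⟨n, b, c, h1⟩ := (hp1 0).2
  obtain ⟨n', b', c', h2⟩ := (hp1 1).2
  obtain ⟨P, hP1, hP2⟩ := hp (n * n')
  let x : Fin n × Fin n' → F := fun j => p 0 * (c j.1 * b' j.2) * p 1
  let g : Fin n × Fin n' ≃ Fin (n * n') := finProdFinEquiv
  obtain ⟨D, _, e, t, he, ht, hf, hθ⟩ :=
    hF.pull fun j : (Fin n × Fin n') × Fin 4 => ![x j.1, b j.1.1, c' j.1.2, P (g j.1)] j.2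
  obtain ⟨θ, hθ⟩ := hθ Bool
  have t0 : ∀ j, e (t (j, 0)) = x j := fun j => ht (j, 0)
  have t1 : ∀ j, e (t (j, 1)) = b j.1 := fun j => ht (j, 1)
  have t2 : ∀ j, e (t (j, 2)) = c' j.2 := fun j => ht (j, 2)
  have t3 : ∀ j, e (t (j, 3)) = P (g j) := fun j => ht (j, 3)
  have a1 : ∑ j, t (j, 1) * t (j, 0) * t (j, 2) = 1 := he (by
    simp only [map_sum, map_mul, map_one, t0, t1, t2]
    rw [← mul_one (1 : F)]
    nth_rewrite 1 [← h1]
    rw [← h2, sum_mul_sum, Fintype.sum_prod_type]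
    simp only [x, mul_assoc])
  have a2 : ∀ j k, t (j, 0) * t (k, 0) = 0 := fun j k => he (by
    simp only [map_mul, map_zero, t0, x, mul_assoc]
    rw [← mul_assoc (p 1), hp2 1 0 (by decide)]
    simp)
  have a3 : ∀ j k, j ≠ k → t (j, 3) * t (k, 3) = 0 := fun j k h => he (by
    rw [map_mul, map_zero, t3, t3, hP2 _ _ (g.injective.ne h)])
  have a4 : ∀ j, Full (t (j, 3) * t (j, 3)) := fun j => by
    have := (hf (j, 3) (hP1 (g j)).2).star_mul_self
    rwa [show star (t (j, 3)) = t (j, 3) from he (by rw [map_star, t3, (hP1 _).1.star_eq])] at this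
  choose m β γ a5 using a4
  have cm := hθ true false (by decide)
  refine ⟨∑ j, θ false (t (j, 0)) * θ true (t (j, 3)), full_of (ι := Σ j, Fin (m j))
    (fun r => θ false (t (r.1, 1)) * θ true (β r.1 r.2))
    (fun r => θ true (t (r.1, 3) * γ r.1 r.2) * θ false (t (r.1, 2))) ?_, ?_⟩
  · rw [Fintype.sum_sigma, ← map_one (θ false), ← a1, map_sum]
    refine sum_congr rfl fun k _ => ?_
    have a6 : (∑ j, θ false (t (j, 0)) * θ true (t (j, 3))) * θ true (t (k, 3)) =
        θ false (t (k, 0)) * θ true (t (k, 3) * t (k, 3)) := by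
      rw [sum_mul, sum_eq_single k (fun j _ hj => by rw [mul_assoc, ← map_mul, a3 j k hj]; simp)
        (fun h => (h (mem_univ _)).elim), mul_assoc, map_mul]
    have a7 : ∀ r, θ false (t (k, 1)) * θ true (β k r) *
        (∑ j, θ false (t (j, 0)) * θ true (t (j, 3))) *
        (θ true (t (k, 3) * γ k r) * θ false (t (k, 2))) = θ false (t (k, 1)) * θ false (t (k, 0)) *
          θ true (β k r * (t (k, 3) * t (k, 3)) * γ k r) * θ false (t (k, 2)) := fun r => by
      rw [map_mul (θ true) (t (k, 3)), mul_assoc (θ true _) (θ true _), ← mul_assoc,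
        mul_assoc _ _ (θ true (t (k, 3))), a6, map_mul _ (β k r * _), map_mul _ (β k r)]
      simp only [mul_assoc]
      rw [(cm _ _).left_comm]
    simp only [a7]
    rw [← sum_mul, ← mul_sum, ← map_sum, a5, map_one, mul_one, map_mul, map_mul]
  · rw [sum_mul_sum]
    refine sum_eq_zero fun j _ => sum_eq_zero fun k _ => ?_
    rw [mul_assoc, (cm _ _).left_comm, ← mul_assoc, ← map_mul, a2, map_zero, zero_mul]

end S3a

theorem exists_v (hF : Cp F) (hp : ∀ m, ∃ p : Fin m → F,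
      (∀ i, IsSelfAdjoint (p i) ∧ Full (p i)) ∧ ∀ i j, i ≠ j → p i * p j = 0) :
    ∃ (v : κ → F) (b : F), Full b ∧ ∀ i j, star (v i) * v j = if i = j then b else 0 := by
  obtain ⟨X, h1, h2⟩ := S3a.sq_zero hF hp
  let _ := CStarAlgebra.spectralOrder F
  have _ := CStarAlgebra.spectralOrderedRing F
  have s1 : CFC.sqrt (star X * X) * CFC.sqrt (star X * X) = star X * X :=
    CFC.sqrt_mul_sqrt_self _ (star_mul_self_nonneg X)
  have s2 : star (CFC.sqrt (star X * X)) = CFC.sqrt (star X * X) :=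
    (IsSelfAdjoint.of_nonneg (CFC.sqrt_nonneg _)).star_eq
  have s3 : CFC.sqrt (star X * X) * X = 0 := by
    rw [← CStarRing.star_mul_self_eq_zero_iff, star_mul, s2, mul_assoc,
      ← mul_assoc (CFC.sqrt _), s1, mul_assoc, h2, mul_zero, mul_zero]
  obtain ⟨D, _, e, t, he, ht, hf, hθ⟩ := hF.pull ![CFC.sqrt (star X * X), X, star X * X]
  obtain ⟨θ, hθ⟩ := hθ κ
  have t0 : e (t 0) = CFC.sqrt (star X * X) := ht 0
  have t1 : e (t 1) = X := ht 1
  have t2 : e (t 2) = star X * X := ht 2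
  have a0 : star (t 0) * t 0 = t 2 := he (by rw [map_mul, map_star, t0, t2, s2, s1])
  have a1 : star (t 1) * t 1 = t 2 := he (by rw [map_mul, map_star, t1, t2])
  have a2 : star (t 1) * t 0 = 0 := he (by
    rw [map_mul, map_star, t0, t1, map_zero, ← s2, ← star_mul, s3, star_zero])
  refine ⟨fun i => Ten hθ fun l => if l = i then t 1 else t 0, Ten hθ fun _ => t 2,
    ten_full hθ fun _ => hf 2 h1.star_mul_self, fun i j => ?_⟩
  rw [ten_star, ← ten_mul]
  split_ifs with hij
  · subst hij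
    congr 1
    funext l
    simp only [Pi.mul_apply, Pi.star_apply]
    split_ifs
    exacts [a1, a0]
  · refine ten_zero hθ (i := i) ?_
    simp only [Pi.mul_apply, Pi.star_apply]
    rw [if_pos trivial, if_neg hij, a2]

end Vale.Agent.P101
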