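import Vale.Agent.P101.Itw
import Vale.Agent.P101.NonCentral

/-! PART S3b. -/

namespace Vale.Agent.P101

open Filter Topology Finset

variable {B : Type} [CStarAlgebra B] {κ : Type} [Fintype κ] [DecidableEq κ]

namespace S3b

/-- A small perturbation of a full self-adjoint element by cutting off is full. -/
lemma cut {b : B} (hs : IsSelfAdjoint b) (h0 : ∀ t ∈ spectrum ℝ b, 0 ≤ t) (hb : Full b) :
    ∃ δ : ℝ, 0 < δ ∧ Full (cfc (fun t : ℝ => max (t - δ) 0) b) := by
  obtain ⟨n, p, c, h⟩ := hb
  set C : ℝ := ∑ r, ‖p r‖ * ‖c r‖ with hC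
  have hC0 : 0 ≤ C := sum_nonneg fun _ _ => by positivity
  refine ⟨1 / (C + 1), by positivity, ?_⟩
  set δ : ℝ := 1 / (C + 1) with hδ
  have hδ0 : 0 < δ := by positivity
  set e := cfc (fun t : ℝ => max (t - δ) 0) b with he
  have h1 : ‖b - e‖ ≤ δ := by
    have : b - e = cfc (fun t : ℝ => t - max (t - δ) 0) b := by
      rw [cfc_sub _ _ b, cfc_id' ℝ b]
    rw [this]
    refine norm_cfc_le hδ0.le fun t ht => ?_
    have := h0 t ht
    rw [Real.norm_eq_abs, abs_le]
    constructor
    · rcases le_total (t - δ) 0 with h | h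
      · rw [max_eq_right h]; linarith
      · rw [max_eq_left h]; linarith
    · have := le_max_left (t - δ) 0
      linarith
  have h2 : ‖∑ r, p r * (b - e) * c r‖ < 1 := by
    calc _ ≤ ∑ r, ‖p r‖ * ‖c r‖ * δ := norm_sum_le_of_le _ fun r _ => by
          calc _ ≤ ‖p r‖ * δ * ‖c r‖ := norm_mul_le_of_le (norm_mul_le_of_le le_rfl h1) le_rfl
            _ = _ := by ring
      _ = C * δ := by rw [← sum_mul]
      _ < 1 := by
          rw [hδ, mul_one_div, div_lt_one (by positivity)]; linarith
  have h3 : ∑ r, p r * e * c r = 1 - ∑ r, p r * (b - e) * c r := by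
    rw [← h, ← sum_sub_distrib]
    exact sum_congr rfl fun r _ => by noncomm_ring
  let u := Units.oneSub _ h2
  refine ⟨n, fun r => ↑u⁻¹ * p r, c, ?_⟩
  simp only [mul_assoc, ← mul_sum]
  simp only [← mul_assoc, h3]
  exact u.inv_mul

lemma norm1 {e : B} (hs : IsSelfAdjoint e) (he : Full e) :
    ∃ (n : ℕ) (z : Fin n → B), ∑ r, star (z r) * (e * e) * z r = 1 := by
  letI := CStarAlgebra.spectralOrder B
  haveI := CStarAlgebra.spectralOrderedRing B
  obtain ⟨n, p, c, h⟩ := he
  set a := ∑ r, star (e * c r) * (e * c r) with ha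
  have h1 : IsUnit a := isUnit_of_comb p (fun r => e * c r) (by simpa only [mul_assoc] using h) le_rfl
  have h0 : 0 ≤ a := sum_nonneg fun _ _ => star_mul_self_nonneg _
  have h2 := CFC.conjugate_rpow_neg_one_half a ⟨h0, h1⟩
  set w := a ^ (-(1 / 2) : ℝ) with hw
  have hw0 : star w = w := (IsSelfAdjoint.of_nonneg CFC.rpow_nonneg).star_eq
  refine ⟨n, fun r => c r * w, ?_⟩
  rw [← h2, ha, mul_sum, sum_mul]
  refine sum_congr rfl fun r _ => ?_
  simp only [star_mul, hw0, hs.star_eq, mul_assoc]

lemma ctr {v : κ → B} {b : B} (hb : Ctr b)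
    (hv : ∀ i j, star (v i) * v j = if i = j then b else 0) : Ctr (∑ i, v i * star (v i)) := by
  have hs := (oz_of_v hv).sa
  set h := ∑ i, v i * star (v i) with hh
  refine ⟨hs, fun t ht => ?_⟩
  have h1 : ∀ i, h * v i = v i * b := fun i => by
    rw [hh, sum_mul]
    simp only [mul_assoc, hv]
    rw [sum_eq_single i (fun m _ hm => by simp [hm]) (by simp)]
    simp
  let F : ℝ → ℝ := fun t => max (t - 1) 0 + max (-t) 0
  have hF : Continuous F := by fun_prop
  have h2 : cfc F b = 0 := by
    rw [← cfc_const_zero ℝ b]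
    refine cfc_congr fun t ht => ?_
    have := hb.2 ht
    simp only [F]
    rw [max_eq_right (by linarith [this.2]), max_eq_right (by linarith [this.1]), add_zero]
  have h3 : cfc F h * h = 0 := by
    conv_lhs => rw [hh]
    rw [mul_sum]
    refine sum_eq_zero fun i _ => ?_
    rw [← mul_assoc, itw hs hb.1 (h1 i) hF, h2, mul_zero, zero_mul]
  have h4 : cfc (fun t => F t * t) h = cfc (fun _ : ℝ => (0 : ℝ)) h := by
    rw [cfc_mul _ _ h, cfc_id' ℝ h, h3, cfc_const_zero]
  have h5 : F t * t = 0 := eqOn_of_cfc_eq_cfc h4 (by fun_prop) (by fun_prop) hs ht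
  simp only [F] at h5
  constructor
  · by_contra hn
    push Not at hn
    rw [max_eq_right (by linarith), max_eq_left (by linarith)] at h5
    nlinarith
  · by_contra hn
    push Not at hn
    rw [max_eq_left (by linarith), max_eq_right (by linarith)] at h5
    nlinarith

end S3b

theorem good {v : κ → B} {b : B} (o : κ) (hb : Full b)
    (hv : ∀ i j, star (v i) * v j = if i = j then b else 0) :
    ∃ (M : κ → κ → B) (h : B) (K : ℕ) (t : Fin K → B), Good M h o t := by
  have hbo : star (v o) * v o = b := by simpa using hv o o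
  have hs : IsSelfAdjoint b := hbo ▸ IsSelfAdjoint.star_mul_self _
  have h0 : ∀ t ∈ spectrum ℝ b, 0 ≤ t := by
    rw [← hbo]; exact spectrum_star_mul_self_nonneg
  obtain ⟨δ, hδ, hf⟩ := S3b.cut hs h0 hb
  set e := cfc (fun t : ℝ => max (t - δ) 0) b with he
  have hes : IsSelfAdjoint e := cfc_predicate _ b
  obtain ⟨n, z, hz⟩ := S3b.norm1 hes hf
  let ψ : ℝ → ℝ := fun t => (√(max t δ))⁻¹
  have hψ : Continuous ψ := Continuous.inv₀ (by fun_prop) fun t =>
    (Real.sqrt_pos.2 (lt_max_of_lt_right hδ)).ne'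
  have hψ2 : ∀ t, ψ t * t * ψ t = t / max t δ := fun t => by
    have h1 : 0 < max t δ := lt_max_of_lt_right hδ
    have h2 := Real.mul_self_sqrt h1.le
    have h3 := Real.sqrt_pos.2 h1
    simp only [ψ]
    field_simp
    rw [sq, h2, mul_comm]
  clear_value ψ
  set w := cfc ψ b with hw
  have hws : star w = w := (cfc_predicate _ b : IsSelfAdjoint _).star_eq
  set b' := cfc (fun t => ψ t * t * ψ t) b with hb'
  have hwb : w * b * w = b' := by
    rw [hb', cfc_mul _ _ b, cfc_mul _ _ b, cfc_id' ℝ b]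
  have hc : Ctr b' := by
    have : b' = cfc (fun t => max t 0 / max t δ) b := cfc_congr fun t ht => by
      simp only [hψ2, max_eq_left (h0 t ht)]
    rw [this]
    refine Ctr.cfc fun t => ?_
    have h1 : 0 < max t δ := lt_max_of_lt_right hδ
    exact ⟨by positivity, (div_le_one h1).2 (max_le_max le_rfl hδ.le)⟩
  have hbe : b' * e = e := by
    rw [hb', he, ← cfc_mul _ _ b]
    refine cfc_congr fun t _ => ?_
    simp only [hψ2]
    rcases le_total t δ with h | h
    · rw [max_eq_right (sub_nonpos.2 h), mul_zero]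
    · rw [max_eq_left h, div_self (by linarith), one_mul]
  have hv' : ∀ i j, star (v i * w) * (v j * w) = if i = j then b' else 0 := fun i j => by
    rw [star_mul, hws, mul_assoc, ← mul_assoc (star (v i)), hv]
    split_ifs
    · rw [← mul_assoc, hwb]
    · simp
  have hC := S3b.ctr hc hv'
  set h := ∑ i, v i * w * star (v i * w) with hh
  set s := cfc (fun t : ℝ => √(1 - t)) h with hs'
  have hss : star s = s := (cfc_predicate _ h : IsSelfAdjoint _).star_eq
  have hs2 : s * s = 1 - h := by
    have h1 := hC.1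
    rw [hs', ← cfc_mul _ _ h]
    calc _ = cfc (fun t : ℝ => 1 - t) h := cfc_congr fun t ht =>
          Real.mul_self_sqrt (sub_nonneg.2 (hC.2 ht).2)
      _ = _ := by rw [cfc_sub _ _ h, cfc_id' ℝ h, cfc_const_one ℝ h]
  have ho : star (v o * w) * (v o * w) = b' := by simpa using hv' o o
  refine ⟨_, h, n, fun r => v o * w * (e * z r * s), oz_of_v hv', hC, ?_, fun r => ?_⟩
  · rw [← hs2]
    have : s * s = s * ((∑ r, star (z r) * (e * e) * z r) * s) := by rw [hz, one_mul]
    rw [this, sum_mul, mul_sum]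
    refine sum_congr rfl fun r _ => ?_
    rw [star_mul (v o * w), mul_assoc, ← mul_assoc (star (v o * w)), ho, ← mul_assoc b', ← mul_assoc b',
      hbe]
    simp only [star_mul, hss, hes.star_eq, mul_assoc]
  · rw [mul_assoc, ← mul_assoc (star (v o * w)), ho, ← mul_assoc b', ← mul_assoc b', hbe]

end Vale.Agent.P101
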