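import Vale.Agent.P101.UUtil

/-! Part U2 of P101: commuting copies of separable subalgebras of the central sequence algebra. -/

namespace Vale.Agent.P101

open Filter Topology Finset TopologicalSpace

variable {A B D E F Q T Z : Type} [CStarAlgebra A] [CStarAlgebra B] [CStarAlgebra D]
  [CStarAlgebra E] [CStarAlgebra F] [CStarAlgebra Q] [CStarAlgebra T] [CStarAlgebra Z]
  {ι κ : Type} [Fintype ι] [Fintype κ] [DecidableEq κ]

namespace U2

lemma mem_cen [Nontrivial A] {q : Linf A →⋆ₐ[ℂ] E} {z : E} :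
    z ∈ Cen q (id : A → A) ↔ ∀ a, Commute z (q (cst A a)) := by
  rw [StarSubalgebra.mem_centralizer_iff]
  refine ⟨fun h a => (h _ ⟨a, rfl⟩).1.symm, ?_⟩
  rintro h _ ⟨a, rfl⟩
  refine ⟨(h a).eq.symm, ?_⟩
  rw [← map_star]
  exact (h (star a)).eq.symm

lemma reindex {ω : Ultrafilter ℕ} (hω : (ω : Filter ℕ) ≤ cofinite) [Nontrivial A]
    {q : Linf A →⋆ₐ[ℂ] E} (hq : IsUlt ω q) {G S : Set (Linf A)} (hG : IsSeparable G)
    (hc : ∀ x ∈ G, q x ∈ Cen q (id : A → A)) (hS : S.Countable) :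
    ∃ m : ℕ → ℕ, ∀ x ∈ G, ‖q (rx m x)‖ ≤ ‖q x‖ ∧ ∀ s ∈ S, Commute (q (rx m x)) (q s) := by
  obtain ⟨C, hCG, hC, hGC⟩ := hG.exists_countable_dense_subset
  have := hC.to_subtype
  have := (hS.insert 0).to_subtype
  obtain ⟨m, hm⟩ := diag hω (J := C × ↥(insert 0 S) × ℕ)
    (fun j l n => ‖j.1.1 n‖ < ‖q j.1.1‖ + 1 / ((j.2.2 : ℝ) + 1) ∧
      ‖j.1.1 n * j.2.1.1 l - j.2.1.1 l * j.1.1 n‖ < 1 / ((j.2.2 : ℝ) + 1)) (by
      rintro ⟨⟨x, hx⟩, ⟨s, hs⟩, k⟩ l
      have hk : (0 : ℝ) < 1 / ((k : ℝ) + 1) := Nat.one_div_pos_of_nat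
      refine (hq.ev2 (lt_add_of_pos_right _ hk)).and ?_
      have h0 : q (x * cst A (s l) - cst A (s l) * x) = 0 := by
        rw [map_sub, map_mul, map_mul, (mem_cen.1 (hc x (hCG hx)) (s l)).eq, sub_self]
      exact hq.ev2 (x := x * cst A (s l) - cst A (s l) * x) (by rw [h0, norm_zero]; exact hk))
  refine ⟨m, fun x hx => ?_⟩
  have hR : Continuous fun x : Linf A => q (rx m x) := (hom_cont q).comp (hom_cont (rx (A := A) m))
  have hcl : IsClosed {x : Linf A | ‖q (rx m x)‖ ≤ ‖q x‖ ∧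
      ∀ s ∈ S, Commute (q (rx m x)) (q s)} := by
    refine (isClosed_le hR.norm (hom_cont q).norm).inter ?_
    have : IsClosed (⋂ s ∈ S, {x : Linf A | Commute (q (rx m x)) (q s)}) :=
      isClosed_biInter fun s _ => isClosed_commute hR continuous_const
    exact Set.ext (fun x => Set.mem_iInter₂) ▸ this
  refine hcl.closure_subset_iff.2 (fun y hy => ⟨?_, fun s hs => ?_⟩) (hGC hx)
  · refine le_of_forall_pos_le_add fun ε hε => ?_
    obtain ⟨k, hk⟩ := exists_nat_one_div_lt hε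
    refine hq.le2 ((hm (⟨y, hy⟩, ⟨0, Set.mem_insert _ _⟩, k)).mono fun l hl => ?_)
    exact hl.1.le.trans (add_le_add le_rfl hk.le)
  · have : q (rx m y * s - s * rx m y) = 0 := by
      rw [← norm_le_zero_iff]
      refine le_of_forall_pos_le_add fun ε hε => ?_
      obtain ⟨k, hk⟩ := exists_nat_one_div_lt hε
      refine hq.le2 ((hm (⟨y, hy⟩, ⟨s, Set.mem_insert_of_mem _ hs⟩, k)).mono fun l hl => ?_)
      rw [zero_add]
      exact hl.2.le.trans hk.le
    rwa [map_sub, map_mul, map_mul, sub_eq_zero] at this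

lemma copies [SeparableSpace D]
    (h : ∀ S : Set F, IsSeparable S → ∃ ρ : D →⋆ₐ[ℂ] F, ∀ d, ∀ s ∈ S, Commute (ρ d) s)
    (ι : Type) [Fintype ι] : ∃ θ : ι → D →⋆ₐ[ℂ] F, Cm θ := by
  induction ι using Finite.induction_empty_option with
  | of_equiv e ih =>
    obtain ⟨θ, hθ⟩ := ih
    exact ⟨fun i => θ (e.symm i), fun i j hij => hθ _ _ (e.symm.injective.ne hij)⟩
  | h_empty => exact ⟨fun i => i.elim, fun i => i.elim⟩
  | h_option ih =>
    obtain ⟨θ, hθ⟩ := ih
    obtain ⟨ρ, hρ⟩ := h (⋃ i, Set.range (θ i))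
      (IsSeparable.iUnion fun i => isSeparable_range (hom_cont (θ i)))
    refine ⟨fun i => i.elim ρ θ, ?_⟩
    rintro (_ | i) (_ | j) hij x y
    · exact absurd rfl hij
    · exact hρ x _ (Set.mem_iUnion.2 ⟨j, y, rfl⟩)
    · exact (hρ y _ (Set.mem_iUnion.2 ⟨i, x, rfl⟩)).symm
    · exact hθ i j (fun e => hij (congrArg some e)) x y

end U2

open U2 in
theorem cp_of_ult {ω : Ultrafilter ℕ} (hω : (ω : Filter ℕ) ≤ cofinite) [Nontrivial A]
    [TopologicalSpace.SeparableSpace A] {q : Linf A →⋆ₐ[ℂ] E} (hq : IsUlt ω q) :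
    Cp (Cen q (id : A → A)) := by
  intro T hT
  choose lift hlift using hq.surj
  set G : StarSubalgebra ℂ (Linf A) := StarAlgebra.adjoin ℂ ((fun t => lift t.1) '' T) with hG
  have hGs : IsSeparable (G : Set (Linf A)) := sep_adjoin (hT.image _)
  have hc : ∀ x ∈ G, q x ∈ Cen q (id : A → A) := by
    have : G ≤ (Cen q (id : A → A)).comap q := StarAlgebra.adjoin_le (by
      rintro _ ⟨t, -, rfl⟩
      change q (lift t.1) ∈ Cen q (id : A → A)
      rw [hlift]
      exact t.2)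
    exact fun x hx => this hx
  let π0 : G →⋆ₐ[ℂ] Cen q (id : A → A) :=
    (q.comp G.subtype).codRestrict _ fun x => hc x.1 x.2
  let D : StarSubalgebra ℂ (Cen q (id : A → A)) := π0.range.topologicalClosure
  have hD : IsClosed (D : Set (Cen q (id : A → A))) :=
    StarSubalgebra.isClosed_topologicalClosure _
  let π : G →⋆ₐ[ℂ] D := π0.codRestrict _ fun x =>
    StarSubalgebra.le_topologicalClosure _ ⟨x, rfl⟩
  have hπ : DenseRange π := by
    rw [DenseRange, Subtype.dense_iff]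
    intro z hz
    refine closure_mono ?_ hz
    rintro _ ⟨x, rfl⟩
    exact ⟨π x, ⟨x, rfl⟩, rfl⟩
  have := hGs.separableSpace
  have hπc : Continuous π :=
    (((hom_cont q).comp continuous_subtype_val).subtype_mk _).subtype_mk _
  have : SeparableSpace D := hπ.separableSpace hπc
  refine ⟨D, inferInstance, D.subtype, Subtype.val_injective, fun t ht => ?_, copies fun S hS => ?_⟩
  · exact ⟨π ⟨lift t.1, StarAlgebra.subset_adjoin _ _ ⟨t, ht, rfl⟩⟩, Subtype.ext (hlift _)⟩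
  obtain ⟨S0, hS0S, hS0, hSS0⟩ := hS.exists_countable_dense_subset
  obtain ⟨a, ha, ha'⟩ := exists_countable_dense A
  obtain ⟨m, hm⟩ := reindex hω hq hGs hc
    ((hS0.image fun s => lift s.1).union (ha.image (cst A)))
  have hR : ∀ x : G, q (rx m x.1) ∈ Cen q (id : A → A) := fun x => mem_cen.2 fun b =>
    ha'.induction (P := fun b => Commute (q (rx m x.1)) (q (cst A b)))
      (fun b hb => (hm x.1 x.2).2 _ (Or.inr ⟨b, hb, rfl⟩))
      (isClosed_commute continuous_const ((hom_cont q).comp continuous_cst)) b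
  obtain ⟨ρ, hρ⟩ := extend_hom π hπ
    ((q.comp ((rx m).comp G.subtype)).codRestrict (Cen q (id : A → A)) hR) fun x => (hm x.1 x.2).1
  refine ⟨ρ, fun d s hs => ?_⟩
  refine hπ.induction_on (p := fun d => Commute (ρ d) s) d
    (isClosed_commute (hom_cont ρ) continuous_const) fun x => ?_
  refine (isClosed_commute (f := fun _ => ρ (π x)) (g := id) continuous_const
    continuous_id).closure_subset_iff.2 (fun s hs => ?_) (hSS0 hs)
  have := (hm x.1 x.2).2 _ (Or.inl ⟨s, hs, rfl⟩)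
  rw [hlift] at this
  change Commute (ρ (π x)) s
  rw [hρ]
  exact Subtype.ext this.eq

end Vale.Agent.P101
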