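import Vale.Agent.P101.Work

/-! Intertwiners and the continuous functional calculus. -/

namespace Vale.Agent.P101

open Polynomial

variable {B : Type} [CStarAlgebra B]

lemma itw_poly {a b x : B} (h : a * x = x * b) (p : ℝ[X]) : aeval a p * x = x * aeval b p := by
  have hp : ∀ n : ℕ, a ^ n * x = x * b ^ n := fun n => by
    induction n with
    | zero => simp
    | succ n ih => rw [pow_succ, mul_assoc, h, ← mul_assoc, ih, mul_assoc, ← pow_succ]
  induction p using Polynomial.induction_on' with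
  | add p q hp hq => rw [map_add, map_add, add_mul, mul_add, hp, hq]
  | monomial n c =>
    rw [aeval_monomial, aeval_monomial, ← Algebra.smul_def, ← Algebra.smul_def, smul_mul_assoc,
      mul_smul_comm, hp]

lemma near_poly {a : B} (ha : IsSelfAdjoint a) {f : ℝ → ℝ} (hf : Continuous f) {R ε : ℝ}
    (hR : ‖a‖ ≤ R) (hε : 0 ≤ ε) {p : ℝ[X]} (hp : ∀ t ∈ Set.Icc (-R) R, |p.eval t - f t| < ε) :
    ‖aeval a p - cfc f a‖ ≤ ε := by
  rw [← cfc_polynomial p a ha, ← cfc_sub _ _ a (by fun_prop) hf.continuousOn]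
  refine norm_cfc_le hε fun t ht => (hp t ?_).le
  rcases subsingleton_or_nontrivial B with _ | _
  · simp [spectrum.of_subsingleton] at ht
  exact abs_le.1 ((spectrum.norm_le_norm_of_mem ht).trans hR)

/-- If `a x = x b` then `f(a) x = x f(b)`. -/
theorem itw {a b x : B} (ha : IsSelfAdjoint a) (hb : IsSelfAdjoint b) (h : a * x = x * b)
    {f : ℝ → ℝ} (hf : Continuous f) : cfc f a * x = x * cfc f b := by
  rw [← sub_eq_zero, ← norm_le_zero_iff]
  refine le_of_forall_pos_le_add fun ε hε => ?_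
  have hδ : 0 < ε / (2 * ‖x‖ + 1) := by positivity
  obtain ⟨p, hp⟩ := exists_polynomial_near_of_continuousOn (-(max ‖a‖ ‖b‖)) (max ‖a‖ ‖b‖) f
    hf.continuousOn _ hδ
  have h1 := near_poly ha hf (le_max_left _ _) hδ.le hp
  have h2 := near_poly hb hf (le_max_right _ _) hδ.le hp
  have e : cfc f a * x - x * cfc f b =
      x * (aeval b p - cfc f b) - (aeval a p - cfc f a) * x := by
    rw [mul_sub, sub_mul, itw_poly h]; abel
  rw [e, zero_add]
  calc _ ≤ ‖x‖ * (ε / (2 * ‖x‖ + 1)) + ε / (2 * ‖x‖ + 1) * ‖x‖ :=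
        (norm_sub_le _ _).trans (add_le_add (norm_mul_le_of_le le_rfl h2)
          (norm_mul_le_of_le h1 le_rfl))
    _ = ε * (2 * ‖x‖ / (2 * ‖x‖ + 1)) := by ring
    _ ≤ ε * 1 := by
        gcongr
        rw [div_le_one (by positivity)]; linarith
    _ = ε := mul_one ε

/-- If `a x = c x` then `f(a) x = f(c) x`. -/
theorem itw_smul {a x : B} (ha : IsSelfAdjoint a) {c : ℝ} (h : a * x = c • x)
    {f : ℝ → ℝ} (hf : Continuous f) : cfc f a * x = f c • x := by
  have h2 : a * x = x * algebraMap ℝ B c := by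
    rw [h, Algebra.algebraMap_eq_smul_one, mul_smul_comm, mul_one]
  rw [itw ha (IsSelfAdjoint.algebraMap B (IsSelfAdjoint.all c)) h2 hf, cfc_algebraMap,
    Algebra.algebraMap_eq_smul_one, mul_smul_comm, mul_one]

end Vale.Agent.P101
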