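import Vale.Agent.P101.PartINT
import Vale.Agent.P101.Itw

/-! Merging two commuting order zero maps. -/

namespace Vale.Agent.P101

open Filter Topology Finset

variable {A B D E F Q T Z : Type} [CStarAlgebra A] [CStarAlgebra B] [CStarAlgebra D]
  [CStarAlgebra E] [CStarAlgebra F] [CStarAlgebra Q] [CStarAlgebra T] [CStarAlgebra Z]
  {ι κ : Type} [Fintype ι] [Fintype κ] [DecidableEq κ]

namespace MG

noncomputable def nn (t : ℝ) : ℝ := (max t (1 / 4))⁻¹
noncomputable def ff (t : ℝ) : ℝ := max 0 (min 1 (2 * t - 1 / 2))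
noncomputable def gg (t : ℝ) : ℝ := √(1 - ff t ^ 2)
noncomputable def rr (t : ℝ) : ℝ := gg t * (√(max (1 - t) (1 / 4)))⁻¹

@[fun_prop] lemma nn_c : Continuous nn :=
  Continuous.inv₀ (by fun_prop) fun t => (lt_of_lt_of_le (by norm_num) (le_max_right _ _)).ne'

@[fun_prop] lemma ff_c : Continuous ff := by unfold ff; fun_prop

@[fun_prop] lemma gg_c : Continuous gg := by unfold gg; fun_prop

@[fun_prop] lemma rr_c : Continuous rr :=
  gg_c.mul (Continuous.inv₀ (by fun_prop) fun t =>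
    (Real.sqrt_pos.2 (lt_of_lt_of_le (by norm_num) (le_max_right _ _))).ne')

lemma ff_sq (t : ℝ) : 0 ≤ 1 - ff t ^ 2 := by
  have h0 : 0 ≤ ff t := le_max_left _ _
  have h1 : ff t ≤ 1 := max_le zero_le_one (min_le_left _ _)
  nlinarith

lemma j1 (t : ℝ) : ff t * (nn t * t) = ff t := by
  rcases le_total t (1 / 4) with h | h
  · have : ff t = 0 := max_eq_left ((min_le_right _ _).trans (by linarith))
    rw [this, zero_mul]
  · rw [nn, max_eq_left h, inv_mul_cancel₀ (by linarith), mul_one]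

lemma j2 (t : ℝ) : gg t * gg t = 1 - ff t * ff t := by
  rw [gg, Real.mul_self_sqrt (ff_sq t), sq]

lemma ff1 {t : ℝ} (h : 3 / 4 ≤ t) : ff t = 1 := by
  rw [ff, min_eq_left (by linarith), max_eq_right zero_le_one]

lemma gg0 {t : ℝ} (h : 3 / 4 ≤ t) : gg t = 0 := by
  rw [gg, ff1 h]; simp

lemma j3 (t : ℝ) : rr t * (1 - t) * rr t = gg t * gg t := by
  rcases le_total (1 - t) (1 / 4) with h | h
  · rw [rr, gg0 (by linarith)]; simp
  · have h0 : 0 < 1 - t := by linarith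
    have h1 := Real.mul_self_sqrt h0.le
    have h2 := (Real.sqrt_pos.2 h0).ne'
    rw [rr, max_eq_left h]
    generalize √(1 - t) = s at h1 h2
    rw [← h1]; field_simp

lemma gg_le (t : ℝ) : ‖gg t‖ ≤ 1 := by
  rw [gg, Real.norm_of_nonneg (Real.sqrt_nonneg _)]
  exact Real.sqrt_le_one.2 (by nlinarith [sq_nonneg (ff t)])

lemma k1 {a : B} (ha : IsSelfAdjoint a) : cfc ff a * (cfc nn a * a) = cfc ff a := by
  conv_lhs => enter [2, 2]; rw [← cfc_id' ℝ a]
  rw [← cfc_mul _ _ a, ← cfc_mul _ _ a]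
  exact cfc_congr fun t _ => j1 t

lemma k2 {a : B} (ha : IsSelfAdjoint a) : cfc gg a * cfc gg a = 1 - cfc ff a * cfc ff a := by
  rw [← cfc_mul _ _ a, ← cfc_mul _ _ a, ← cfc_const_one ℝ a, ← cfc_sub _ _ a]
  exact cfc_congr fun t _ => j2 t

lemma k3 {a : B} (ha : IsSelfAdjoint a) : cfc rr a * (1 - a) * cfc rr a = cfc gg a * cfc gg a := by
  conv_lhs => enter [1, 2, 2]; rw [← cfc_id' ℝ a]
  rw [← cfc_const_one ℝ a, ← cfc_sub _ _ a, ← cfc_mul _ _ a, ← cfc_mul _ _ a, ← cfc_mul _ _ a]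
  exact cfc_congr fun t _ => j3 t

lemma ctr {y : B} (hy : IsSelfAdjoint y) (h : ‖y‖ ≤ 1) : Ctr (1 - y * y) := by
  have e : 1 - y * y = cfc (fun t : ℝ => max 0 (1 - t * t)) y := by
    conv_lhs => rw [← cfc_id' ℝ y]
    rw [← cfc_mul _ _ y, ← cfc_const_one ℝ y, ← cfc_sub _ _ y]
    refine cfc_congr fun t ht => ?_
    rcases subsingleton_or_nontrivial B with _ | _
    · simp [spectrum.of_subsingleton] at ht
    have := abs_le.1 ((spectrum.norm_le_norm_of_mem ht).trans h)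
    exact (max_eq_right (by nlinarith [this.1, this.2])).symm
  rw [e]
  exact Ctr.cfc fun t => ⟨le_max_left _ _, max_le zero_le_one (by nlinarith [mul_self_nonneg t])⟩

lemma cc {a x : B} (ha : IsSelfAdjoint a) (h : Commute x a) (f : ℝ → ℝ)
    (hf : Continuous f) : Commute x (cfc f a) :=
  (itw ha ha h.symm.eq hf).symm

end MG

open MG in
theorem merge {M N : κ → κ → B} {h h' : B} (hM : OZ M h) (hN : OZ N h') (c1 : Ctr h) (c2 : Ctr h')
    (hc : ∀ a b c d, Commute (M a b) (N c d)) : ∃ (P : κ → κ → B) (k ρ : B), OZ P k ∧ Ctr k ∧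
      1 - k = star ρ * ((1 - h) * (1 - h')) * ρ ∧
      (∀ x, (∀ a b, Commute x (M a b) ∧ Commute x (N a b)) →
        (∀ a b, Commute x (P a b)) ∧ Commute x ρ ∧ Commute x (star ρ)) ∧
      ∀ u, h * u = u → ∀ a b, P a b * u = M a b * u := by
  have s1 := c1.1
  have s2 := c2.1
  have hM' : ∀ a b, Commute (M a b) h' := fun a b => hN.comm_h (hc a b)
  have hN' : ∀ a b, Commute (N a b) h := fun a b => hM.comm_h fun c d => (hc c d a b).symm
  have hh : Commute h h' := hN.comm_h fun a b => (hN' a b).symm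
  have u1 : ∀ (f : ℝ → ℝ), Continuous f → ∀ a b, Commute (cfc f h) (M a b) ∧
      Commute (cfc f h) (N a b) := fun f hf a b =>
    ⟨(cc s1 (hM.comm a b).symm f hf).symm, (cc s1 (hN' a b) f hf).symm⟩
  have u2 : ∀ (f : ℝ → ℝ), Continuous f → ∀ a b, Commute (cfc f h') (M a b) ∧
      Commute (cfc f h') (N a b) := fun f hf a b =>
    ⟨(cc s2 (hM' a b) f hf).symm, (cc s2 (hN.comm a b).symm f hf).symm⟩
  have w : ∀ x, (∀ a b, Commute x (M a b) ∧ Commute x (N a b)) → ∀ (f : ℝ → ℝ), Continuous f →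
      Commute x (cfc f h) ∧ Commute x (cfc f h') := fun x hx f hf =>
    ⟨cc s1 (hM.comm_h fun a b => (hx a b).1) f hf, cc s2 (hN.comm_h fun a b => (hx a b).2) f hf⟩
  have w1 : ∀ x, (∀ a b, Commute x (M a b) ∧ Commute x (N a b)) → ∀ a b,
      Commute x (cfc nn h * M a b) ∧ Commute x (cfc nn h' * N a b) := fun x hx a b =>
    ⟨(w x hx nn nn_c).1.mul_right (hx a b).1, (w x hx nn nn_c).2.mul_right (hx a b).2⟩
  have sa : ∀ (f : ℝ → ℝ) (a : B), IsSelfAdjoint (cfc f a) := fun f a => cfc_predicate f a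
  have v : ∀ f g : ℝ → ℝ, Continuous f → Continuous g → Commute (cfc f h) (cfc g h') :=
    fun f g hf hg => (w _ (u1 f hf) g hg).2
  have hS : ∀ a b, Commute (cfc gg h * cfc ff h') (M a b) ∧
      Commute (cfc gg h * cfc ff h') (N a b) := fun a b =>
    ⟨(u1 _ gg_c a b).1.mul_left (u2 _ ff_c a b).1, (u1 _ gg_c a b).2.mul_left (u2 _ ff_c a b).2⟩
  have H := interp (C := cfc ff h) (S := cfc gg h * cfc ff h')
    (hM.cut (sa nn h) fun a b => (u1 _ nn_c a b).1) (hN.cut (sa nn h') fun a b => (u2 _ nn_c a b).2)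
    (fun a b c d => (w1 _ (u1 _ nn_c) c d).2.mul_left
      ((u2 _ nn_c a b).1.symm.mul_right (hc a b c d)))
    (sa _ _) (((sa _ _).commute_iff (sa _ _)).1 (v _ _ gg_c ff_c))
    ((w _ (u1 _ ff_c) _ gg_c).1.mul_right (v _ _ ff_c ff_c)) (w1 _ (u1 _ ff_c)) (w1 _ hS) (k1 s1)
    (by rw [mul_assoc, k1 s2])
  have e : 1 - (cfc ff h * cfc ff h + cfc gg h * cfc ff h' * (cfc gg h * cfc ff h')) =
      cfc gg h * cfc gg h * (cfc gg h' * cfc gg h') := by
    rw [(v _ _ gg_c ff_c).symm.mul_mul_mul_comm, k2 s2, mul_sub, mul_one, k2 s1]; abel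
  have sρ : star (cfc rr h * cfc rr h') = cfc rr h * cfc rr h' :=
    ((sa _ _).commute_iff (sa _ _)).1 (v _ _ rr_c rr_c)
  refine ⟨_, _, cfc rr h * cfc rr h', H, ?_, ?_, fun x hx => ⟨fun a b => ?_, ?_⟩, fun u hu a b => ?_⟩
  · rw [← sub_sub_cancel 1 (_ + _), e, ← (v _ _ gg_c gg_c).symm.mul_mul_mul_comm]
    refine ctr (((sa _ _).commute_iff (sa _ _)).1 (v _ _ gg_c gg_c)) ?_
    have n1 : ∀ a : B, ‖cfc gg a‖ ≤ 1 := fun a => norm_cfc_le zero_le_one fun t _ => gg_le t
    exact (norm_mul_le_of_le (n1 _) (n1 _)).trans (by norm_num)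
  · have q1 : Commute (cfc rr h') (1 - h) :=
      (Commute.one_right _).sub_right (cc s2 hh rr rr_c).symm
    have q2 : Commute (cfc rr h' * (1 - h')) (cfc rr h) :=
      (v _ _ rr_c rr_c).symm.mul_left ((Commute.one_left _).sub_left (cc s1 hh.symm rr rr_c))
    rw [e, sρ, q1.mul_mul_mul_comm, q2.mul_mul_mul_comm, k3 s1, k3 s2]
  · have x1 := (w x hx ff ff_c).1
    have x2 := (w x hx gg gg_c).1.mul_right (w x hx ff ff_c).2
    have x3 := fl_comm (w1 x hx)
    exact (((x1.mul_right x1).mul_right (w1 x hx a b).1).add_right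
      ((x2.mul_right x2).mul_right (w1 x hx a b).2)).add_right
      (((x1.mul_right x2).mul_right (((w1 x hx a b).1.mul_right x3).sub_right
        (x3.mul_right (w1 x hx a b).1))).smul_right _)
  · rw [sρ]
    exact ⟨(w x hx rr rr_c).1.mul_right (w x hx rr rr_c).2,
      (w x hx rr rr_c).1.mul_right (w x hx rr rr_c).2⟩
  · have hu' : h * u = (1 : ℝ) • u := by rw [one_smul, hu]
    have z : ∀ y, Commute (cfc gg h) y → cfc gg h * y * u = 0 := fun y hy => by
      rw [hy.eq, mul_assoc, itw_smul s1 hu' gg_c, gg0 (by norm_num), zero_smul, mul_zero]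
    have g0 := u1 _ gg_c
    have g1 := w1 _ g0
    have g2 := fl_comm g1
    have g3 := v _ _ gg_c ff_c
    have t1 : cfc ff h * cfc ff h * (cfc nn h * M a b) * u = M a b * u := by
      rw [← mul_assoc _ (cfc nn h), ← cfc_mul _ _ h, ← cfc_mul _ _ h,
        (u1 _ (by fun_prop) a b).1.eq, mul_assoc, itw_smul s1 hu' (by fun_prop), ff1 (by norm_num),
        nn, max_eq_left (by norm_num)]
      simp
    have t2 := z (cfc ff h' * (cfc gg h * cfc ff h') * (cfc nn h' * N a b))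
      ((g3.mul_right ((Commute.refl _).mul_right g3)).mul_right (g1 a b).2)
    have t3 := z (cfc ff h' * (cfc nn h * M a b * fl (fun i j => cfc nn h * M i j)
      (fun i j => cfc nn h' * N i j) - fl (fun i j => cfc nn h * M i j)
      (fun i j => cfc nn h' * N i j) * (cfc nn h * M a b)))
      (g3.mul_right (((g1 a b).1.mul_right g2).sub_right (g2.mul_right (g1 a b).1)))
    rw [intp, add_mul, add_mul, t1, smul_mul_assoc]
    simp only [mul_assoc] at t2 t3 ⊢
    rw [t2, t3]; simp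

end Vale.Agent.P101
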