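import Vale.Agent.P101.PartT

/-! Part SM of P101: many orthogonal copies of a tensor power. -/

namespace Vale.Agent.P101

open Filter Topology Finset

theorem small (K N : ℕ) : ∃ (ι : Type) (_ : Fintype ι), ∀ {D B : Type} [CStarAlgebra D]
    [CStarAlgebra B] {θ : ι → D →⋆ₐ[ℂ] B} (h : Cm θ) {g : D} {t : Fin K → D},
    ∑ r, star (t r) * t r = g → (∀ r, g * t r = 0) →
    ∃ s : Fin N → B, ∀ a b, star (s a) * s b = if a = b then Ten h (fun _ => g) else 0 := by
  refine ⟨(Fin N × (Fin K → Fin K)) ⊕ Fin K, inferInstance, ?_⟩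
  intro D B _ _ θ h g t h1 h2
  letI := CStarAlgebra.spectralOrder D
  have := CStarAlgebra.spectralOrderedRing D
  have g0 : 0 ≤ g := h1 ▸ sum_nonneg fun r _ => star_mul_self_nonneg _
  obtain ⟨G, G1, G2⟩ : ∃ G : D, star G = G ∧ G * G = g :=
    ⟨CFC.sqrt g, (CFC.sqrt_nonneg g).isSelfAdjoint.star_eq, CFC.sqrt_mul_sqrt_self g g0⟩
  have hR : ∀ r, ∃ R : D, star R = R ∧ R * R = star (t r) * t r := fun r =>
    ⟨CFC.sqrt _, (CFC.sqrt_nonneg _).isSelfAdjoint.star_eq,
      CFC.sqrt_mul_sqrt_self _ (star_mul_self_nonneg _)⟩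
  choose R R1 R2 using hR
  have tt : ∀ r, t r * t r = 0 := by
    intro r
    have e : ∑ s, star (t s * t r) * (t s * t r) = 0 := by
      have : star (t r) * (g * t r) = 0 := by rw [h2, mul_zero]
      rw [← h1, sum_mul, mul_sum] at this
      simpa only [star_mul, mul_assoc] using this
    exact (CStarRing.star_mul_self_eq_zero_iff _).1
      ((sum_eq_zero_iff_of_nonneg fun s _ => star_mul_self_nonneg _).1 e r (mem_univ _))
  have tG : ∀ r, star (t r) * G = 0 := by
    intro r
    have : G * t r = 0 := (CStarRing.star_mul_self_eq_zero_iff _).1 (by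
      rw [star_mul, G1, mul_assoc, ← mul_assoc G, G2, h2, mul_zero])
    rw [← G1, ← star_mul, this, star_zero]
  have tR : ∀ r, star (t r) * R r = 0 := by
    intro r
    have : R r * t r = 0 := (CStarRing.star_mul_self_eq_zero_iff _).1 (by
      rw [star_mul, R1, mul_assoc, ← mul_assoc (R r), R2, mul_assoc, tt, mul_zero, mul_zero])
    rw [← R1, ← star_mul, this, star_zero]
  let w : Fin N → (Fin K → Fin K) × Fin K → (Fin N × (Fin K → Fin K)) ⊕ Fin K → D :=
    fun a p => Sum.elim (fun q => if q = (a, p.1) then t p.2 else G)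
      fun j => if j = p.2 then t (p.1 j) else R (p.1 j)
  let u : (Fin K → Fin K) → (Fin N × (Fin K → Fin K)) ⊕ Fin K → D :=
    fun y => Sum.elim (fun _ => g) fun j => star (t (y j)) * t (y j)
  have orth : ∀ a p b p', (a, p) ≠ (b, p') → star (Ten h (w a p)) * Ten h (w b p') = 0 := by
    intro a p b p' hne
    rw [ten_star, ← ten_mul]
    by_cases e : (a, p.1) = (b, p'.1)
    · obtain ⟨rfl, e1⟩ := Prod.ext_iff.1 e
      have e2 : p.2 ≠ p'.2 := fun e2 => hne (Prod.ext rfl (Prod.ext e1 e2))
      refine ten_zero h (i := Sum.inr p.2) ?_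
      have e3 : p'.1 = p.1 := e1.symm
      simp [w, e2, e3, tR]
    · refine ten_zero h (i := Sum.inl (a, p.1)) ?_
      simp only [w, Pi.mul_apply, Pi.star_apply, Sum.elim_inl, if_true, if_neg e, tG]
  have diag : ∀ a p, star (Ten h (w a p)) * Ten h (w a p) =
      Ten h (Function.update (u p.1) (Sum.inl (a, p.1)) (star (t p.2) * t p.2)) := by
    intro a p
    rw [ten_star, ← ten_mul]
    congr 1
    funext i
    rcases i with q | j
    · by_cases e : q = (a, p.1)
      · simp [w, e]
      · simp [w, u, e, G1, G2]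
    · by_cases e : j = p.2
      · simp [w, u, e]
      · simp [w, u, e, R1, R2]
  refine ⟨fun a => ∑ p, Ten h (w a p), fun a b => ?_⟩
  rw [star_sum, sum_mul_sum]
  split_ifs with hab
  · subst hab
    have e1 : ∀ p, ∑ p', star (Ten h (w a p)) * Ten h (w a p') =
        star (Ten h (w a p)) * Ten h (w a p) := fun p =>
      sum_eq_single p (fun p' _ hne => orth _ _ _ _ fun e => hne (Prod.ext_iff.1 e).2.symm)
        fun hh => absurd (mem_univ _) hh
    simp only [e1, diag]
    rw [Fintype.sum_prod_type]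
    have e2 : ∀ y, ∑ j, Ten h (Function.update (u y) (Sum.inl (a, y)) (star (t j) * t j)) =
        Ten h (u y) := by
      intro y
      rw [← ten_sum1, h1]
      exact congrArg _ (Function.update_eq_self (Sum.inl (a, y)) (u y))
    simp only [e2]
    have e3 := ((tenML h).currySum fun _ => g).map_sum fun (_ : Fin K) r => star (t r) * t r
    simp only [h1, MultilinearMap.currySum_apply] at e3
    refine Eq.trans (sum_congr rfl fun y _ => ?_) (e3.symm.trans ?_)
    · refine congrArg (Ten h) (funext ?_)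
      rintro (i | i) <;> rfl
    · refine congrArg (Ten h) (funext ?_)
      rintro (i | i) <;> rfl
  · exact sum_eq_zero fun p _ => sum_eq_zero fun p' _ =>
      orth _ _ _ _ fun e => hab (Prod.ext_iff.1 e).1

end Vale.Agent.P101
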