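import Vale.Agent.P101.PartT
import Vale.Agent.P101.PartMG
import Vale.Agent.P101.PartSM
import Vale.Agent.P101.Pull

/-! Part V of P101: an order zero map whose remainder sits below one corner. -/

namespace Vale.Agent.P101

open Filter Topology Finset

variable {A B D E F Q T Z : Type} [CStarAlgebra A] [CStarAlgebra B] [CStarAlgebra D]
  [CStarAlgebra E] [CStarAlgebra F] [CStarAlgebra Q] [CStarAlgebra T] [CStarAlgebra Z]
  {ι κ : Type} [Fintype ι] [Fintype κ] [DecidableEq κ]

namespace V

lemma fix {M : κ → κ → B} {h u : B} {o : κ} (H : OZ M h) (hu : M o o * u = u) : h * u = u := by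
  have e := H.mul o o o o
  rw [if_pos rfl] at e
  calc h * u = h * M o o * u := by rw [mul_assoc, hu]
    _ = u := by rw [← e, mul_assoc, hu, hu]

lemma many {θ : ι → D →⋆ₐ[ℂ] B} (hθ : Cm θ) {M : κ → κ → D} {h : D} (H : OZ M h) (hc : Ctr h) :
    ∃ (P : κ → κ → B) (k ρ : B), OZ P k ∧ Ctr k ∧
      1 - k = star ρ * Ten hθ (fun _ => 1 - h) * ρ := by
  classical
  have main : ∀ s : Finset ι, ∃ (P : κ → κ → B) (k ρ : B), OZ P k ∧ Ctr k ∧
      1 - k = star ρ * Ten hθ (fun i => if i ∈ s then 1 - h else 1) * ρ ∧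
      ∀ i ∉ s, ∀ d, (∀ a b, Commute (θ i d) (P a b)) ∧ Commute (θ i d) ρ := by
    intro s
    induction s using Finset.induction_on with
    | empty =>
      refine ⟨0, 0, 1, ⟨by simp, by simp, by simp⟩, ?_, ?_, fun i _ d => by simp⟩
      · have := Ctr.cfc (a := (0 : B)) (f := fun _ => 0) (by simp)
        rwa [cfc_const_zero] at this
      · have := ten_one hθ
        simpa [Pi.one_def] using this.symm
    | insert i s hi ih =>
      obtain ⟨P, k, ρ, a1, a2, a3, a4⟩ := ih
      obtain ⟨P', k', ρ', b1, b2, b3, b4, -⟩ := merge a1 (H.map (θ i)) a2 (hc.map (θ i))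
        fun a b c d => ((a4 i hi _).1 a b).symm
      refine ⟨P', k', ρ * ρ', b1, b2, ?_, fun j hj d => ?_⟩
      · have e : (fun j => if j ∈ insert i s then 1 - h else (1 : D)) =
            (fun j => if j ∈ s then 1 - h else 1) * Pi.mulSingle i (1 - h) := by
          funext j
          by_cases hj : j = i
          · subst hj; simp [hi]
          · simp [hj]
        rw [b3, a3, e, ten_mul, ten_single, ← map_one (θ i), ← map_sub, star_mul]
        simp only [mul_assoc]
        rw [(a4 i hi _).2.left_comm]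
      · rw [mem_insert, not_or] at hj
        have := b4 (θ j d) fun a b => ⟨(a4 j hj.2 d).1 a b, hθ j i hj.1 _ _⟩
        exact ⟨this.1, (a4 j hj.2 d).2.mul_right this.2.1⟩
  obtain ⟨P, k, ρ, a1, a2, a3, -⟩ := main univ
  exact ⟨P, k, ρ, a1, a2, by simpa using a3⟩

lemma comap {e : D →⋆ₐ[ℂ] F} (he : Function.Injective e) {M : κ → κ → D} {h : D} {o : κ} {K : ℕ}
    {t : Fin K → D} (H : Good (fun a b => e (M a b)) (e h) o fun r => e (t r)) : Good M h o t :=
  ⟨H.oz.comap he, H.ctr.comap he, he (by simpa [map_star] using H.sum), fun r => he (by simpa using H.fix r)⟩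

lemma copies (hF : Cp F) {M : κ → κ → F} {h : F} {o : κ} {K : ℕ} {t : Fin K → F}
    (H : Good M h o t) : ∃ (P : κ → κ → F) (k : F) (s : Fin K → F), OZ P k ∧ Ctr k ∧
      ∀ a b, star (s a) * s b = if a = b then 1 - k else 0 := by
  obtain ⟨D, _, e, z, he, hz, -, hθ⟩ :=
    hF.pull (Sum.elim (fun p : κ × κ => M p.1 p.2) fun r : Option (Fin K) => r.elim h t)
  have H0 : Good (fun a b => z (.inl (a, b))) (z (.inr none)) o fun r => z (.inr (some r)) :=
    comap he (by simp only [hz]; exact H)
  obtain ⟨ι, _, hs⟩ := small K K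
  obtain ⟨θ, hθ⟩ := hθ ι
  obtain ⟨s, hs⟩ := hs hθ H0.sum fun r => by rw [sub_mul, one_mul, fix H0.oz (H0.fix r), sub_self]
  obtain ⟨P, k, ρ, a1, a2, a3⟩ := many hθ H0.oz H0.ctr
  refine ⟨P, k, fun a => s a * ρ, a1, a2, fun a b => ?_⟩
  rw [star_mul, mul_assoc, ← mul_assoc (star (s a)), hs, a3]
  split_ifs <;> simp [mul_assoc]

end V

theorem exists_rw (hF : Cp F) {M : κ → κ → F} {h : F} {o : κ} {K : ℕ} {t : Fin K → F}
    (H : Good M h o t) : ∃ (M : κ → κ → F) (h v : F), OZ M h ∧ Ctr h ∧ star v * v = 1 - h ∧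
      M o o * v = v := by
  obtain ⟨P, k, s, a1, a2, a3⟩ := V.copies hF H
  obtain ⟨D, _, e, z, he, hz, -, hθ⟩ := hF.pull fun j : Bool × ((κ × κ) ⊕ Option (Fin K)) =>
    Sum.elim (fun p : κ × κ => cond j.1 P M p.1 p.2)
      (fun r : Option (Fin K) => r.elim (cond j.1 k h) (cond j.1 s t)) j.2
  have H0 : Good (fun a b => z (false, .inl (a, b))) (z (false, .inr none)) o
      fun r => z (false, .inr (some r)) := V.comap he (by simp only [hz]; exact H)
  have b1 : OZ (fun a b => z (true, .inl (a, b))) (z (true, .inr none)) :=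
    OZ.comap he (by simp only [hz]; exact a1)
  have b2 : Ctr (z (true, .inr none)) := Ctr.comap he (by simp only [hz]; exact a2)
  have b3 : ∀ a b, star (z (true, .inr (some a))) * z (true, .inr (some b)) =
      if a = b then 1 - z (true, .inr none) else 0 := fun a b => he (by
    rw [map_mul, map_star, hz, hz, apply_ite e, map_sub, hz, map_one, map_zero]
    exact a3 a b)
  obtain ⟨θ, hθ⟩ := hθ Bool
  have cm := hθ false true (by decide)
  obtain ⟨P', k', ρ, c1, c2, c3, -, c4⟩ := merge (H0.oz.map (θ false)) (b1.map (θ true))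
    (H0.ctr.map (θ false)) (b2.map (θ true)) fun _ _ _ _ => cm _ _
  set u := ∑ r, θ false (z (false, .inr (some r))) * θ true (z (true, .inr (some r))) with hu
  have d1 : θ false (z (false, .inl (o, o))) * (u * ρ) = u * ρ := by
    rw [← mul_assoc, hu, mul_sum]
    congr 1
    exact sum_congr rfl fun r _ => by rw [← mul_assoc, ← map_mul, H0.fix]
  have d2 : star u * u =
      (1 - θ false (z (false, .inr none))) * (1 - θ true (z (true, .inr none))) := by
    rw [← map_one (θ false), ← map_sub, ← H0.sum, map_sum, hu, star_sum, sum_mul_sum, sum_mul]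
    refine sum_congr rfl fun r _ => ?_
    have e1 : ∀ r', star (θ false (z (false, .inr (some r))) * θ true (z (true, .inr (some r)))) *
        (θ false (z (false, .inr (some r'))) * θ true (z (true, .inr (some r')))) =
        θ false (star (z (false, .inr (some r))) * z (false, .inr (some r'))) *
          θ true (if r = r' then 1 - z (true, .inr none) else 0) := fun r' => by
      rw [← b3, star_mul, ← map_star, ← map_star, mul_assoc, ← mul_assoc (θ false _), ← map_mul,
        (cm _ _).symm.left_comm, ← map_mul]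
    simp only [e1]
    rw [sum_eq_single r (fun r' _ hr => by rw [if_neg hr.symm, map_zero, mul_zero])
      (fun h => (h (mem_univ _)).elim), if_pos rfl, map_sub, map_one, map_one]
  refine ⟨P', k', u * ρ, c1, c2, ?_, ?_⟩
  · rw [c3, ← d2, star_mul]
    simp only [mul_assoc]
  · rw [c4 _ (V.fix (H0.oz.map (θ false)) d1), d1]

end Vale.Agent.P101
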