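import Vale.Agent.P101.PartU1

/-! The limit algebra maps to the ultrapower. -/

namespace Vale.Agent.P101

open Filter Topology Finset

variable {E F Z : Type} [CStarAlgebra E] [CStarAlgebra F] [CStarAlgebra Z]

namespace Z1

theorem ex {B : ℕ → StarSubalgebra ℂ Z} (hm : Monotone B) (hd : Dense (⋃ n, (B n : Set Z)))
    (d : Z) : ∃ y : ∀ n, B n, Tendsto (fun n => (y n : Z)) atTop (𝓝 d) := by
  have h1 : ∀ n : ℕ, ∃ y : B n, dist d y < Metric.infDist d (B n : Set Z) + 1 / ((n : ℝ) + 1) :=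
    fun n => by
      obtain ⟨y, hy, h⟩ := (Metric.infDist_lt_iff (x := d) (s := (B n : Set Z))
        (r := Metric.infDist d (B n : Set Z) + 1 / ((n : ℝ) + 1)) ⟨0, (B n).zero_mem⟩).1
        (lt_add_of_pos_right _ Nat.one_div_pos_of_nat)
      exact ⟨⟨y, hy⟩, h⟩
  choose y hy using h1
  refine ⟨y, Metric.tendsto_atTop.2 fun ε hε => ?_⟩
  obtain ⟨z, hz, hdz⟩ := Metric.mem_closure_iff.1 (hd d) (ε / 2) (half_pos hε)
  obtain ⟨m, hz⟩ := Set.mem_iUnion.1 hz
  obtain ⟨k, hk⟩ := exists_nat_one_div_lt (half_pos hε)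
  refine ⟨max m k, fun n hn => ?_⟩
  have h2 : Metric.infDist d (B n : Set Z) ≤ dist d z :=
    Metric.infDist_le_dist_of_mem (hm (le_of_max_le_left hn) hz)
  have h3 : 1 / ((n : ℝ) + 1) ≤ 1 / ((k : ℝ) + 1) := Nat.one_div_le_one_div (le_of_max_le_right hn)
  rw [dist_comm]
  linarith [hy n]

end Z1

theorem limit_hom {ω : Ultrafilter ℕ} (hω : (ω : Filter ℕ) ≤ cofinite) [Nontrivial F]
    {q : Linf F →⋆ₐ[ℂ] E} (hq : IsUlt ω q) (hZ : DropLimit Z)
    (h : ∀ p q : ℕ, 0 < p → 0 < q → p.Coprime q → Nonempty (DimDrop p q →⋆ₐ[ℂ] F)) :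
    Nonempty (Z →⋆ₐ[ℂ] E) := by
  obtain ⟨B, p, r, hm, hd, hB⟩ := hZ
  have h1 : ∀ n, ∃ γ : B n →⋆ₐ[ℂ] F, ∀ x, ‖γ x‖ ≤ ‖(x : Z)‖ := fun n => by
    obtain ⟨hc, hp, hr, hpr, ⟨e⟩⟩ := hB n
    obtain ⟨g⟩ := h _ _ hp hr hpr
    refine ⟨g.comp (e : B n →⋆ₐ[ℂ] DimDrop (p n) (r n)), fun x => ?_⟩
    exact NonUnitalStarAlgHom.norm_apply_le _ x
  choose γ hγ using h1
  choose y hy using Z1.ex hm hd
  have h2 : ∀ d, ∃ X : Linf F, ∀ n, X n = γ n (y d n) := fun d => by
    obtain ⟨c, hc⟩ := (hy d).norm.bddAbove_range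
    exact ⟨U1.bd (fun n => γ n (y d n)) c fun n => (hγ n _).trans (hc ⟨n, rfl⟩), fun _ => rfl⟩
  choose X hX using h2
  have key : ∀ (d : Z) (w : Linf F) (u : ∀ n, B n), (∀ n, w n = γ n (u n)) →
      Tendsto (fun n => (u n : Z)) atTop (𝓝 d) → q (X d) = q w := fun d w u hw hu => by
    rw [U1.eq_iff hq]
    have h3 := ((hy d).sub hu).norm
    rw [sub_self, norm_zero, ← Nat.cofinite_eq_atTop] at h3
    refine squeeze_zero (fun _ => norm_nonneg _) (fun n => ?_) (h3.mono_left hω)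
    rw [hX, hw, ← map_sub]
    exact hγ n _
  refine ⟨{ toFun := fun d => q (X d)
            map_one' := ?_
            map_mul' := fun a b => ?_
            map_zero' := ?_
            map_add' := fun a b => ?_
            commutes' := fun c => ?_
            map_star' := fun a => ?_ }⟩
  · rw [key 1 1 (fun _ => 1) (fun n => (map_one (γ n)).symm) tendsto_const_nhds, map_one]
  · rw [key (a * b) (X a * X b) (fun n => y a n * y b n) (fun n => by
      rw [map_mul, ← hX, ← hX]; rfl) ((hy a).mul (hy b)), map_mul]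
  · rw [key 0 0 (fun _ => 0) (fun n => (map_zero (γ n)).symm) tendsto_const_nhds, map_zero]
  · rw [key (a + b) (X a + X b) (fun n => y a n + y b n) (fun n => by
      rw [map_add, ← hX, ← hX]; rfl) ((hy a).add (hy b)), map_add]
  · rw [key (algebraMap ℂ Z c) (algebraMap ℂ _ c) (fun _ => algebraMap ℂ _ c)
      (fun n => by rw [AlgHomClass.commutes]; rfl) tendsto_const_nhds, AlgHomClass.commutes]
  · rw [key (star a) (star (X a)) (fun n => star (y a n)) (fun n => by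
      rw [map_star, ← hX]; rfl) (hy a).star, map_star]

end Vale.Agent.P101
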