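import Vale.Agent.P101.PartU1
import Vale.Agent.P101.PartZ1

/-! Approximately central unitaries that move one tensor factor into the other. -/

namespace Vale.Agent.P101

open Filter Topology Finset

variable {A B E E' T Z : Type} [CStarAlgebra A] [CStarAlgebra B] [CStarAlgebra E]
  [CStarAlgebra E'] [CStarAlgebra T] [CStarAlgebra Z]

namespace Z2

open U1

theorem lift_surj (q : A →⋆ₐ[ℂ] E) (hs : Function.Surjective q) (ψ : A →⋆ₐ[ℂ] E')
    (h : ∀ x, q x = 0 → ψ x = 0) : ∃ Φ : E →⋆ₐ[ℂ] E', ∀ x, Φ (q x) = ψ x := by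
  have key : ∀ x, ψ (Function.surjInv hs (q x)) = ψ x := fun x => by
    rw [← sub_eq_zero, ← map_sub]
    exact h _ (by rw [map_sub, Function.surjInv_eq hs, sub_self])
  refine ⟨{ toFun := fun e => ψ (Function.surjInv hs e)
            map_one' := by rw [← map_one q, key, map_one]
            map_mul' := fun a b => ?_
            map_zero' := by rw [← map_zero q, key, map_zero]
            map_add' := fun a b => ?_
            commutes' := fun c => by rw [← AlgHomClass.commutes q, key, AlgHomClass.commutes]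
            map_star' := fun a => ?_ }, key⟩
  · obtain ⟨a, rfl⟩ := hs a
    obtain ⟨b, rfl⟩ := hs b
    rw [← map_mul, key, key, key, map_mul]
  · obtain ⟨a, rfl⟩ := hs a
    obtain ⟨b, rfl⟩ := hs b
    rw [← map_add, key, key, key, map_add]
  · obtain ⟨a, rfl⟩ := hs a
    rw [← map_star, key, key, map_star]

/-- Coordinatewise application of a homomorphism. -/
noncomputable def mapL [Nontrivial A] [Nontrivial B] (φ : A →⋆ₐ[ℂ] B) : Linf A →⋆ₐ[ℂ] Linf B where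
  toFun x := bd (fun n => φ (x n)) ‖x‖ fun n =>
    (NonUnitalStarAlgHom.norm_apply_le φ (x n)).trans (le x n)
  map_one' := lp.ext (funext fun _ => map_one φ)
  map_mul' x y := lp.ext (funext fun n => map_mul φ (x n) (y n))
  map_zero' := lp.ext (funext fun _ => map_zero φ)
  map_add' x y := lp.ext (funext fun n => map_add φ (x n) (y n))
  commutes' c := lp.ext (funext fun _ => AlgHomClass.commutes φ c)
  map_star' x := lp.ext (funext fun n => map_star φ (x n))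

/-- Constant sequences as a homomorphism. -/
noncomputable def cstH (A : Type) [CStarAlgebra A] [Nontrivial A] : A →⋆ₐ[ℂ] Linf A where
  toFun := cst A
  map_one' := rfl
  map_mul' _ _ := rfl
  map_zero' := rfl
  map_add' _ _ := rfl
  commutes' _ := rfl
  map_star' _ := rfl

theorem induced {ω : Ultrafilter ℕ} [Nontrivial A] [Nontrivial B] {q : Linf A →⋆ₐ[ℂ] E}
    {q' : Linf B →⋆ₐ[ℂ] E'} (hq : IsUlt ω q) (hq' : IsUlt ω q') (φ : A →⋆ₐ[ℂ] B) :
    ∃ Φ : E →⋆ₐ[ℂ] E', ∀ x, Φ (q x) = q' (mapL φ x) :=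
  lift_surj q hq.surj (q'.comp (mapL φ)) fun x hx => (zero_iff hq' _).2
    (squeeze_zero (fun _ => norm_nonneg _) (fun n => NonUnitalStarAlgHom.norm_apply_le φ (x n))
      ((zero_iff hq x).1 hx))

theorem nontriv {ω : Ultrafilter ℕ} [Nontrivial A] {q : Linf A →⋆ₐ[ℂ] E} (hq : IsUlt ω q) :
    Nontrivial E := by
  refine ⟨⟨q 1, 0, fun h => ?_⟩⟩
  have h1 : Tendsto (fun _ : ℕ => (1 : ℝ)) ω (𝓝 0) :=
    ((zero_iff hq 1).1 h).congr fun n => (norm_one : ‖(1 : A)‖ = 1)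
  exact one_ne_zero (tendsto_nhds_unique tendsto_const_nhds h1)

theorem pick {ω : Ultrafilter ℕ} [Nontrivial A] {q : Linf A →⋆ₐ[ℂ] E} (hq : IsUlt ω q)
    {ε : ℝ} (z x y : Linf A) (h : ‖q z * q x * star (q z) - q y‖ < ε) :
    ∀ᶠ n in (ω : Filter ℕ), ‖z n * x n * star (z n) - y n‖ < ε := by
  rw [← map_star, ← map_mul, ← map_mul, ← map_sub] at h
  exact (hq.norm _).eventually (gt_mem_nhds h)

theorem flip {ω : Ultrafilter ℕ} {G F : Type} [CStarAlgebra G] [CStarAlgebra F] [Nontrivial G]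
    [Nontrivial F] (hω : (ω : Filter ℕ) ≤ cofinite) (hZ : DropLimit Z) (hf : HalfFlip Z)
    (h : ∀ p r : ℕ, 0 < p → 0 < r → p.Coprime r → Nonempty (DimDrop p r →⋆ₐ[ℂ] G))
    (φ : G →⋆ₐ[ℂ] F) (J : Z →⋆ₐ[ℂ] F) (hc : ∀ d g, Commute (J d) (φ g)) (Y : Finset Z) {ε : ℝ}
    (hε : 0 < ε) : ∃ w ∈ unitary F, ∀ d ∈ Y, ∃ g, ‖w * J d * star w - φ g‖ < ε := by
  obtain ⟨E2, _, _, q2, h2⟩ := exists_ult (A := G) ω
  obtain ⟨E3, _, _, q3, h3⟩ := exists_ult (A := F) ω
  obtain ⟨Γ⟩ := limit_hom hω h2 hZ h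
  obtain ⟨Φ, hΦ⟩ := induced h2 h3 φ
  choose y hy using fun d => h2.surj (Γ d)
  have e : ∀ d, (Φ.comp Γ) d = q3 (mapL φ (y d)) := fun d => by
    rw [← hΦ, hy]; rfl
  obtain ⟨u, hu, hu'⟩ := hf E3 (q3.comp ((cstH F).comp J)) (Φ.comp Γ) (fun a b => by
    rw [e]
    refine Commute.map (?_ : Commute (cstH F (J a)) (mapL φ (y b))) q3
    exact lp.ext (funext fun n => (hc a (y b n)).eq)) Y ε hε
  obtain ⟨v, rfl, hv⟩ := lift_unitary h3 hu
  have : ∀ᶠ n in (ω : Filter ℕ), ∀ d ∈ Y, ‖v n * J d * star (v n) - φ (y d n)‖ < ε :=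
    (Filter.eventually_all_finset Y).2 fun d hd =>
      pick h3 v (cstH F (J d)) (mapL φ (y d)) (by rw [← e]; exact hu' d hd)
  obtain ⟨n, hn⟩ := this.exists
  exact ⟨v n, hv n, fun d hd => ⟨_, hn d hd⟩⟩

end Z2

open U1 Z2

theorem approx {ω : Ultrafilter ℕ} (hω : (ω : Filter ℕ) ≤ cofinite) [Nontrivial A]
    {q : Linf A →⋆ₐ[ℂ] E} (hq : IsUlt ω q) (hZ : DropLimit Z) (hf : HalfFlip Z)
    (h : ∀ p r : ℕ, 0 < p → 0 < r → p.Coprime r →
      Nonempty (DimDrop p r →⋆ₐ[ℂ] Cen q (id : A → A)))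
    (ι : A →⋆ₐ[ℂ] T) (j : Z →⋆ₐ[ℂ] T) (hι : Function.Injective ι) (hc : ∀ a d, Commute (ι a) (j d))
    (X : Finset A) (Y : Finset Z) (ε : ℝ) (hε : 0 < ε) : ∃ z ∈ unitary T,
      (∀ a ∈ X, ‖z * ι a - ι a * z‖ < ε) ∧ ∀ d ∈ Y, ∃ a, ‖z * j d * star z - ι a‖ < ε := by
  haveI : Nontrivial T := hι.nontrivial
  haveI : Nontrivial E := nontriv hq
  obtain ⟨ET, _, _, qT, hT⟩ := exists_ult (A := T) ω
  obtain ⟨Φ, hΦ⟩ := induced hq hT ι
  have m1 : ∀ g : Cen q (id : A → A), (Φ.comp (Cen q (id : A → A)).subtype) g ∈ Cen qT ι := by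
    intro g
    rw [StarSubalgebra.mem_centralizer_iff]
    rintro _ ⟨a, rfl⟩
    have := (StarSubalgebra.mem_centralizer_iff ℂ).1 g.2 _ ⟨a, rfl⟩
    have e : Φ (q (cst A (id a))) = qT (cst T (ι a)) := hΦ _
    refine ⟨?_, ?_⟩
    · have e' := congrArg Φ this.1
      rwa [map_mul, map_mul, e] at e'
    · have e' := congrArg Φ this.2
      rwa [map_mul, map_mul, map_star, e] at e'
  have m2 : ∀ d : Z, (qT.comp ((cstH T).comp j)) d ∈ Cen qT ι := by
    intro d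
    rw [StarSubalgebra.mem_centralizer_iff]
    rintro _ ⟨a, rfl⟩
    refine ⟨((hc a d).map (qT.comp (cstH T))).eq, ?_⟩
    have := ((hc (star a) d).map (qT.comp (cstH T))).eq
    rwa [map_star, map_star] at this
  obtain ⟨w, hw, hw'⟩ := Z2.flip hω hZ hf h
    ((Φ.comp (Cen q (id : A → A)).subtype).codRestrict _ m1)
    ((qT.comp ((cstH T).comp j)).codRestrict _ m2) (fun d g => by
      obtain ⟨x, hx⟩ := hq.surj g
      refine Subtype.ext ?_
      show qT (cstH T (j d)) * Φ g = Φ g * qT (cstH T (j d))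
      rw [← hx, hΦ]
      refine (Commute.map (?_ : Commute (cstH T (j d)) (mapL ι x)) qT).eq
      exact lp.ext (funext fun n => (hc (x n) d).symm.eq)) Y hε
  have hw1 : (w : ET) ∈ unitary ET :=
    ⟨congrArg Subtype.val hw.1, congrArg Subtype.val hw.2⟩
  obtain ⟨z, hz, hz'⟩ := lift_unitary hT hw1
  have a1 : ∀ᶠ n in (ω : Filter ℕ), ∀ a ∈ X, ‖z n * ι a - ι a * z n‖ < ε :=
    (Filter.eventually_all_finset X).2 fun a _ => by
      have := ((StarSubalgebra.mem_centralizer_iff ℂ).1 w.2 _ ⟨a, rfl⟩).1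
      rw [← hz, ← map_mul, ← map_mul] at this
      exact ((eq_iff hT _ _).1 this.symm).eventually (gt_mem_nhds hε)
  have a2 : ∀ᶠ n in (ω : Filter ℕ), ∀ d ∈ Y, ∃ a, ‖z n * j d * star (z n) - ι a‖ < ε :=
    (Filter.eventually_all_finset Y).2 fun d hd => by
      obtain ⟨g, hg⟩ := hw' d hd
      obtain ⟨x, hx⟩ := hq.surj g
      have hg' : ‖(w : ET) * qT (cstH T (j d)) * star (w : ET) - Φ g‖ < ε := hg
      rw [← hz, ← hx, hΦ] at hg'
      exact (pick hT z (cstH T (j d)) (mapL ι x) hg').mono fun n hn => ⟨x n, hn⟩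
  obtain ⟨n, h1, h2⟩ := (a1.and a2).exists
  exact ⟨z n, hz' n, h1, h2⟩

end Vale.Agent.P101
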