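import Vale.Agent.P101.PartU1
import Vale.Agent.P101.PartU2
import Vale.Agent.P101.PartS1b
import Vale.Agent.P101.PartS2
import Vale.Agent.P101.PartS3a
import Vale.Agent.P101.PartS3b
import Vale.Agent.P101.PartV
import Vale.Agent.P101.PartRW
import Vale.Agent.P101.PartH
import Vale.Agent.P101.PartZ2
import Vale.Agent.P101.PartZ3
import Vale.Agent.P101.PartZ4

/-! Assembly for P101. -/

namespace Vale.Agent.P101

open Filter Topology Finset

variable {A F T Z : Type} [CStarAlgebra A] [CStarAlgebra F] [CStarAlgebra T] [CStarAlgebra Z]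

theorem drop (hF : Cp F) (h : IsEmpty (F →⋆ₐ[ℂ] ℂ)) (p q : ℕ) (hp : 0 < p) (hq : 0 < q)
    (hpq : p.Coprime q) : Nonempty (DimDrop p q →⋆ₐ[ℂ] F) := by
  obtain ⟨y, n, b, d, c, hy, h1⟩ := nonscalar hF h
  obtain ⟨r, s, hr, e⟩ : ∃ r s : ℕ, 0 < r ∧ p * r + 1 = q * s := by
    obtain ⟨m, -, hm⟩ := Nat.exists_mul_mod_eq_of_coprime (q - 1) hpq hq.ne'
    refine ⟨m + q, (p * (m + q) + 1) / q, by omega, (Nat.mul_div_cancel' ?_).symm⟩
    have : p * (m + q) + 1 ≡ q - 1 + 1 [MOD q] := by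
      refine Nat.ModEq.add_right 1 ?_
      rw [mul_add]
      exact (Nat.ModEq.add hm ((Nat.modEq_zero_iff_dvd).2 (dvd_mul_left q p))).trans
        (by simp [Nat.ModEq])
    rw [Nat.sub_add_cancel hq] at this
    exact (Nat.modEq_zero_iff_dvd).1 (this.trans ((Nat.modEq_zero_iff_dvd).2 dvd_rfl))
  obtain ⟨v, b, hb, hv⟩ := exists_v (κ := Fin p × Fin r) hF (split hF hy h1)
  obtain ⟨M, h, K, t, H⟩ := good (⟨0, hp⟩, ⟨0, hr⟩) hb hv
  obtain ⟨M, h, v, a1, a2, a3, a4⟩ := exists_rw hF H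
  obtain ⟨α, β, z, b1, b2, b3, b4⟩ := rw_step a1 a2 a3 a4
  have e2 : Fin q × Fin s ≃ Option (Fin p × Fin r) := Fintype.equivOfCardEq (by simp [e])
  exact hom hp hq (OZ.div b1 (Equiv.refl _)) (OZ.div b2 e2) b3 fun a b c d =>
    Commute.sum_left _ _ _ fun _ _ => Commute.sum_right _ _ _ fun _ _ => b4 _ _ _ _

theorem main [Nontrivial A] [TopologicalSpace.SeparableSpace A] (ω : Ultrafilter ℕ)
    (hω : (ω : Filter ℕ) ≤ cofinite) (h : IsEmpty (Central ω A →⋆ₐ[ℂ] ℂ))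
    [TopologicalSpace.SeparableSpace Z] (hZ : DropLimit Z) (hf : HalfFlip Z)
    (ι : A →⋆ₐ[ℂ] T) (j : Z →⋆ₐ[ℂ] T) (hι : Function.Injective ι) (hc : ∀ a d, Commute (ι a) (j d))
    (hd : Dense (StarAlgebra.adjoin ℂ (Set.range ι ∪ Set.range j) : Set T)) :
    Nonempty (A ≃⋆ₐ[ℂ] T) := by
  obtain ⟨E, _, _, q, hq⟩ := exists_ult (A := A) ω
  have := sep ι j hd
  exact intertwine ι hι (upgrade ι j hd (approx hω hq hZ hf
    (drop (cp_of_ult hω hq) (char_empty hq h)) ι j hι hc))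

end Vale.Agent.P101
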