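import Vale.Agent.P101.PartQ1

/-! The ultrapower. -/

namespace Vale.Agent.P101

open Filter Topology Finset

variable {A E : Type} [CStarAlgebra A] [CStarAlgebra E]

namespace U1

noncomputable instance linf [Nontrivial A] : CStarAlgebra (Linf A) :=
  { (lp.inftyNormedRing : NormedRing (Linf A)), (lp.inftyStarRing : StarRing (Linf A)),
    (inferInstance : CompleteSpace (Linf A)), (lp.inftyCStarRing : CStarRing (Linf A)),
    (lp.inftyNormedAlgebra : NormedAlgebra ℂ (Linf A)),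
    (inferInstance : StarModule ℂ (Linf A)) with }

theorem le (x : Linf A) (n : ℕ) : ‖x n‖ ≤ ‖x‖ := lp.norm_apply_le_norm ENNReal.top_ne_zero x n

theorem closed (ω : Ultrafilter ℕ) [Nontrivial A] : IsClosed (nullIdeal ω A : Set (Linf A)) := by
  refine isClosed_of_closure_subset fun x hx => ?_
  show Tendsto (fun n => ‖x n‖) ω (𝓝 0)
  refine Metric.tendsto_nhds.2 fun ε hε => ?_
  obtain ⟨y, hy, hxy⟩ := Metric.mem_closure_iff.1 hx (ε / 2) (half_pos hε)
  have hy' : Tendsto (fun n => ‖y n‖) ω (𝓝 0) := hy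
  filter_upwards [Metric.tendsto_nhds.1 hy' (ε / 2) (half_pos hε)] with n hn
  rw [dist_zero_right, norm_norm] at hn ⊢
  have h1 : ‖x n - y n‖ ≤ ‖x - y‖ := le (x - y) n
  rw [dist_eq_norm] at hxy
  have := norm_add_le (x n - y n) (y n)
  rw [sub_add_cancel] at this
  linarith

/-- A bounded sequence. -/
def bd (f : ℕ → A) (c : ℝ) (h : ∀ n, ‖f n‖ ≤ c) : Linf A :=
  ⟨f, memℓp_infty ⟨c, by rintro _ ⟨n, rfl⟩; exact h n⟩⟩

theorem bd_le (f : ℕ → A) (c : ℝ) (h : ∀ n, ‖f n‖ ≤ c) : ‖bd f c h‖ ≤ c :=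
  lp.norm_le_of_forall_le ((norm_nonneg _).trans (h 0)) h

theorem zero_iff {ω : Ultrafilter ℕ} [Nontrivial A] {q : Linf A →⋆ₐ[ℂ] E} (hq : IsUlt ω q)
    (x : Linf A) : q x = 0 ↔ Tendsto (fun n => ‖x n‖) ω (𝓝 0) :=
  ⟨fun h => by simpa [h] using hq.norm x, fun h =>
    norm_eq_zero.1 (tendsto_nhds_unique (hq.norm x) h)⟩

theorem eq_iff {ω : Ultrafilter ℕ} [Nontrivial A] {q : Linf A →⋆ₐ[ℂ] E} (hq : IsUlt ω q)
    (x y : Linf A) : q x = q y ↔ Tendsto (fun n => ‖x n - y n‖) ω (𝓝 0) := by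
  rw [← sub_eq_zero, ← map_sub]
  exact zero_iff hq _

theorem polar {x : A} {δ : ℝ} (hδ : δ ≤ 1 / 2) (h1 : ‖star x * x - 1‖ ≤ δ)
    (h2 : ‖x * star x - 1‖ ≤ δ) : ∃ z ∈ unitary A, ‖x - z‖ ≤ 2 * ‖x‖ * δ := by
  have ha : IsSelfAdjoint (star x * x) := IsSelfAdjoint.star_mul_self x
  have d0 : 0 ≤ δ := (norm_nonneg _).trans h1
  have hs : ∀ t ∈ spectrum ℝ (star x * x), |t - 1| ≤ δ := fun t ht => by
    have e : star x * x - 1 = cfc (fun t : ℝ => t - 1) (star x * x) := by
      rw [cfc_sub _ _ _, cfc_id' ℝ (star x * x), cfc_const_one ℝ (star x * x)]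
    have := norm_apply_le_norm_cfc (fun t : ℝ => t - 1) (star x * x) ht
    rw [← e] at this
    exact this.trans h1
  have hp : ∀ t : ℝ, 0 < √(max t (1 / 2)) := fun t =>
    Real.sqrt_pos.2 (lt_max_of_lt_right (by norm_num))
  have c1 : Continuous fun t : ℝ => 1 / √(max t (1 / 2)) :=
    continuous_const.div (by fun_prop) fun t => (hp t).ne'
  have hg : IsSelfAdjoint (cfc (fun t : ℝ => 1 / √(max t (1 / 2))) (star x * x)) :=
    cfc_predicate _ _
  obtain ⟨g, hgd⟩ : ∃ g, g = cfc (fun t : ℝ => 1 / √(max t (1 / 2))) (star x * x) := ⟨_, rfl⟩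
  have e1 : g * (star x * x) * g = 1 := by
    have : g * (star x * x) * g = cfc (fun t : ℝ => 1 / √(max t (1 / 2)) * t *
        (1 / √(max t (1 / 2)))) (star x * x) := by
      rw [cfc_mul _ _ _ (by fun_prop) c1.continuousOn, cfc_mul _ _ _ c1.continuousOn,
        cfc_id' ℝ (star x * x), ← hgd]
    rw [this, ← cfc_const_one ℝ (star x * x)]
    refine cfc_congr fun t ht => ?_
    have h3 := abs_le.1 (hs t ht)
    have h4 := hp t
    have h5 : max t (1 / 2) = t := max_eq_left (by linarith)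
    rw [h5] at h4 ⊢
    have h6 := Real.mul_self_sqrt (show 0 ≤ t by linarith)
    field_simp
    linarith
  have e2 : ‖1 - g‖ ≤ 2 * δ := by
    rw [hgd, ← cfc_const_one ℝ (star x * x), ← cfc_sub _ _ _ continuousOn_const c1.continuousOn]
    refine norm_cfc_le (by positivity) fun t ht => ?_
    have h3 := abs_le.1 (hs t ht)
    have h4 := hp t
    have h5 : max t (1 / 2) = t := max_eq_left (by linarith)
    rw [h5] at h4 ⊢
    have h6 := Real.mul_self_sqrt (show 0 ≤ t by linarith)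
    generalize √t = s at h4 h6
    have h7 : 1 / 2 ≤ s := by nlinarith
    rw [Real.norm_eq_abs, show 1 - 1 / s = (s - 1) / s by field_simp, abs_div, abs_of_pos h4,
      div_le_iff₀ h4, abs_le]
    constructor <;> nlinarith
  rw [← hgd] at hg
  have u1 : IsUnit (x * star x) := by
    have := (Units.oneSub (1 - x * star x) (by
      rw [norm_sub_rev]; linarith)).isUnit
    simpa using this
  have l1 : star (x * g) * (x * g) = 1 := by
    rw [star_mul, hg.star_eq, ← e1]; simp only [mul_assoc]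
  have l2 : x * g * star (x * g) = 1 := by
    obtain ⟨w, hw⟩ := u1.exists_right_inv
    have a1 : g * star x * x * g = 1 := by rw [← e1]; simp only [mul_assoc]
    have a2 : g * g * (star x * x) = 1 := by
      have c : Commute g (star x * x) := by
        rw [hgd]; exact (Commute.refl _).cfc_real _
      rw [mul_assoc, c.eq, ← mul_assoc, e1]
    have a3 : star x * w = g * g * star x := by
      calc star x * w = g * g * (star x * x) * (star x * w) := by rw [a2, one_mul]
        _ = g * g * star x * (x * star x * w) := by simp only [mul_assoc]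
        _ = g * g * star x := by rw [hw, mul_one]
    rw [star_mul, hg.star_eq]
    calc x * g * (g * star x) = x * (g * g * star x) := by simp only [mul_assoc]
      _ = 1 := by rw [← a3, ← mul_assoc, hw]
  refine ⟨x * g, ⟨l1, l2⟩, ?_⟩
  rw [show x - x * g = x * (1 - g) by noncomm_ring]
  exact (norm_mul_le_of_le le_rfl e2).trans (le_of_eq (by ring))

end U1

open U1

theorem exists_ult (ω : Ultrafilter ℕ) [Nontrivial A] :
    ∃ (E : Type) (_ : CStarAlgebra E) (_ : Nontrivial E) (q : Linf A →⋆ₐ[ℂ] E), IsUlt ω q := by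
  obtain ⟨E, _, q, h1, h2, h3⟩ := quot (nullIdeal ω A) (closed ω)
  have hn : ∀ x, Tendsto (fun n => ‖x n‖) ω (𝓝 ‖q x‖) := by
    intro x
    obtain ⟨l, -, hl⟩ := isCompact_Icc.ultrafilter_le_nhds (ω.map fun n => ‖x n‖)
      (show _ ≤ 𝓟 (Set.Icc 0 ‖x‖) from le_principal_iff.2
        (mem_map.2 (Eventually.of_forall fun n => ⟨norm_nonneg _, le x n⟩)))
    have hl : Tendsto (fun n => ‖x n‖) ω (𝓝 l) := hl
    have l0 : 0 ≤ l := ge_of_tendsto' hl fun n => norm_nonneg _
    have : ‖q x‖ = l := by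
      refine le_antisymm (le_of_forall_pos_le_add fun ε hε => ?_)
        (le_of_forall_pos_le_add fun ε hε => ?_)
      · classical
        let y := bd (fun n => if ‖x n‖ ≤ l + ε then x n else 0) (l + ε) fun n => by
          split_ifs with h
          · exact h
          · rw [norm_zero]; positivity
        have e : q x = q y := by
          rw [← sub_eq_zero, ← map_sub, h2]
          show Tendsto (fun n => ‖x n - if ‖x n‖ ≤ l + ε then x n else 0‖) ω (𝓝 0)
          refine tendsto_const_nhds.congr' ?_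
          filter_upwards [hl.eventually (gt_mem_nhds (show l < l + ε by linarith))] with n hn
          rw [if_pos hn.le, sub_self, norm_zero]
        rw [e]
        exact (NonUnitalStarAlgHom.norm_apply_le q y).trans (bd_le _ _ _)
      · obtain ⟨m, hm, h⟩ := h3 x ε hε
        have hm' : Tendsto (fun n => ‖m n‖) ω (𝓝 0) := hm
        have := le_of_tendsto_of_tendsto' hl (hm'.const_add ‖x - m‖) fun n => by
          have a := norm_add_le (x n - m n) (m n)
          rw [sub_add_cancel] at a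
          exact a.trans (add_le_add_left (le (x - m) n) _)
        linarith
    rwa [this]
  refine ⟨E, inferInstance, ⟨⟨q 1, 0, fun h => ?_⟩⟩, q, h1, hn⟩
  have := hn 1
  rw [h, norm_zero] at this
  have h1 : Tendsto (fun _ : ℕ => (1 : ℝ)) ω (𝓝 0) :=
    this.congr fun n => (norm_one : ‖(1 : A)‖ = 1)
  exact one_ne_zero (tendsto_nhds_unique tendsto_const_nhds h1)

theorem char_empty {ω : Ultrafilter ℕ} [Nontrivial A] {q : Linf A →⋆ₐ[ℂ] E} (hq : IsUlt ω q)
    (h : IsEmpty (Central ω A →⋆ₐ[ℂ] ℂ)) : IsEmpty (Cen q (id : A → A) →⋆ₐ[ℂ] ℂ) := by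
  let ψ0 : (Linf A ⧸ nullIdeal ω A) →ₐ[ℂ] E :=
    Ideal.Quotient.liftₐ (nullIdeal ω A) q.toAlgHom fun x hx => (zero_iff hq x).2 hx
  let ψ : Ult ω A →⋆ₐ[ℂ] E :=
    { (ψ0 : Ult ω A →ₐ[ℂ] E) with
      map_star' := by
        rintro ⟨x⟩
        exact map_star q x }
  have hψ : ∀ x, ψ (mk ω A x) = q x := fun _ => rfl
  have hm : ∀ y : Central ω A, ψ y ∈ Cen q (id : A → A) := by
    intro y
    rw [StarSubalgebra.mem_centralizer_iff]
    rintro _ ⟨a, rfl⟩
    have := (StarSubalgebra.mem_centralizer_iff ℂ).1 y.2 _ ⟨a, rfl⟩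
    refine ⟨?_, ?_⟩
    · have e := congrArg ψ this.1
      rwa [map_mul, map_mul] at e
    · have e := congrArg ψ this.2
      rwa [map_mul, map_mul, map_star] at e
  exact ⟨fun χ => h.false (χ.comp ((ψ.comp (Central ω A).subtype).codRestrict _ hm))⟩

theorem lift_unitary {ω : Ultrafilter ℕ} [Nontrivial A] {q : Linf A →⋆ₐ[ℂ] E} (hq : IsUlt ω q)
    {u : E} (hu : u ∈ unitary E) : ∃ z : Linf A, q z = u ∧ ∀ n, z n ∈ unitary A := by
  obtain ⟨x, rfl⟩ := hq.surj u
  have t1 : Tendsto (fun n => ‖star (x n) * x n - 1‖) ω (𝓝 0) :=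
    (eq_iff hq (star x * x) 1).1 (by rw [map_mul, map_star, map_one]; exact hu.1)
  have t2 : Tendsto (fun n => ‖x n * star (x n) - 1‖) ω (𝓝 0) :=
    (eq_iff hq (x * star x) 1).1 (by rw [map_mul, map_star, map_one]; exact hu.2)
  have t3 : Tendsto (fun n => ‖star (x n) * x n - 1‖ + ‖x n * star (x n) - 1‖) ω (𝓝 0) := by
    simpa using t1.add t2
  have key : ∀ n, ∃ z ∈ unitary A, ‖star (x n) * x n - 1‖ + ‖x n * star (x n) - 1‖ ≤ 1 / 2 →
      ‖x n - z‖ ≤ 2 * ‖x‖ * (‖star (x n) * x n - 1‖ + ‖x n * star (x n) - 1‖) := by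
    intro n
    by_cases c : ‖star (x n) * x n - 1‖ + ‖x n * star (x n) - 1‖ ≤ 1 / 2
    · obtain ⟨z, hz, h⟩ := polar c (le_add_of_nonneg_right (norm_nonneg _))
        (le_add_of_nonneg_left (norm_nonneg _))
      refine ⟨z, hz, fun _ => h.trans ?_⟩
      have := le x n
      gcongr
    · exact ⟨1, one_mem _, fun h => absurd h c⟩
  choose z hz hz' using key
  refine ⟨bd z 1 fun n => (CStarRing.norm_of_mem_unitary (hz n)).le, ?_, hz⟩
  refine ((eq_iff hq _ _).2 ?_).symm
  have t4 := t3.const_mul (2 * ‖x‖)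
  rw [mul_zero] at t4
  refine squeeze_zero' (Eventually.of_forall fun _ => norm_nonneg _) ?_ t4
  filter_upwards [t3.eventually (ge_mem_nhds (show (0 : ℝ) < 1 / 2 by norm_num))] with n hn
  exact hz' n hn

end Vale.Agent.P101
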