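import Mathlib

/-! Central sequence algebras, dimension drop algebras. -/

namespace Vale.Agent.P101

open Filter Topology
open scoped ENNReal Kronecker

/-- norm-bounded sequences in `A` -/
abbrev Linf (A : Type) [CStarAlgebra A] : Type := lp (fun _ : ℕ => A) ∞

section
variable (ω : Ultrafilter ℕ) (A : Type) [CStarAlgebra A] [Nontrivial A]

/-- the sequences whose norm tends to zero along `ω` -/
def nullIdeal : Ideal (Linf A) where
  carrier := {b | Tendsto (fun n => ‖b n‖) ω (𝓝 0)}
  add_mem' := fun {a b} ha hb => squeeze_zero (fun _ => norm_nonneg _)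
    (fun n => norm_add_le (a n) (b n)) (by simpa using Tendsto.add ha hb)
  zero_mem' := by simp
  smul_mem' := fun a b hb => squeeze_zero (fun _ => norm_nonneg _)
    (fun n => norm_mul_le_of_le (lp.norm_apply_le_norm ENNReal.top_ne_zero a n) (le_refl ‖b n‖))
    (by simpa using Tendsto.const_mul ‖a‖ hb)

instance : (nullIdeal ω A).IsTwoSided := ⟨fun {b} a hb => squeeze_zero (fun _ => norm_nonneg _)
  (fun n => norm_mul_le_of_le (le_refl ‖b n‖) (lp.norm_apply_le_norm ENNReal.top_ne_zero a n))
  (by simpa using Tendsto.mul_const ‖a‖ hb)⟩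

/-- the norm ultrapower -/
def Ult : Type := Linf A ⧸ nullIdeal ω A

/-- the quotient ring structure -/
noncomputable def ultRing : Ring (Ult ω A) := Ideal.Quotient.ring (nullIdeal ω A)

noncomputable instance : Ring (Ult ω A) := ultRing ω A

noncomputable instance : Algebra ℂ (Ult ω A) := Ideal.Quotient.algebra ℂ (I := nullIdeal ω A)

/-- the class of a bounded sequence -/
noncomputable def mk (x : Linf A) : Ult ω A := Ideal.Quotient.mk (nullIdeal ω A) x

/-- the involution induced by the coordinatewise involution -/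
noncomputable instance : StarRing (Ult ω A) where
  star := Quotient.map' star fun a b h => by
    rw [Submodule.quotientRel_def] at h ⊢
    rw [← star_sub]
    exact Tendsto.congr (fun n => (norm_star _).symm) h
  star_involutive := by
    rintro ⟨x⟩
    exact congrArg (mk ω A) (star_star x)
  star_mul := by
    rintro ⟨x⟩ ⟨y⟩
    exact congrArg (mk ω A) (star_mul x y)
  star_add := by
    rintro ⟨x⟩ ⟨y⟩
    exact congrArg (mk ω A) (star_add x y)

instance : StarModule ℂ (Ult ω A) where
  star_smul := by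
    rintro c ⟨x⟩
    exact congrArg (mk ω A) (star_smul c x)

/-- the constant sequence -/
noncomputable def cst (a : A) : Linf A := ⟨fun _ => a, memℓp_infty ⟨‖a‖, by rintro _ ⟨_, rfl⟩; rfl⟩⟩

/-- the central sequence algebra: the commutant of the constant sequences in the ultrapower -/
noncomputable def Central : StarSubalgebra ℂ (Ult ω A) :=
  StarSubalgebra.centralizer ℂ (Set.range fun a => mk ω A (cst A a))

end

/-- the dimension drop algebra -/
noncomputable def DimDrop (p q : ℕ) :
    StarSubalgebra ℂ C(unitInterval, Matrix (Fin p × Fin q) (Fin p × Fin q) ℂ) where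
  carrier := {f | (∃ x : Matrix (Fin p) (Fin p) ℂ, f 0 = x ⊗ₖ (1 : Matrix (Fin q) (Fin q) ℂ)) ∧
    ∃ y : Matrix (Fin q) (Fin q) ℂ, f 1 = (1 : Matrix (Fin p) (Fin p) ℂ) ⊗ₖ y}
  mul_mem' := by
    rintro f g ⟨⟨x, hx⟩, y, hy⟩ ⟨⟨x', hx'⟩, y', hy'⟩
    exact ⟨⟨x * x', by rw [ContinuousMap.mul_apply, hx, hx', ← Matrix.mul_kronecker_mul, mul_one]⟩,
      y * y', by rw [ContinuousMap.mul_apply, hy, hy', ← Matrix.mul_kronecker_mul, mul_one]⟩
  add_mem' := by
    rintro f g ⟨⟨x, hx⟩, y, hy⟩ ⟨⟨x', hx'⟩, y', hy'⟩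
    exact ⟨⟨x + x', by rw [ContinuousMap.add_apply, hx, hx', Matrix.add_kronecker]⟩,
      y + y', by rw [ContinuousMap.add_apply, hy, hy', Matrix.kronecker_add]⟩
  algebraMap_mem' c := by
    rw [Algebra.algebraMap_eq_smul_one]
    exact ⟨⟨c • 1, by simp [Matrix.smul_kronecker]⟩, c • 1, by simp [Matrix.kronecker_smul]⟩
  star_mem' := by
    rintro f ⟨⟨x, hx⟩, y, hy⟩
    exact ⟨⟨star x, by
        rw [ContinuousMap.star_apply, hx]
        simp [Matrix.star_eq_conjTranspose, Matrix.conjTranspose_kronecker]⟩,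
      star y, by
        rw [ContinuousMap.star_apply, hy]
        simp [Matrix.star_eq_conjTranspose, Matrix.conjTranspose_kronecker]⟩

/-- two star subalgebras are isomorphic as star algebras -/
def SubIso {R S : Type} [Semiring R] [StarRing R] [Algebra ℂ R] [StarModule ℂ R] [Semiring S]
    [StarRing S] [Algebra ℂ S] [StarModule ℂ S] (B : StarSubalgebra ℂ R) (C : StarSubalgebra ℂ S) :
    Prop := Nonempty (B ≃⋆ₐ[ℂ] C)

/-- `Z` is the closure of an increasing union of unital subalgebras isomorphic to prime dimension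
drop algebras. -/
def DropLimit (Z : Type) [CStarAlgebra Z] : Prop :=
  ∃ (B : ℕ → StarSubalgebra ℂ Z) (p q : ℕ → ℕ), Monotone B ∧ Dense (⋃ n, (B n : Set Z)) ∧
    ∀ n, IsClosed (B n : Set Z) ∧ 0 < p n ∧ 0 < q n ∧ (p n).Coprime (q n) ∧
      SubIso (B n) (DimDrop (p n) (q n))

/-- approximate unitary equivalence -/
def ApproxEquiv {Z B : Type} [CStarAlgebra Z] [CStarAlgebra B] (α β : Z →⋆ₐ[ℂ] B) : Prop :=
  ∀ (s : Finset Z) (ε : ℝ), 0 < ε → ∃ u ∈ unitary B, ∀ d ∈ s, ‖u * α d * star u - β d‖ < ε

/-- Two unital homomorphisms with commuting ranges are approximately unitarily equivalent. -/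
def HalfFlip (Z : Type) [CStarAlgebra Z] : Prop :=
  ∀ (B : Type) [CStarAlgebra B] (α β : Z →⋆ₐ[ℂ] B), (∀ x y, Commute (α x) (β y)) →
    ApproxEquiv α β

end Vale.Agent.P101
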