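import Vale.Agent.P101.Defs

namespace Vale.Agent.P101

/-- there is a unital star homomorphism from one star subalgebra to another -/
def SubHom {R S : Type} [Semiring R] [StarRing R] [Algebra ℂ R] [StarModule ℂ R] [Semiring S]
    [StarRing S] [Algebra ℂ S] [StarModule ℂ S] (B : StarSubalgebra ℂ R) (C : StarSubalgebra ℂ S) :
    Prop := Nonempty (B →⋆ₐ[ℂ] C)

end Vale.Agent.P101
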