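import Vale.Agent.P101.Glue
import Vale.Agent.P101.DefsD

namespace Vale.Agent.P101

open Filter Topology U1

variable {A E : Type} [CStarAlgebra A] [CStarAlgebra E]

theorem cen_to_central {ω : Ultrafilter ℕ} [Nontrivial A] {q : Linf A →⋆ₐ[ℂ] E} (hq : IsUlt ω q) :
    Nonempty (Cen q (id : A → A) →⋆ₐ[ℂ] Central ω A) := by
  let ψ0 : (Linf A ⧸ nullIdeal ω A) →ₐ[ℂ] E :=
    Ideal.Quotient.liftₐ (nullIdeal ω A) q.toAlgHom fun x hx => (zero_iff hq x).2 hx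
  let ψ : Ult ω A →⋆ₐ[ℂ] E :=
    { (ψ0 : Ult ω A →ₐ[ℂ] E) with
      map_star' := by
        rintro ⟨x⟩
        exact map_star q x }
  have hψ : ∀ x, ψ (mk ω A x) = q x := fun _ => rfl
  have hb : Function.Bijective ψ := by
    refine ⟨(injective_iff_map_eq_zero ψ).2 ?_, fun y => ?_⟩
    · rintro ⟨x⟩ hx
      exact Ideal.Quotient.eq_zero_iff_mem.2 ((zero_iff hq x).1 hx)
    · obtain ⟨x, rfl⟩ := hq.surj y
      exact ⟨mk ω A x, rfl⟩
  let e := StarAlgEquiv.ofBijective ψ hb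
  have he : ∀ x, ψ (e.symm x) = x := e.apply_symm_apply
  have hm : ∀ y : Cen q (id : A → A), (e.symm : E →⋆ₐ[ℂ] Ult ω A) y ∈ Central ω A := by
    intro y
    rw [Central, StarSubalgebra.mem_centralizer_iff]
    rintro _ ⟨a, rfl⟩
    have := (StarSubalgebra.mem_centralizer_iff ℂ).1 y.2 _ ⟨a, rfl⟩
    refine ⟨hb.1 ?_, hb.1 ?_⟩
    · rw [map_mul, map_mul]
      exact (congrArg₂ _ rfl (he y)).trans (this.1.trans (congrArg₂ _ (he y).symm rfl))
    · rw [map_mul, map_mul, map_star]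
      exact (congrArg₂ _ rfl (he y)).trans (this.2.trans (congrArg₂ _ (he y).symm rfl))
  exact ⟨((e.symm : E →⋆ₐ[ℂ] Ult ω A).comp (Cen q (id : A → A)).subtype).codRestrict _ hm⟩

theorem mainD [Nontrivial A] [TopologicalSpace.SeparableSpace A] (ω : Ultrafilter ℕ)
    (hω : (ω : Filter ℕ) ≤ cofinite) (h : IsEmpty (Central ω A →⋆ₐ[ℂ] ℂ)) (p r : ℕ) (hp : 0 < p)
    (hr : 0 < r) (hpr : p.Coprime r) : SubHom (DimDrop p r) (Central ω A) := by
  obtain ⟨E, _, _, q, hq⟩ := exists_ult (A := A) ω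
  obtain ⟨φ⟩ := drop (cp_of_ult hω hq) (char_empty hq h) p r hp hr hpr
  obtain ⟨ψ⟩ := cen_to_central hq
  exact ⟨ψ.comp φ⟩

end Vale.Agent.P101
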