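import Mathlib

/-! More than `N` pairwise orthogonal vectors of length `N` over commuting rows. -/

namespace Vale.Agent.P101

open Finset

namespace Gram

variable {R : Type*} [Ring R]

lemma prod_mul {k : ℕ} (F G : Fin k → R) (h : ∀ i j, i ≠ j → Commute (G i) (F j)) :
    (List.ofFn fun i => F i * G i).prod = (List.ofFn F).prod * (List.ofFn G).prod := by
  induction k with
  | zero => simp
  | succ k ih =>
    simp only [List.ofFn_succ, List.prod_cons]
    rw [ih _ _ fun i j hij => h _ _ fun e => hij (Fin.succ_injective _ e)]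
    have : Commute (G 0) (List.ofFn fun i : Fin k => F i.succ).prod :=
      Commute.list_prod_right _ _ fun x hx => by
        obtain ⟨i, rfl⟩ := List.mem_ofFn.1 hx
        exact h _ _ (Fin.succ_ne_zero i).symm
    rw [mul_assoc, mul_assoc, ← mul_assoc (G 0), this.eq, mul_assoc]

lemma prod_single {k : ℕ} (i : Fin k) (x : R) :
    (List.ofFn (Function.update (fun _ => (1 : R)) i x)).prod = x := by
  induction k with
  | zero => exact i.elim0
  | succ k ih =>
    rw [List.ofFn_succ, List.prod_cons]
    refine Fin.cases ?_ (fun i => ?_) i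
    · simp [Function.update_of_ne (Fin.succ_ne_zero _)]
    · rw [Function.update_of_ne (Fin.succ_ne_zero i).symm, one_mul]
      refine Eq.trans ?_ (ih i)
      congr 2
      funext j
      simp [Function.update_apply]

lemma pull_right {k : ℕ} (F : Fin k → R) (h : ∀ i j, i ≠ j → Commute (F i) (F j)) (i : Fin k) :
    (List.ofFn F).prod = (List.ofFn (Function.update F i 1)).prod * F i := by
  conv_rhs => rw [← prod_single i (F i)]
  rw [← prod_mul]
  · congr 2
    funext j
    by_cases e : j = i
    · subst e; simp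
    · simp [Function.update_of_ne e]
  · intro a b hab
    simp only [Function.update_apply]
    split_ifs with h1 h2
    exacts [Commute.one_right _, h _ _ (h1 ▸ hab), Commute.one_left _, Commute.one_left _]

lemma pull_left {k : ℕ} (F : Fin k → R) (h : ∀ i j, i ≠ j → Commute (F i) (F j)) (i : Fin k) :
    (List.ofFn F).prod = F i * (List.ofFn (Function.update F i 1)).prod := by
  rw [pull_right F h i]
  refine (Commute.eq ?_).symm
  refine Commute.list_prod_right _ _ fun x hx => ?_
  obtain ⟨j, rfl⟩ := List.mem_ofFn.1 hx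
  rw [Function.update_apply]
  split_ifs with h1
  exacts [Commute.one_right _, h _ _ (Ne.symm h1)]

lemma prod_sum {k : ℕ} {ι : Type*} [Fintype ι] (F : Fin k → ι → R) :
    (List.ofFn fun i => ∑ l, F i l).prod = ∑ s : Fin k → ι, (List.ofFn fun i => F i (s i)).prod := by
  simpa using (MultilinearMap.mkPiAlgebraFin ℤ k R).map_sum F

end Gram

open Gram in
theorem gram {R : Type*} [Ring R] {N : ℕ} (w u : Fin (N + 1) → Fin N → R)
    (hw : ∀ i j, i ≠ j → ∀ s t, Commute (w i s) (w j t))
    (hu : ∀ i j, i ≠ j → ∀ s t, Commute (u i s) (u j t))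
    (hx : ∀ i j, i ≠ j → ∀ s t, Commute (u i s) (w j t))
    (h0 : ∀ i j, i ≠ j → ∑ s, w i s * u j s = 0) :
    (List.ofFn fun i => ∑ s, w i s * u i s).prod = 0 := by
  classical
  let A : (Fin (N + 1) → Fin N) → R := fun s => (List.ofFn fun i => w i (s i)).prod
  let B : (Fin (N + 1) → Fin N) → R := fun s => (List.ofFn fun i => u i (s i)).prod
  have h1 : ∀ s : Fin (N + 1) → Fin N,
      ∑ σ : Equiv.Perm (Fin (N + 1)), (Equiv.Perm.sign σ : ℤ) • (A s * B (s ∘ σ)) = 0 := by
    intro s
    obtain ⟨a, b, hab, e⟩ := Fintype.exists_ne_map_eq_of_card_lt s (by simp)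
    refine sum_involution (fun σ _ => Equiv.swap a b * σ) (fun σ _ => ?_) (fun σ _ _ => ?_)
      (fun _ _ => mem_univ _) fun σ _ => by simp
    · have : s ∘ (Equiv.swap a b * σ : Equiv.Perm _) = s ∘ σ :=
        funext fun i => Equiv.apply_swap_eq_self e _
      rw [this, ← add_smul]
      simp [hab]
    · intro e'
      exact hab (Equiv.swap_eq_one_iff.1 (mul_eq_right.1 e'))
  have h2 : ∀ σ : Equiv.Perm (Fin (N + 1)), σ ≠ 1 → ∑ s, A s * B (s ∘ σ) = 0 := by
    intro σ hσ
    obtain ⟨j, hj⟩ : ∃ j, σ j ≠ j := by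
      by_contra h
      push Not at h
      exact hσ (Equiv.ext h)
    rw [← (Equiv.funSplitAt (σ j) (Fin N)).symm.sum_comp, Fintype.sum_prod_type_right]
    refine sum_eq_zero fun r _ => ?_
    rcases isEmpty_or_nonempty (Fin N) with hN | ⟨⟨t0⟩⟩
    · simp
    set e := (Equiv.funSplitAt (σ j) (Fin N)).symm with he
    have e1 : ∀ t, e (t, r) (σ j) = t := fun t => by simp [he]
    have e2 : ∀ t i, i ≠ σ j → e (t, r) i = e (t0, r) i := fun t i hi => by simp [he, hi]
    have e3 : ∀ t, A (e (t, r)) * B (e (t, r) ∘ σ) =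
        (List.ofFn (Function.update (fun i => w i (e (t0, r) i)) (σ j) 1)).prod *
          (w (σ j) t * u j t) *
          (List.ofFn (Function.update (fun i => u i (e (t0, r) (σ i))) j 1)).prod := by
      intro t
      simp only [A, B]
      rw [pull_right _ (fun a b h => hw a b h _ _) (σ j), pull_left _ (fun a b h => hu a b h _ _) j,
        Function.comp_apply, e1, mul_assoc, mul_assoc, mul_assoc]
      congr 2
      · congr 1
        funext i
        simp only [Function.update_apply]
        split_ifs with hi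
        exacts [rfl, by rw [e2 t i hi]]
      · congr 3
        funext i
        simp only [Function.update_apply]
        split_ifs with hi
        exacts [rfl, by rw [Function.comp_apply, e2 t _ fun h => hi (σ.injective h)]]
    simp only [e3]
    rw [← sum_mul, ← mul_sum, h0 _ _ hj, mul_zero, zero_mul]
  have h3 : ∑ s : Fin (N + 1) → Fin N, ∑ σ : Equiv.Perm (Fin (N + 1)),
      (Equiv.Perm.sign σ : ℤ) • (A s * B (s ∘ σ)) = 0 := sum_eq_zero fun s _ => h1 s
  rw [sum_comm, sum_eq_single 1 (fun σ _ hσ => by rw [← smul_sum, h2 σ hσ, smul_zero])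
    (fun h => (h (mem_univ _)).elim)] at h3
  rw [Gram.prod_sum, ← h3]
  refine sum_congr rfl fun s _ => ?_
  rw [prod_mul _ _ fun i j h => hx i j h _ _]
  simp [A, B]

end Vale.Agent.P101
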