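import Vale.Agent.P101.Work

/-! Quotients by closed two-sided ideals. -/

namespace Vale.Agent.P101

open Filter Topology Finset

variable {B : Type} [CStarAlgebra B]

namespace Q1

theorem unit (I : Ideal B) {m : B} (hm : m ∈ I) {ε : ℝ} (hε : 0 < ε) :
    ∃ g : B, IsSelfAdjoint g ∧ 1 - g ∈ I ∧ ‖g‖ ≤ 1 ∧ ‖m * g‖ ≤ ε := by
  have ha : IsSelfAdjoint (star m * m) := IsSelfAdjoint.star_mul_self m
  have hs : ∀ t ∈ spectrum ℝ (star m * m), 0 ≤ t := fun t ht =>
    spectrum_star_mul_self_nonneg t ht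
  obtain ⟨d, hd⟩ : ∃ d : ℝ, d = ε ^ 2 := ⟨_, rfl⟩
  have d0 : 0 < d := hd ▸ by positivity
  have hp : ∀ t : ℝ, 0 < d + |t| := fun t => by positivity
  have c1 : Continuous fun t : ℝ => d / (d + |t|) :=
    continuous_const.div (by fun_prop) fun t => (hp t).ne'
  have c2 : Continuous fun t : ℝ => 1 / (d + |t|) :=
    continuous_const.div (by fun_prop) fun t => (hp t).ne'
  have hg : IsSelfAdjoint (cfc (fun t : ℝ => d / (d + |t|)) (star m * m)) := cfc_predicate _ _
  refine ⟨cfc (fun t : ℝ => d / (d + |t|)) (star m * m), hg, ?_, ?_, ?_⟩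
  · have : 1 - cfc (fun t : ℝ => d / (d + |t|)) (star m * m) =
        cfc (fun t : ℝ => 1 / (d + |t|)) (star m * m) * (star m * m) := by
      conv_rhs => enter [2]; rw [← cfc_id' ℝ (star m * m)]
      rw [← cfc_mul _ _ _ c2.continuousOn, ← cfc_const_one ℝ (star m * m),
        ← cfc_sub _ _ _ continuousOn_const c1.continuousOn]
      refine cfc_congr fun t ht => ?_
      have := hp t
      rw [abs_of_nonneg (hs t ht)] at this ⊢
      field_simp
      ring
    rw [this]
    exact I.mul_mem_left _ (I.mul_mem_left _ hm)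
  · refine norm_cfc_le zero_le_one fun t _ => ?_
    rw [Real.norm_of_nonneg (by positivity), div_le_one (hp t)]
    exact le_add_of_nonneg_right (abs_nonneg t)
  · refine abs_le_of_sq_le_sq' ?_ hε.le |>.2
    rw [← hd, sq, ← CStarRing.norm_star_mul_self, star_mul, hg.star_eq]
    have : cfc (fun t : ℝ => d / (d + |t|)) (star m * m) * star m *
        (m * cfc (fun t : ℝ => d / (d + |t|)) (star m * m)) =
        cfc (fun t : ℝ => d / (d + |t|) * t * (d / (d + |t|))) (star m * m) := by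
      rw [cfc_mul _ _ _ (by fun_prop) c1.continuousOn, cfc_mul _ _ _ c1.continuousOn,
        cfc_id' ℝ (star m * m)]
      simp only [mul_assoc]
    rw [this]
    refine norm_cfc_le d0.le fun t ht => ?_
    have h0 := hs t ht
    have h1 := hp t
    rw [abs_of_nonneg h0] at h1 ⊢
    rw [Real.norm_of_nonneg (by positivity), div_mul_eq_mul_div, div_mul_div_comm,
      div_le_iff₀ (by positivity)]
    nlinarith [mul_nonneg d0.le h0, mul_nonneg d0.le (mul_nonneg h0 h0),
      mul_nonneg d0.le (mul_nonneg d0.le h0), mul_pos d0 (mul_pos d0 d0)]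

theorem star_mem (I : Ideal B) [I.IsTwoSided] (hI : IsClosed (I : Set B)) {m : B} (hm : m ∈ I) :
    star m ∈ I := by
  have : star m ∈ closure (I : Set B) := by
    refine Metric.mem_closure_iff.2 fun ε hε => ?_
    obtain ⟨g, g1, g2, _, g4⟩ := unit I hm (half_pos hε)
    refine ⟨(1 - g) * star m, I.mul_mem_right _ g2, ?_⟩
    rw [dist_eq_norm, show star m - (1 - g) * star m = star (m * g) by
      rw [star_mul, g1.star_eq]; noncomm_ring, norm_star]
    linarith
  rwa [hI.closure_eq] at this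

/-- The quotient by a closed ideal. -/
def Qt (I : Ideal B) (_ : IsClosed (I : Set B)) : Type := B ⧸ I

variable (I : Ideal B) [I.IsTwoSided]

omit [I.IsTwoSided] in
theorem lt (x : B ⧸ I) {ε : ℝ} (hε : 0 < ε) :
    ∃ r : B, Submodule.Quotient.mk r = x ∧ ‖r‖ < ‖x‖ + ε := Submodule.Quotient.norm_mk_lt x hε

theorem mul_le (x y : B ⧸ I) : ‖x * y‖ ≤ ‖x‖ * ‖y‖ := by
  refine le_of_forall_pos_le_add fun ε hε => ?_
  have := ((Metric.nhds_basis_ball.prod_nhds Metric.nhds_basis_ball).tendsto_iff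
    Metric.nhds_basis_ball).mp (continuous_mul.tendsto (‖x‖, ‖y‖)) ε hε
  simp only [Set.mem_prod, Metric.mem_ball, and_imp, Prod.forall, Prod.exists] at this
  rcases this with ⟨ε₁, ε₂, ⟨h₁, h₂⟩, h⟩
  obtain ⟨a, rfl, ha⟩ := lt I x h₁
  obtain ⟨b, rfl, hb⟩ := lt I y h₂
  simp only [dist, abs_sub_lt_iff] at h
  specialize h ‖a‖ ‖b‖ ⟨by linarith, by linarith [Submodule.Quotient.norm_mk_le I a]⟩
    ⟨by linarith, by linarith [Submodule.Quotient.norm_mk_le I b]⟩
  calc _ ≤ ‖a‖ * ‖b‖ := (Submodule.Quotient.norm_mk_le I (a * b)).trans (norm_mul_le a b)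
    _ ≤ _ := (sub_lt_iff_lt_add'.mp h.1).le

variable (hI : IsClosed (I : Set B))

noncomputable instance : NormedRing (Qt I hI) :=
  { (inferInstance : Ring (B ⧸ I)),
    (haveI := hI; Submodule.Quotient.normedAddCommGroup I : NormedAddCommGroup (B ⧸ I)) with
    norm_mul_le := mul_le I }

noncomputable instance : NormedAlgebra ℂ (Qt I hI) :=
  { (inferInstance : Algebra ℂ (B ⧸ I)) with
    norm_smul_le := fun c x => norm_smul_le c (show B ⧸ I from x) }

instance : CompleteSpace (Qt I hI) := Submodule.Quotient.completeSpace I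

/-- The quotient map. -/
noncomputable def pr (x : B) : Qt I hI := Ideal.Quotient.mk I x

noncomputable instance : StarRing (Qt I hI) where
  star := Quotient.map' star fun a b h => by
    rw [Submodule.quotientRel_def] at h ⊢
    rw [← star_sub]
    exact star_mem I hI h
  star_involutive := by
    rintro ⟨x⟩
    exact congrArg (pr I hI) (star_star x)
  star_mul := by
    rintro ⟨x⟩ ⟨y⟩
    exact congrArg (pr I hI) (star_mul x y)
  star_add := by
    rintro ⟨x⟩ ⟨y⟩
    exact congrArg (pr I hI) (star_add x y)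

instance : StarModule ℂ (Qt I hI) where
  star_smul := by
    rintro c ⟨x⟩
    exact congrArg (pr I hI) (star_smul c x)

instance : CStarRing (Qt I hI) where
  norm_mul_self_le := by
    rintro ⟨b⟩
    show ‖pr I hI b‖ * ‖pr I hI b‖ ≤ ‖pr I hI (star b * b)‖
    refine le_of_forall_pos_le_add fun ε hε => ?_
    obtain ⟨r, hr, hr'⟩ := lt I (pr I hI (star b * b)) (half_pos hε)
    have hm : r - star b * b ∈ I := (Submodule.Quotient.eq I).1 hr
    obtain ⟨g, g1, g2, g3, g4⟩ := unit I hm (half_pos hε)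
    have e : pr I hI b = pr I hI (b * g) := (Submodule.Quotient.eq I).2 (by
      rw [show b - b * g = b * (1 - g) by noncomm_ring]
      exact I.mul_mem_left _ g2)
    have h1 : ‖pr I hI b‖ ≤ ‖b * g‖ := e ▸ Submodule.Quotient.norm_mk_le I (b * g)
    have h2 : ‖b * g‖ * ‖b * g‖ ≤ ‖r‖ + ε / 2 := by
      rw [← CStarRing.norm_star_mul_self, star_mul, g1.star_eq,
        show g * star b * (b * g) = g * (r * g) - g * ((r - star b * b) * g) by noncomm_ring]
      refine (norm_sub_le _ _).trans (add_le_add ?_ ?_)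
      · exact (norm_mul_le_of_le g3 (norm_mul_le_of_le le_rfl g3)).trans (by simp)
      · exact (norm_mul_le_of_le g3 g4).trans (by simp)
    have h3 : ‖r‖ < ‖pr I hI (star b * b)‖ + ε / 2 := hr'
    have := mul_le_mul h1 h1 (norm_nonneg _) (norm_nonneg _)
    linarith

noncomputable instance : CStarAlgebra (Qt I hI) :=
  { (inferInstance : NormedRing (Qt I hI)), (inferInstance : StarRing (Qt I hI)),
    (inferInstance : CompleteSpace (Qt I hI)), (inferInstance : CStarRing (Qt I hI)),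
    (inferInstance : NormedAlgebra ℂ (Qt I hI)), (inferInstance : StarModule ℂ (Qt I hI)) with }

/-- The quotient map as a homomorphism. -/
noncomputable def prh : B →⋆ₐ[ℂ] Qt I hI :=
  { (Ideal.Quotient.mkₐ ℂ I : B →ₐ[ℂ] B ⧸ I) with map_star' := fun _ => rfl }

end Q1

theorem quot (I : Ideal B) [I.IsTwoSided] (hI : IsClosed (I : Set B)) :
    ∃ (Q : Type) (_ : CStarAlgebra Q) (π : B →⋆ₐ[ℂ] Q), Function.Surjective π ∧
      (∀ x, π x = 0 ↔ x ∈ I) ∧ ∀ x ε, 0 < ε → ∃ m ∈ I, ‖x - m‖ ≤ ‖π x‖ + ε := by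
  refine ⟨Q1.Qt I hI, inferInstance, Q1.prh I hI, Ideal.Quotient.mk_surjective,
    fun x => Ideal.Quotient.eq_zero_iff_mem, fun x ε hε => ?_⟩
  obtain ⟨r, hr, hr'⟩ := Q1.lt I (Q1.pr I hI x) hε
  refine ⟨x - r, (Submodule.Quotient.eq I).1 hr.symm, ?_⟩
  rw [sub_sub_cancel]
  exact hr'.le

end Vale.Agent.P101
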