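import Vale.Agent.P101.PartQ1

/-! Part Q2 of P101: simple quotients. -/

namespace Vale.Agent.P101

open Filter Topology Finset

variable {B F Q : Type} [CStarAlgebra B] [CStarAlgebra F] [CStarAlgebra Q]

namespace Q2

/-- Finite sums of elements `b * s * c` with `s ∈ S`. -/
def sums (S : Set B) : TwoSidedIdeal B := TwoSidedIdeal.mk'
  {x | ∃ (n : ℕ) (b s c : Fin n → B), (∀ r, s r ∈ S) ∧ ∑ r, b r * s r * c r = x}
  ⟨0, Fin.elim0, Fin.elim0, Fin.elim0, fun r => r.elim0, by simp⟩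
  (by
    rintro _ _ ⟨n, b, s, c, h, rfl⟩ ⟨n', b', s', c', h', rfl⟩
    refine ⟨n + n', Fin.append b b', Fin.append s s', Fin.append c c', fun r => ?_, ?_⟩
    · refine Fin.addCases (fun i => ?_) (fun i => ?_) r
      · simpa using h i
      · simpa using h' i
    · simp [Fin.sum_univ_add])
  (by
    rintro _ ⟨n, b, s, c, h, rfl⟩
    exact ⟨n, fun r => -b r, s, c, h, by simp⟩)
  (by
    rintro x _ ⟨n, b, s, c, h, rfl⟩
    exact ⟨n, fun r => x * b r, s, c, h, by simp [mul_sum, mul_assoc]⟩)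
  (by
    rintro _ y ⟨n, b, s, c, h, rfl⟩
    exact ⟨n, b, s, fun r => c r * y, h, by simp [sum_mul, mul_assoc]⟩)

lemma mem_sums {S : Set B} {x : B} : x ∈ sums S ↔
    ∃ (n : ℕ) (b s c : Fin n → B), (∀ r, s r ∈ S) ∧ ∑ r, b r * s r * c r = x :=
  TwoSidedIdeal.mem_mk' _ _ _ _ _ _ _

lemma exists_max (J : TwoSidedIdeal B) (hJ : (1 : B) ∉ J) : ∃ M : TwoSidedIdeal B, J ≤ M ∧
    (1 : B) ∉ M ∧ ∀ N : TwoSidedIdeal B, M ≤ N → (1 : B) ∉ N → N ≤ M := by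
  obtain ⟨M, h1, h2⟩ := zorn_le_nonempty₀ {N : TwoSidedIdeal B | (1 : B) ∉ N}
    (fun c hc hch y hy => by
      refine ⟨TwoSidedIdeal.mk' {x | ∃ N ∈ c, x ∈ N} ⟨y, hy, y.zero_mem⟩ ?_ ?_ ?_ ?_, ?_, ?_⟩
      · rintro a b ⟨N, hN, ha⟩ ⟨N', hN', hb⟩
        rcases hch.total hN hN' with h | h
        · exact ⟨N', hN', N'.add_mem (h ha) hb⟩
        · exact ⟨N, hN, N.add_mem ha (h hb)⟩
      · rintro a ⟨N, hN, ha⟩
        exact ⟨N, hN, N.neg_mem ha⟩
      · rintro a b ⟨N, hN, hb⟩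
        exact ⟨N, hN, N.mul_mem_left _ _ hb⟩
      · rintro a b ⟨N, hN, ha⟩
        exact ⟨N, hN, N.mul_mem_right _ _ ha⟩
      · intro h
        obtain ⟨N, hN, h⟩ := (TwoSidedIdeal.mem_mk' _ _ _ _ _ _ _).1 h
        exact hc hN h
      · exact fun N hN x hx => (TwoSidedIdeal.mem_mk' _ _ _ _ _ _ _).2 ⟨N, hN, hx⟩) J hJ
  exact ⟨M, h1, h2.prop, fun N a b => h2.le_of_ge b a⟩

lemma closed_max {M : TwoSidedIdeal B} (h1 : (1 : B) ∉ M)
    (h2 : ∀ N : TwoSidedIdeal B, M ≤ N → (1 : B) ∉ N → N ≤ M) : IsClosed (M : Set B) := by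
  refine isClosed_of_closure_subset fun x hx => h2 (TwoSidedIdeal.mk' (closure (M : Set B))
    (subset_closure M.zero_mem)
    (fun ha hb => map_mem_closure₂ continuous_add ha hb fun _ ha _ hb => M.add_mem ha hb)
    (fun ha => map_mem_closure continuous_neg ha fun _ ha => M.neg_mem ha)
    (fun {a _} hb => map_mem_closure (continuous_const_mul a) hb fun _ hb => M.mul_mem_left _ _ hb)
    (fun {_ b} ha => map_mem_closure (f := (· * b)) (continuous_mul_const b) ha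
      fun _ ha => M.mul_mem_right _ _ ha))
    (fun y hy => (TwoSidedIdeal.mem_mk' _ _ _ _ _ _ _).2 (subset_closure hy)) (fun h => ?_)
    ((TwoSidedIdeal.mem_mk' _ _ _ _ _ _ _).2 hx)
  obtain ⟨y, hy, hd⟩ := Metric.mem_closure_iff.1 ((TwoSidedIdeal.mem_mk' _ _ _ _ _ _ _).1 h) 1
    one_pos
  rw [dist_eq_norm] at hd
  have hu : IsUnit (1 - (1 - y)) := (Units.oneSub _ hd).isUnit
  rw [sub_sub_cancel] at hu
  obtain ⟨u, rfl⟩ := hu
  exact h1 (u.inv_mul ▸ M.mul_mem_left _ _ hy)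

end Q2

theorem witness (S : Set B) (h : ∀ (Q : Type) [CStarAlgebra Q] [IsSimpleRing Q] (π : B →⋆ₐ[ℂ] Q),
      Function.Surjective π → ∃ x ∈ S, π x ≠ 0) :
    ∃ (n : ℕ) (b s c : Fin n → B), (∀ r, s r ∈ S) ∧ ∑ r, b r * s r * c r = 1 := by
  by_contra hn
  obtain ⟨M, m1, m2, m3⟩ := Q2.exists_max (Q2.sums S)
    fun h => hn (Q2.mem_sums.1 h)
  obtain ⟨Q, _, π, p1, p2, -⟩ := quot M.asIdeal (Q2.closed_max m2 m3)
  simp only [TwoSidedIdeal.mem_asIdeal] at p2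
  have : Nontrivial Q := ⟨1, 0, fun h => m2 ((p2 1).1 (by rw [map_one, h]))⟩
  have : IsSimpleRing Q := IsSimpleRing.of_eq_bot_or_eq_top fun I => by
    by_cases h1 : (1 : Q) ∈ I
    · exact Or.inr ((I.one_mem_iff).1 h1)
    · left
      have := m3 (TwoSidedIdeal.comap π I)
        (fun x hx => (TwoSidedIdeal.mem_comap π).2 (by rw [(p2 x).2 hx]; exact I.zero_mem))
        fun h => h1 (by simpa using (TwoSidedIdeal.mem_comap π).1 h)
      refine le_bot_iff.1 fun q hq => ?_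
      obtain ⟨x, rfl⟩ := p1 q
      exact (TwoSidedIdeal.mem_bot _).2 ((p2 x).2 (this ((TwoSidedIdeal.mem_comap π).2 hq)))
  obtain ⟨x, hx, h0⟩ := h Q π p1
  refine h0 ((p2 x).2 (m1 (Q2.mem_sums.2 ?_)))
  exact ⟨1, fun _ => 1, fun _ => x, fun _ => 1, fun _ => hx, by simp⟩

theorem central [IsSimpleRing Q] {z : Q} (hz : ∀ q, Commute z q) : ∃ c : ℂ, z = c • 1 := by
  obtain ⟨l, hl⟩ := spectrum.nonempty z
  refine ⟨l, ?_⟩
  set w := algebraMap ℂ Q l - z with hw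
  have hc : ∀ q, Commute w q := fun q => Commute.sub_left (Algebra.commutes l q) (hz q)
  by_contra h0
  have hw0 : w ≠ 0 := fun h => h0 (by rw [← Algebra.algebraMap_eq_smul_one]; exact
    (sub_eq_zero.1 h).symm)
  have := IsSimpleRing.one_mem_of_ne_zero_mem (TwoSidedIdeal.mk' {x | ∃ q, w * q = x}
    ⟨0, mul_zero _⟩ (by rintro _ _ ⟨a, rfl⟩ ⟨b, rfl⟩; exact ⟨a + b, mul_add _ _ _⟩)
    (by rintro _ ⟨a, rfl⟩; exact ⟨-a, mul_neg _ _⟩)
    (by rintro x _ ⟨a, rfl⟩; exact ⟨x * a, by rw [← mul_assoc, (hc x).eq, mul_assoc]⟩)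
    (by rintro _ y ⟨a, rfl⟩; exact ⟨a * y, by rw [mul_assoc]⟩)) hw0
    ((TwoSidedIdeal.mem_mk' _ _ _ _ _ _ _).2 ⟨1, mul_one _⟩)
  obtain ⟨q, hq⟩ := (TwoSidedIdeal.mem_mk' _ _ _ _ _ _ _).1 this
  exact spectrum.mem_iff.1 hl ⟨⟨w, q, hq, (hc q).eq ▸ hq⟩, rfl⟩

theorem nochar (h : IsEmpty (F →⋆ₐ[ℂ] ℂ)) : ∃ (n : ℕ) (b a a' c : Fin n → F),
    (∀ r, IsSelfAdjoint (a r) ∧ IsSelfAdjoint (a' r)) ∧
      ∑ r, b r * (a r * a' r - a' r * a r) * c r = 1 := by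
  obtain ⟨n, b, s, c, h1, h2⟩ := witness
    {x : F | ∃ a a', (IsSelfAdjoint a ∧ IsSelfAdjoint a') ∧ a * a' - a' * a = x} (by
    intro Q _ _ π hπ
    by_contra hn
    have k1 : ∀ a a' : F, IsSelfAdjoint a → IsSelfAdjoint a' → Commute (π a) (π a') :=
      fun a a' ha ha' => by
        by_contra hc
        refine hn ⟨_, ⟨a, a', ⟨ha, ha'⟩, rfl⟩, fun h0 => hc ?_⟩
        rw [map_sub, map_mul, map_mul, sub_eq_zero] at h0
        exact h0
    have k2 : ∀ a : F, IsSelfAdjoint a → ∀ y, Commute (π a) (π y) := fun a ha y => by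
      rw [← realPart_add_I_smul_imaginaryPart y, map_add, map_smul]
      exact (k1 _ _ ha (realPart y).2).add_right ((k1 _ _ ha (imaginaryPart y).2).smul_right _)
    have k3 : ∀ x : F, ∃ c : ℂ, π x = c • 1 := fun x => central fun q => by
      obtain ⟨y, rfl⟩ := hπ q
      rw [← realPart_add_I_smul_imaginaryPart x, map_add, map_smul]
      exact (k2 _ (realPart x).2 y).add_left ((k2 _ (imaginaryPart x).2 y).smul_left _)
    let e : ℂ ≃⋆ₐ[ℂ] Q := StarAlgEquiv.ofBijective (StarAlgHom.ofId ℂ Q)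
      ⟨(algebraMap ℂ Q).injective, fun q => by
        obtain ⟨y, rfl⟩ := hπ q
        obtain ⟨c, hc⟩ := k3 y
        exact ⟨c, by rw [hc, StarAlgHom.ofId_apply, Algebra.algebraMap_eq_smul_one]⟩⟩
    exact h.false ((e.symm : Q →⋆ₐ[ℂ] ℂ).comp π))
  choose a a' ha he using h1
  exact ⟨n, b, a, a', c, ha, by simpa only [he] using h2⟩

theorem Full.star_mul_self {x : B} (h : Full x) : Full (star x * x) := by
  obtain ⟨n, b, s, c, h1, h2⟩ := witness {star x * x} (by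
    intro Q _ _ π _
    refine ⟨_, rfl, fun h0 => ?_⟩
    rw [map_mul, map_star, CStarRing.star_mul_self_eq_zero_iff] at h0
    obtain ⟨n, b, c, e⟩ := h.map π
    simp [h0] at e)
  have h3 : ∀ r, s r = star x * x := h1
  exact ⟨n, b, c, by simpa only [h3] using h2⟩

end Vale.Agent.P101
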