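import Vale.Agent.P101.Work

/-! Utilities for ultrapowers: constants, reindexing, extension of star homomorphisms. -/

namespace Vale.Agent.P101

open Filter Topology Finset TopologicalSpace

variable {A B D E F : Type} [CStarAlgebra A] [CStarAlgebra B] [CStarAlgebra D] [CStarAlgebra E]
  [CStarAlgebra F]

namespace U2

noncomputable instance linfCStar [Nontrivial A] : CStarAlgebra (Linf A) where

/-- Constant sequences as a homomorphism. -/
noncomputable def cstHom (A : Type) [CStarAlgebra A] [Nontrivial A] : A →⋆ₐ[ℂ] Linf A where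
  toFun := cst A
  map_one' := rfl
  map_mul' _ _ := rfl
  map_zero' := rfl
  map_add' _ _ := rfl
  commutes' _ := rfl
  map_star' _ := rfl

lemma hom_cont (f : A →⋆ₐ[ℂ] B) : Continuous f :=
  AddMonoidHomClass.continuous_of_bound f 1 (by
    simpa only [one_mul] using NonUnitalStarAlgHom.norm_apply_le f)

lemma continuous_cst [Nontrivial A] : Continuous (cst A) := hom_cont (cstHom A)

lemma linf_le [Nontrivial A] (x : Linf A) (n : ℕ) : ‖x n‖ ≤ ‖x‖ :=
  lp.norm_apply_le_norm ENNReal.top_ne_zero x n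

/-- Reindexing of bounded sequences. -/
noncomputable def rx [Nontrivial A] (m : ℕ → ℕ) : Linf A →⋆ₐ[ℂ] Linf A where
  toFun x := ⟨fun l => x (m l), memℓp_infty ⟨‖x‖, by rintro _ ⟨l, rfl⟩; exact linf_le x _⟩⟩
  map_one' := rfl
  map_mul' _ _ := rfl
  map_zero' := rfl
  map_add' _ _ := rfl
  commutes' _ := rfl
  map_star' _ := rfl

lemma _root_.Vale.Agent.P101.IsUlt.le2 {ω : Ultrafilter ℕ} [Nontrivial A] {q : Linf A →⋆ₐ[ℂ] E} (hq : IsUlt ω q)
    {x : Linf A} {c : ℝ} (h : ∀ᶠ n in (ω : Filter ℕ), ‖x n‖ ≤ c) : ‖q x‖ ≤ c :=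
  le_of_tendsto (hq.norm x) h

lemma _root_.Vale.Agent.P101.IsUlt.ev2 {ω : Ultrafilter ℕ} [Nontrivial A] {q : Linf A →⋆ₐ[ℂ] E} (hq : IsUlt ω q)
    {x : Linf A} {c : ℝ} (h : ‖q x‖ < c) : ∀ᶠ n in (ω : Filter ℕ), ‖x n‖ < c :=
  (hq.norm x).eventually_lt_const h

/-- Diagonal choice along a free ultrafilter. -/
lemma diag {ω : Ultrafilter ℕ} (hω : (ω : Filter ℕ) ≤ cofinite) {J : Type} [Countable J]
    (P : J → ℕ → ℕ → Prop) (h : ∀ j l, ∀ᶠ n in (ω : Filter ℕ), P j l n) :
    ∃ m : ℕ → ℕ, ∀ j, ∀ᶠ l in (ω : Filter ℕ), P j l (m l) := by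
  obtain ⟨f, hf⟩ := Countable.exists_injective_nat J
  have h1 : ∀ l, ∃ n, ∀ j ∈ f ⁻¹' Set.Iic l, P j l n := fun l =>
    ((eventually_all_finite ((Set.finite_Iic l).preimage hf.injOn)).2 fun j _ => h j l).exists
  choose m hm using h1
  refine ⟨m, fun j => ?_⟩
  have h2 : ∀ᶠ l in (ω : Filter ℕ), f j ≤ l :=
    hω (by rw [Nat.cofinite_eq_atTop]; exact eventually_ge_atTop (f j))
  exact h2.mono fun l hl => hm l j hl

/-- Extension of a dominated star homomorphism along a dense one. -/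
lemma extend_hom {G : Type} [Ring G] [Algebra ℂ G] [StarRing G] (π : G →⋆ₐ[ℂ] D)
    (hπ : DenseRange π) (R : G →⋆ₐ[ℂ] E) (h : ∀ x, ‖R x‖ ≤ ‖π x‖) :
    ∃ ρ : D →⋆ₐ[ℂ] E, ∀ x, ρ (π x) = R x := by
  let L : D →L[ℂ] E := R.toAlgHom.toLinearMap.extendOfNorm π.toAlgHom.toLinearMap
  have hL : ∀ x, L (π x) = R x := fun x =>
    LinearMap.extendOfNorm_eq (f := R.toAlgHom.toLinearMap) (e := π.toAlgHom.toLinearMap) hπ
      ⟨1, fun x => by rw [one_mul]; exact h x⟩ x
  have h1 : L 1 = 1 := by rw [← map_one π, hL, map_one]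
  refine ⟨{ toFun := L, map_one' := h1, map_mul' := fun x y => ?_, map_zero' := map_zero L,
            map_add' := map_add L, commutes' := fun c => ?_, map_star' := fun x => ?_ }, hL⟩
  · refine hπ.induction_on₂ (p := fun x y => L (x * y) = L x * L y)
      (isClosed_eq (by fun_prop) (by fun_prop)) (fun a b => ?_) x y
    rw [← map_mul, hL, hL, hL, map_mul]
  · rw [Algebra.algebraMap_eq_smul_one, Algebra.algebraMap_eq_smul_one, map_smul, h1]
  · refine hπ.induction_on (p := fun x => L (star x) = star (L x)) x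
      (isClosed_eq (by fun_prop) (by fun_prop)) fun a => ?_
    rw [← map_star, hL, hL, map_star]

/-- A countably generated star subalgebra is separable. -/
lemma sep_adjoin {S : Set B} (hS : S.Countable) :
    IsSeparable (StarAlgebra.adjoin ℂ S : Set B) := by
  have h1 : (S ∪ star S).Countable := hS.union (by
    rw [← Set.image_star]; exact hS.image _)
  have := h1.to_subtype
  have h2 : (Submonoid.closure (S ∪ star S) : Set B).Countable := by
    refine (Set.countable_range fun l : List ↥(S ∪ star S) => (l.map Subtype.val).prod).mono ?_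
    intro x hx
    induction hx using Submonoid.closure_induction with
    | mem x hx => exact ⟨[⟨x, hx⟩], by simp⟩
    | one => exact ⟨[], by simp⟩
    | mul x y _ _ hx hy =>
      obtain ⟨l, rfl⟩ := hx
      obtain ⟨l', rfl⟩ := hy
      exact ⟨l ++ l', by simp⟩
  have h3 := h2.isSeparable.span (R := ℂ)
  rw [← Algebra.adjoin_eq_span, ← StarAlgebra.adjoin_toSubalgebra] at h3
  exact h3

lemma isClosed_commute {X : Type} [TopologicalSpace X] {f g : X → B} (hf : Continuous f)
    (hg : Continuous g) : IsClosed {x | Commute (f x) (g x)} :=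
  isClosed_eq (hf.mul hg) (hg.mul hf)

end U2

end Vale.Agent.P101
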