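import Vale.Agent.P101.Defs

/-! Working definitions for P101. -/

namespace Vale.Agent.P101

open Filter Topology Finset

variable {A B D E F : Type} [CStarAlgebra A] [CStarAlgebra B] [CStarAlgebra D] [CStarAlgebra E]
  [CStarAlgebra F]

instance (S : Set B) : IsClosed (StarSubalgebra.centralizer ℂ S : Set B) := by
  rw [StarSubalgebra.coe_centralizer]; exact Set.isClosed_centralizer _

/-- `q` presents `E` as the ultrapower of `A`. -/
structure IsUlt (ω : Ultrafilter ℕ) [Nontrivial A] (q : Linf A →⋆ₐ[ℂ] E) : Prop where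
  surj : Function.Surjective q
  norm : ∀ x, Tendsto (fun n => ‖x n‖) ω (𝓝 ‖q x‖)

/-- The relative commutant of the constant sequences `ι a`. -/
abbrev Cen [Nontrivial B] (q : Linf B →⋆ₐ[ℂ] E) (ι : A → B) : StarSubalgebra ℂ E :=
  StarSubalgebra.centralizer ℂ (Set.range fun a => q (cst B (ι a)))

/-- Full elements. -/
def Full (x : B) : Prop := ∃ (n : ℕ) (b c : Fin n → B), ∑ r, b r * x * c r = 1

/-- Commuting ranges. -/
def Cm {ι : Type} (θ : ι → D →⋆ₐ[ℂ] B) : Prop := ∀ i j, i ≠ j → ∀ x y, Commute (θ i x) (θ j y)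

/-- The ranges generate. -/
def Gen {ι : Type} (θ : ι → D →⋆ₐ[ℂ] B) : Prop :=
  Dense (StarAlgebra.adjoin ℂ (⋃ i, Set.range (θ i)) : Set B)

/-- Commuting copies of separable subalgebras. -/
def Cp (F : Type) [CStarAlgebra F] : Prop :=
  ∀ T : Set F, T.Countable → ∃ (D : Type) (_ : CStarAlgebra D) (e : D →⋆ₐ[ℂ] F),
    Function.Injective e ∧ T ⊆ Set.range e ∧
      ∀ (ι : Type) [Fintype ι], ∃ θ : ι → D →⋆ₐ[ℂ] F, Cm θ

/-- Elementary tensors. -/
noncomputable def Ten {ι : Type} [Fintype ι] {θ : ι → D →⋆ₐ[ℂ] B} (h : Cm θ) (d : ι → D) : B :=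
  univ.noncommProd (fun i => θ i (d i)) fun i _ j _ hij => h i j hij _ _

/-- Positive contractions. -/
def Ctr (h : B) : Prop := IsSelfAdjoint h ∧ spectrum ℝ h ⊆ Set.Icc 0 1

/-- Order zero maps from a matrix algebra, given by the images of the matrix units. -/
structure OZ {κ : Type} [Fintype κ] [DecidableEq κ] (M : κ → κ → B) (h : B) : Prop where
  st : ∀ i j, star (M i j) = M j i
  mul : ∀ i j k l, M i j * M k l = if j = k then h * M i l else 0
  sum : ∑ i, M i i = h

/-- The flip of two commuting order zero maps. -/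
noncomputable def fl {κ : Type} [Fintype κ] (M N : κ → κ → B) : B := ∑ i, ∑ j, M i j * N j i

/-- Interpolation between two commuting order zero maps. -/
noncomputable def intp {κ : Type} [Fintype κ] (C S : B) (M N : κ → κ → B) (a b : κ) : B :=
  C * C * M a b + S * S * N a b + Complex.I • (C * S * (M a b * fl M N - fl M N * M a b))

/-- An order zero map whose remainder is a finite sum of pieces below `M o o`. -/
structure Good {κ : Type} [Fintype κ] [DecidableEq κ] (M : κ → κ → B) (h : B) (o : κ) {K : ℕ}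
    (t : Fin K → B) : Prop where
  oz : OZ M h
  ctr : Ctr h
  sum : ∑ r, star (t r) * t r = 1 - h
  fix : ∀ r, M o o * t r = t r

section OZ
variable {κ : Type} [Fintype κ] [DecidableEq κ] {M : κ → κ → B} {h : B}

lemma OZ.sa (H : OZ M h) : IsSelfAdjoint h := by
  rw [IsSelfAdjoint, ← H.sum, star_sum]
  exact sum_congr rfl fun i _ => H.st i i

lemma OZ.comm (H : OZ M h) (i j : κ) : Commute h (M i j) := by
  have : M i j * h = h * M i j := by
    conv_lhs => rw [← H.sum, mul_sum]
    simp [H.mul]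
  exact this.symm

lemma OZ.map (H : OZ M h) (φ : B →⋆ₐ[ℂ] F) : OZ (fun i j => φ (M i j)) (φ h) :=
  ⟨fun i j => by rw [← map_star, H.st], fun i j k l => by
    rw [← map_mul, H.mul]; split_ifs <;> simp, by rw [← map_sum, H.sum]⟩

lemma OZ.comap {φ : B →⋆ₐ[ℂ] F} (hφ : Function.Injective φ)
    (H : OZ (fun i j => φ (M i j)) (φ h)) : OZ M h :=
  ⟨fun i j => hφ (by rw [map_star, H.st]), fun i j k l => hφ (by
    rw [map_mul, H.mul]; split_ifs <;> simp), hφ (by rw [map_sum, H.sum])⟩

lemma oz_of_v {v : κ → B} {b : B} (hv : ∀ i j, star (v i) * v j = if i = j then b else 0) :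
    OZ (fun i j => v i * star (v j)) (∑ i, v i * star (v i)) :=
  ⟨fun i j => by rw [star_mul, star_star], fun i j k l => by
    have e : ∀ m, v m * star (v m) * (v i * star (v l)) =
        if m = i then v m * b * star (v l) else 0 := fun m => by
      rw [mul_assoc, ← mul_assoc (star (v m)), hv]; split_ifs <;> simp [mul_assoc]
    rw [sum_mul, sum_congr rfl fun m _ => e m, mul_assoc, ← mul_assoc (star (v j)), hv]
    split_ifs <;> simp [mul_assoc], rfl⟩

/-- Multiplying by a self-adjoint element that commutes with the map. -/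
lemma OZ.cut (H : OZ M h) {c : B} (hc : IsSelfAdjoint c) (hM : ∀ i j, Commute c (M i j)) :
    OZ (fun i j => c * M i j) (c * h) :=
  ⟨fun i j => by rw [star_mul, H.st, hc.star_eq, (hM j i).eq], fun i j k l => by
    have h1 : Commute c h := by rw [← H.sum]; exact Commute.sum_right _ _ _ fun i _ => hM i i
    rw [mul_assoc, ← mul_assoc (M i j), ← (hM i j).eq, mul_assoc, H.mul]
    split_ifs
    · rw [← mul_assoc c h, h1.eq]; simp only [mul_assoc, h1.eq, h1.left_comm]
    · simp, by rw [← mul_sum, H.sum]⟩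

end OZ

lemma Ctr.map {h : B} (H : Ctr h) (φ : B →⋆ₐ[ℂ] F) : Ctr (φ h) :=
  ⟨H.1.map φ, (AlgHom.spectrum_apply_subset (φ.toAlgHom.restrictScalars ℝ) h).trans H.2⟩

lemma Ctr.cfc {a : B} {f : ℝ → ℝ} (hf : ∀ x, f x ∈ Set.Icc (0 : ℝ) 1) : Ctr (cfc f a) := by
  refine ⟨cfc_predicate f a, ?_⟩
  refine cfc_cases (fun y => spectrum ℝ y ⊆ Set.Icc 0 1) a f ?_ fun h1 h2 => ?_
  · nontriviality B
    rw [spectrum.zero_eq]
    simp
  · rw [cfcHom_map_spectrum]
    rintro _ ⟨x, rfl⟩
    exact hf x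

lemma Full.map {x : B} (H : Full x) (φ : B →⋆ₐ[ℂ] F) : Full (φ x) := by
  obtain ⟨n, b, c, h⟩ := H
  exact ⟨n, fun r => φ (b r), fun r => φ (c r), by simpa using congrArg φ h⟩

lemma full_of {ι : Type} [Fintype ι] {x : B} (b c : ι → B) (h : ∑ r, b r * x * c r = 1) :
    Full x :=
  ⟨_, b ∘ (Fintype.equivFin ι).symm, c ∘ (Fintype.equivFin ι).symm,
    ((Fintype.equivFin ι).symm.sum_comp fun r => b r * x * c r).trans h⟩

lemma Full.of_mul {a x b : B} (H : Full (a * x * b)) : Full x := by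
  obtain ⟨n, p, q, h⟩ := H
  exact ⟨n, fun r => p r * a, fun r => b * q r, by simpa only [mul_assoc] using h⟩

end Vale.Agent.P101
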